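import Vale.Agent.P280Z.M2.K1.Cs

/-!
# P280Z, block M2: one piece of the check
-/

noncomputable section

namespace Vale.Agent.P280Z.M2.K1

open Al.C3

set_option maxRecDepth 100000 in
theorem run101 : chk (spl 1048576 0 1 (spl 1 0 1 (spl 32768 0 1 G39)))
    (spl 1048576 1 0 (spl 1 0 1 (spl 32768 1 0 cs)))
    (flt 1048576 1 (flt 1 0 (flt 32768 1 (scN 0 n1 t1)))) = true := by decide +kernel

end Vale.Agent.P280Z.M2.K1
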