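import Vale.Agent.P280Z.M2.K1.F

/-!
# P280Z, block M2: the saturations
-/

noncomputable section

namespace Vale.Agent.P280Z.M2.K1

open Al.C3

/-- data -/
def s21_6 : L :=
  L.cons (nat_lit 0) (nat_lit 0) (nat_lit 1) <|
  L.nil

/-- data -/
def s21_4 : L :=
  L.cons (nat_lit 1048576) (nat_lit 0) (nat_lit 1) <|
  L.nil

/-- data -/
def s21_3 : L :=
  L.cons (nat_lit 1048576) (nat_lit 1) (nat_lit 0) <|
  L.nil

/-- data -/
def s21 : LL :=
  LL.cons L.nil <|
  LL.cons L.nil <|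
  LL.cons L.nil <|
  LL.cons L.nil <|
  LL.cons L.nil <|
  LL.cons L.nil <|
  LL.cons L.nil <|
  LL.cons L.nil <|
  LL.cons L.nil <|
  LL.cons L.nil <|
  LL.cons L.nil <|
  LL.cons L.nil <|
  LL.cons L.nil <|
  LL.cons L.nil <|
  LL.cons s21_6 <|
  LL.cons L.nil <|
  LL.cons s21_4 <|
  LL.cons s21_3 <|
  LL.cons L.nil <|
  LL.cons L.nil <|
  LL.cons L.nil <|
  LL.nil

theorem r21 : chk G20 s21 (scN 1073741824 1 f21) = true := by decide +kernel

/-- data -/
def s22_12 : L :=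
  L.cons (nat_lit 0) (nat_lit 0) (nat_lit 1) <|
  L.nil

/-- data -/
def s22_10 : L :=
  L.cons (nat_lit 1048576) (nat_lit 0) (nat_lit 1) <|
  L.nil

/-- data -/
def s22_9 : L :=
  L.cons (nat_lit 1048576) (nat_lit 1) (nat_lit 0) <|
  L.nil

/-- data -/
def s22 : LL :=
  LL.cons L.nil <|
  LL.cons L.nil <|
  LL.cons L.nil <|
  LL.cons L.nil <|
  LL.cons L.nil <|
  LL.cons L.nil <|
  LL.cons L.nil <|
  LL.cons L.nil <|
  LL.cons L.nil <|
  LL.cons s22_12 <|
  LL.cons L.nil <|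
  LL.cons s22_10 <|
  LL.cons s22_9 <|
  LL.cons L.nil <|
  LL.cons L.nil <|
  LL.cons L.nil <|
  LL.cons L.nil <|
  LL.cons L.nil <|
  LL.cons L.nil <|
  LL.cons L.nil <|
  LL.cons L.nil <|
  LL.cons L.nil <|
  LL.nil

theorem r22 : chk G21 s22 (scN 1073741824 1 f22) = true := by decide +kernel

/-- data -/
def s23_2 : L :=
  L.cons (nat_lit 1125899906842624) (nat_lit 90) (nat_lit 0) <| L.cons (nat_lit 35184372121600) (nat_lit 0) (nat_lit 90) <| L.cons (nat_lit 68719476736) (nat_lit 0) (nat_lit 45) <| L.cons (nat_lit 34359803904) (nat_lit 45) (nat_lit 0) <| L.cons (nat_lit 34359738368) (nat_lit 30) (nat_lit 0) <|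
  L.cons (nat_lit 65536) (nat_lit 0) (nat_lit 15) <| L.cons (nat_lit 0) (nat_lit 0) (nat_lit 32) <|
  L.nil

/-- data -/
def s23_1 : L :=
  L.cons (nat_lit 1125899906842624) (nat_lit 0) (nat_lit 270) <| L.cons (nat_lit 35184372121600) (nat_lit 180) (nat_lit 0) <| L.cons (nat_lit 68719476736) (nat_lit 90) (nat_lit 0) <| L.cons (nat_lit 34359803904) (nat_lit 0) (nat_lit 45) <| L.cons (nat_lit 34359738368) (nat_lit 0) (nat_lit 150) <|
  L.cons (nat_lit 65536) (nat_lit 60) (nat_lit 0) <| L.cons (nat_lit 0) (nat_lit 256) (nat_lit 0) <|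
  L.nil

/-- data -/
def s23_0 : L :=
  L.cons (nat_lit 1125899906842624) (nat_lit 90) (nat_lit 0) <| L.cons (nat_lit 68719476736) (nat_lit 0) (nat_lit 45) <| L.cons (nat_lit 34359738368) (nat_lit 120) (nat_lit 0) <| L.cons (nat_lit 0) (nat_lit 0) (nat_lit 512) <|
  L.nil

/-- data -/
def s23_8 : L :=
  L.cons (nat_lit 35184372088832) (nat_lit 0) (nat_lit 2) <| L.cons (nat_lit 34359771136) (nat_lit 3) (nat_lit 0) <| L.cons (nat_lit 98304) (nat_lit 0) (nat_lit 1) <| L.cons (nat_lit 32768) (nat_lit 0) (nat_lit 2) <|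
  L.nil

/-- data -/
def s23_7 : L :=
  L.cons (nat_lit 35184372088832) (nat_lit 4) (nat_lit 0) <| L.cons (nat_lit 34359771136) (nat_lit 0) (nat_lit 3) <| L.cons (nat_lit 32768) (nat_lit 8) (nat_lit 0) <|
  L.nil

/-- data -/
def s23_5 : L :=
  L.cons (nat_lit 35184372088832) (nat_lit 0) (nat_lit 90) <| L.cons (nat_lit 34359771136) (nat_lit 90) (nat_lit 0) <| L.cons (nat_lit 32768) (nat_lit 0) (nat_lit 30) <|
  L.nil

/-- data -/
def s23_4 : L :=
  L.cons (nat_lit 1099511660544) (nat_lit 0) (nat_lit 90) <| L.cons (nat_lit 34360786944) (nat_lit 0) (nat_lit 45) <| L.cons (nat_lit 33619968) (nat_lit 45) (nat_lit 0) <| L.cons (nat_lit 33554432) (nat_lit 0) (nat_lit 90) <| L.cons (nat_lit 1048576) (nat_lit 15) (nat_lit 0) <|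
  L.nil

/-- data -/
def s23_3 : L :=
  L.cons (nat_lit 35184372088832) (nat_lit 180) (nat_lit 0) <| L.cons (nat_lit 1099511660544) (nat_lit 90) (nat_lit 0) <| L.cons (nat_lit 34393292800) (nat_lit 0) (nat_lit 90) <| L.cons (nat_lit 34360786944) (nat_lit 45) (nat_lit 0) <| L.cons (nat_lit 34359771136) (nat_lit 0) (nat_lit 90) <|
  L.cons (nat_lit 33554432) (nat_lit 120) (nat_lit 0) <| L.cons (nat_lit 1048576) (nat_lit 0) (nat_lit 15) <| L.cons (nat_lit 32768) (nat_lit 120) (nat_lit 0) <|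
  L.nil

/-- data -/
def s23_11 : L :=
  L.cons (nat_lit 34359738368) (nat_lit 3) (nat_lit 0) <| L.cons (nat_lit 65536) (nat_lit 0) (nat_lit 3) <| L.cons (nat_lit 0) (nat_lit 0) (nat_lit 2) <|
  L.nil

/-- data -/
def s23_10 : L :=
  L.cons (nat_lit 1099511627776) (nat_lit 0) (nat_lit 2) <| L.cons (nat_lit 33587200) (nat_lit 3) (nat_lit 0) <| L.cons (nat_lit 1081344) (nat_lit 3) (nat_lit 0) <|
  L.nil

/-- data -/
def s23_9 : L :=
  L.cons (nat_lit 1099511627776) (nat_lit 2) (nat_lit 0) <| L.cons (nat_lit 34359738368) (nat_lit 0) (nat_lit 3) <| L.cons (nat_lit 1081344) (nat_lit 0) (nat_lit 3) <| L.cons (nat_lit 0) (nat_lit 8) (nat_lit 0) <|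
  L.nil

/-- data -/
def s23 : LL :=
  LL.cons L.nil <|
  LL.cons L.nil <|
  LL.cons L.nil <|
  LL.cons L.nil <|
  LL.cons L.nil <|
  LL.cons L.nil <|
  LL.cons L.nil <|
  LL.cons L.nil <|
  LL.cons L.nil <|
  LL.cons L.nil <|
  LL.cons L.nil <|
  LL.cons s23_11 <|
  LL.cons s23_10 <|
  LL.cons s23_9 <|
  LL.cons s23_8 <|
  LL.cons s23_7 <|
  LL.cons L.nil <|
  LL.cons s23_5 <|
  LL.cons s23_4 <|
  LL.cons s23_3 <|
  LL.cons s23_2 <|
  LL.cons s23_1 <|
  LL.cons s23_0 <|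
  LL.nil

theorem r23 : chk G22 s23 (scN 1073741824 1 f23) = true := by decide +kernel

/-- data -/
def s24_4 : L :=
  L.cons (nat_lit 1125899906842624) (nat_lit 0) (nat_lit 180) <| L.cons (nat_lit 35184372121600) (nat_lit 90) (nat_lit 0) <| L.cons (nat_lit 68719476736) (nat_lit 45) (nat_lit 0) <| L.cons (nat_lit 34359738368) (nat_lit 0) (nat_lit 120) <| L.cons (nat_lit 65536) (nat_lit 45) (nat_lit 0) <|
  L.cons (nat_lit 0) (nat_lit 224) (nat_lit 0) <|
  L.nil

/-- data -/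
def s24_3 : L :=
  L.cons (nat_lit 1125899906842624) (nat_lit 270) (nat_lit 0) <| L.cons (nat_lit 35184372121600) (nat_lit 0) (nat_lit 180) <| L.cons (nat_lit 68719476736) (nat_lit 0) (nat_lit 90) <| L.cons (nat_lit 34359803904) (nat_lit 45) (nat_lit 0) <| L.cons (nat_lit 34359738368) (nat_lit 150) (nat_lit 0) <|
  L.cons (nat_lit 65536) (nat_lit 0) (nat_lit 60) <| L.cons (nat_lit 0) (nat_lit 0) (nat_lit 256) <|
  L.nil

/-- data -/
def s24_9 : L :=
  L.cons (nat_lit 35184372088832) (nat_lit 0) (nat_lit 4) <| L.cons (nat_lit 34359771136) (nat_lit 3) (nat_lit 0) <| L.cons (nat_lit 32768) (nat_lit 0) (nat_lit 8) <|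
  L.nil

/-- data -/
def s24_10 : L :=
  L.cons (nat_lit 35184372088832) (nat_lit 2) (nat_lit 0) <| L.cons (nat_lit 98304) (nat_lit 0) (nat_lit 1) <| L.cons (nat_lit 32768) (nat_lit 6) (nat_lit 0) <|
  L.nil

/-- data -/
def s24 : LL :=
  LL.cons L.nil <|
  LL.cons L.nil <|
  LL.cons L.nil <|
  LL.cons L.nil <|
  LL.cons L.nil <|
  LL.cons L.nil <|
  LL.cons L.nil <|
  LL.cons L.nil <|
  LL.cons L.nil <|
  LL.cons L.nil <|
  LL.cons L.nil <|
  LL.cons L.nil <|
  LL.cons L.nil <|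
  LL.cons s24_10 <|
  LL.cons s24_9 <|
  LL.cons L.nil <|
  LL.cons L.nil <|
  LL.cons L.nil <|
  LL.cons L.nil <|
  LL.cons s24_4 <|
  LL.cons s24_3 <|
  LL.cons L.nil <|
  LL.cons L.nil <|
  LL.cons L.nil <|
  LL.nil

theorem r24 : chk G23 s24 (scN 1073741824 1 f24) = true := by decide +kernel

/-- data -/
def s25_4 : L :=
  L.cons (nat_lit 1125899906842624) (nat_lit 90) (nat_lit 0) <| L.cons (nat_lit 34359803904) (nat_lit 0) (nat_lit 45) <| L.cons (nat_lit 34359738368) (nat_lit 90) (nat_lit 0) <| L.cons (nat_lit 65536) (nat_lit 0) (nat_lit 30) <| L.cons (nat_lit 0) (nat_lit 0) (nat_lit 192) <|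
  L.nil

/-- data -/
def s25_3 : L :=
  L.cons (nat_lit 1125899906842624) (nat_lit 0) (nat_lit 180) <| L.cons (nat_lit 35184372121600) (nat_lit 90) (nat_lit 0) <| L.cons (nat_lit 68719476736) (nat_lit 45) (nat_lit 0) <| L.cons (nat_lit 34359738368) (nat_lit 0) (nat_lit 120) <| L.cons (nat_lit 65536) (nat_lit 45) (nat_lit 0) <|
  L.cons (nat_lit 0) (nat_lit 224) (nat_lit 0) <|
  L.nil

/-- data -/
def s25_10 : L :=
  L.cons (nat_lit 34359771136) (nat_lit 0) (nat_lit 3) <| L.cons (nat_lit 98304) (nat_lit 2) (nat_lit 0) <| L.cons (nat_lit 32768) (nat_lit 0) (nat_lit 4) <|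
  L.nil

/-- data -/
def s25_9 : L :=
  L.cons (nat_lit 35184372088832) (nat_lit 2) (nat_lit 0) <| L.cons (nat_lit 98304) (nat_lit 0) (nat_lit 1) <| L.cons (nat_lit 32768) (nat_lit 6) (nat_lit 0) <|
  L.nil

/-- data -/
def s25 : LL :=
  LL.cons L.nil <|
  LL.cons L.nil <|
  LL.cons L.nil <|
  LL.cons L.nil <|
  LL.cons L.nil <|
  LL.cons L.nil <|
  LL.cons L.nil <|
  LL.cons L.nil <|
  LL.cons L.nil <|
  LL.cons L.nil <|
  LL.cons L.nil <|
  LL.cons L.nil <|
  LL.cons L.nil <|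
  LL.cons L.nil <|
  LL.cons s25_10 <|
  LL.cons s25_9 <|
  LL.cons L.nil <|
  LL.cons L.nil <|
  LL.cons L.nil <|
  LL.cons L.nil <|
  LL.cons s25_4 <|
  LL.cons s25_3 <|
  LL.cons L.nil <|
  LL.cons L.nil <|
  LL.cons L.nil <|
  LL.nil

theorem r25 : chk G24 s25 (scN 1073741824 1 f25) = true := by decide +kernel

/-- data -/
def s26_5 : L :=
  L.cons (nat_lit 1125899906842624) (nat_lit 90) (nat_lit 0) <| L.cons (nat_lit 35184372121600) (nat_lit 0) (nat_lit 90) <| L.cons (nat_lit 68719476736) (nat_lit 0) (nat_lit 45) <| L.cons (nat_lit 34359803904) (nat_lit 45) (nat_lit 0) <| L.cons (nat_lit 34359738368) (nat_lit 30) (nat_lit 0) <|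
  L.cons (nat_lit 65536) (nat_lit 0) (nat_lit 15) <| L.cons (nat_lit 0) (nat_lit 0) (nat_lit 32) <|
  L.nil

/-- data -/
def s26_4 : L :=
  L.cons (nat_lit 1125899906842624) (nat_lit 0) (nat_lit 90) <| L.cons (nat_lit 35184373137408) (nat_lit 90) (nat_lit 0) <| L.cons (nat_lit 35184372121600) (nat_lit 90) (nat_lit 0) <| L.cons (nat_lit 34360819712) (nat_lit 0) (nat_lit 90) <| L.cons (nat_lit 1081344) (nat_lit 30) (nat_lit 0) <|
  L.cons (nat_lit 65536) (nat_lit 45) (nat_lit 0) <| L.cons (nat_lit 0) (nat_lit 0) (nat_lit 288) <|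
  L.nil

/-- data -/
def s26_3 : L :=
  L.cons (nat_lit 1125899906842624) (nat_lit 0) (nat_lit 90) <| L.cons (nat_lit 35184373137408) (nat_lit 0) (nat_lit 90) <| L.cons (nat_lit 68719476736) (nat_lit 45) (nat_lit 0) <| L.cons (nat_lit 34360819712) (nat_lit 90) (nat_lit 0) <| L.cons (nat_lit 34359738368) (nat_lit 0) (nat_lit 120) <|
  L.cons (nat_lit 1081344) (nat_lit 0) (nat_lit 30) <| L.cons (nat_lit 0) (nat_lit 512) (nat_lit 0) <|
  L.nil

/-- data -/
def s26_11 : L :=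
  L.cons (nat_lit 35184372088832) (nat_lit 0) (nat_lit 2) <| L.cons (nat_lit 34359771136) (nat_lit 3) (nat_lit 0) <| L.cons (nat_lit 98304) (nat_lit 0) (nat_lit 1) <| L.cons (nat_lit 32768) (nat_lit 0) (nat_lit 2) <|
  L.nil

/-- data -/
def s26_10 : L :=
  L.cons (nat_lit 35184372088832) (nat_lit 2) (nat_lit 0) <| L.cons (nat_lit 34360786944) (nat_lit 0) (nat_lit 3) <| L.cons (nat_lit 1114112) (nat_lit 3) (nat_lit 0) <| L.cons (nat_lit 1048576) (nat_lit 2) (nat_lit 0) <| L.cons (nat_lit 98304) (nat_lit 0) (nat_lit 1) <|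
  L.cons (nat_lit 32768) (nat_lit 6) (nat_lit 0) <|
  L.nil

/-- data -/
def s26_9 : L :=
  L.cons (nat_lit 34360786944) (nat_lit 3) (nat_lit 0) <| L.cons (nat_lit 1114112) (nat_lit 0) (nat_lit 3) <| L.cons (nat_lit 1048576) (nat_lit 0) (nat_lit 2) <|
  L.nil

/-- data -/
def s26 : LL :=
  LL.cons L.nil <|
  LL.cons L.nil <|
  LL.cons L.nil <|
  LL.cons L.nil <|
  LL.cons L.nil <|
  LL.cons L.nil <|
  LL.cons L.nil <|
  LL.cons L.nil <|
  LL.cons L.nil <|
  LL.cons L.nil <|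
  LL.cons L.nil <|
  LL.cons L.nil <|
  LL.cons L.nil <|
  LL.cons L.nil <|
  LL.cons s26_11 <|
  LL.cons s26_10 <|
  LL.cons s26_9 <|
  LL.cons L.nil <|
  LL.cons L.nil <|
  LL.cons L.nil <|
  LL.cons s26_5 <|
  LL.cons s26_4 <|
  LL.cons s26_3 <|
  LL.cons L.nil <|
  LL.cons L.nil <|
  LL.cons L.nil <|
  LL.nil

theorem r26 : chk G25 s26 (scN 1073741824 1 f26) = true := by decide +kernel

/-- data -/
def s27_0 : L :=
  L.cons (nat_lit 70368744177664) (nat_lit 8) (nat_lit 0) <| L.cons (nat_lit 35218731859968) (nat_lit 0) (nat_lit 24) <| L.cons (nat_lit 35184372187136) (nat_lit 8) (nat_lit 0) <| L.cons (nat_lit 35184372121600) (nat_lit 16) (nat_lit 0) <| L.cons (nat_lit 68719542272) (nat_lit 18) (nat_lit 0) <|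
  L.cons (nat_lit 34359869440) (nat_lit 0) (nat_lit 12) <| L.cons (nat_lit 34359803904) (nat_lit 0) (nat_lit 24) <| L.cons (nat_lit 196608) (nat_lit 2) (nat_lit 0) <| L.cons (nat_lit 131072) (nat_lit 8) (nat_lit 0) <| L.cons (nat_lit 65536) (nat_lit 8) (nat_lit 0) <|
  L.nil

/-- data -/
def s27_1 : L :=
  L.cons (nat_lit 70368744177664) (nat_lit 0) (nat_lit 16) <| L.cons (nat_lit 35218731859968) (nat_lit 48) (nat_lit 0) <| L.cons (nat_lit 35184372187136) (nat_lit 0) (nat_lit 16) <| L.cons (nat_lit 35184372121600) (nat_lit 0) (nat_lit 32) <| L.cons (nat_lit 68719542272) (nat_lit 0) (nat_lit 36) <|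
  L.cons (nat_lit 34359869440) (nat_lit 24) (nat_lit 0) <| L.cons (nat_lit 34359803904) (nat_lit 48) (nat_lit 0) <| L.cons (nat_lit 196608) (nat_lit 0) (nat_lit 4) <| L.cons (nat_lit 131072) (nat_lit 0) (nat_lit 16) <| L.cons (nat_lit 65536) (nat_lit 0) (nat_lit 16) <|
  L.nil

/-- data -/
def s27_4 : L :=
  L.cons (nat_lit 36283883716608) (nat_lit 8) (nat_lit 0) <| L.cons (nat_lit 35184406691840) (nat_lit 12) (nat_lit 0) <| L.cons (nat_lit 35184405676032) (nat_lit 12) (nat_lit 0) <| L.cons (nat_lit 35184374185984) (nat_lit 0) (nat_lit 12) <| L.cons (nat_lit 35184373170176) (nat_lit 0) (nat_lit 36) <|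
  L.cons (nat_lit 35184372154368) (nat_lit 0) (nat_lit 24) <| L.cons (nat_lit 35184372088832) (nat_lit 48) (nat_lit 0) <| L.cons (nat_lit 1133871398912) (nat_lit 0) (nat_lit 24) <| L.cons (nat_lit 1099511726080) (nat_lit 12) (nat_lit 0) <| L.cons (nat_lit 1099511660544) (nat_lit 0) (nat_lit 8) <|
  L.cons (nat_lit 34394374144) (nat_lit 0) (nat_lit 18) <| L.cons (nat_lit 34393358336) (nat_lit 0) (nat_lit 18) <| L.cons (nat_lit 34361868288) (nat_lit 24) (nat_lit 0) <| L.cons (nat_lit 34360852480) (nat_lit 72) (nat_lit 0) <| L.cons (nat_lit 34359836672) (nat_lit 54) (nat_lit 0) <|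
  L.cons (nat_lit 34359771136) (nat_lit 0) (nat_lit 108) <| L.cons (nat_lit 34701312) (nat_lit 6) (nat_lit 0) <| L.cons (nat_lit 34635776) (nat_lit 12) (nat_lit 0) <| L.cons (nat_lit 33685504) (nat_lit 6) (nat_lit 0) <| L.cons (nat_lit 33619968) (nat_lit 12) (nat_lit 0) <|
  L.cons (nat_lit 2195456) (nat_lit 0) (nat_lit 10) <| L.cons (nat_lit 2129920) (nat_lit 0) (nat_lit 4) <| L.cons (nat_lit 1179648) (nat_lit 0) (nat_lit 30) <| L.cons (nat_lit 1114112) (nat_lit 0) (nat_lit 12) <| L.cons (nat_lit 163840) (nat_lit 0) (nat_lit 24) <|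
  L.cons (nat_lit 98304) (nat_lit 48) (nat_lit 0) <|
  L.nil

/-- data -/
def s27_3 : L :=
  L.cons (nat_lit 36283883716608) (nat_lit 0) (nat_lit 16) <| L.cons (nat_lit 35184406691840) (nat_lit 0) (nat_lit 12) <| L.cons (nat_lit 35184405676032) (nat_lit 0) (nat_lit 12) <| L.cons (nat_lit 35184374185984) (nat_lit 16) (nat_lit 0) <| L.cons (nat_lit 35184373170176) (nat_lit 48) (nat_lit 0) <|
  L.cons (nat_lit 35184372154368) (nat_lit 36) (nat_lit 0) <| L.cons (nat_lit 35184372088832) (nat_lit 0) (nat_lit 72) <| L.cons (nat_lit 1133871398912) (nat_lit 36) (nat_lit 0) <| L.cons (nat_lit 1099511726080) (nat_lit 0) (nat_lit 16) <| L.cons (nat_lit 34394374144) (nat_lit 18) (nat_lit 0) <|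
  L.cons (nat_lit 34393358336) (nat_lit 18) (nat_lit 0) <| L.cons (nat_lit 34361868288) (nat_lit 0) (nat_lit 30) <| L.cons (nat_lit 34360852480) (nat_lit 0) (nat_lit 90) <| L.cons (nat_lit 34359836672) (nat_lit 0) (nat_lit 72) <| L.cons (nat_lit 34359771136) (nat_lit 144) (nat_lit 0) <|
  L.cons (nat_lit 34701312) (nat_lit 0) (nat_lit 6) <| L.cons (nat_lit 34635776) (nat_lit 0) (nat_lit 12) <| L.cons (nat_lit 33685504) (nat_lit 0) (nat_lit 6) <| L.cons (nat_lit 33619968) (nat_lit 0) (nat_lit 12) <| L.cons (nat_lit 2195456) (nat_lit 12) (nat_lit 0) <|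
  L.cons (nat_lit 2129920) (nat_lit 8) (nat_lit 0) <| L.cons (nat_lit 1179648) (nat_lit 36) (nat_lit 0) <| L.cons (nat_lit 1114112) (nat_lit 24) (nat_lit 0) <| L.cons (nat_lit 163840) (nat_lit 30) (nat_lit 0) <| L.cons (nat_lit 98304) (nat_lit 0) (nat_lit 48) <|
  L.cons (nat_lit 32768) (nat_lit 0) (nat_lit 24) <|
  L.nil

/-- data -/
def s27_2 : L :=
  L.cons (nat_lit 70368744177664) (nat_lit 4) (nat_lit 0) <| L.cons (nat_lit 35218731859968) (nat_lit 0) (nat_lit 12) <| L.cons (nat_lit 35184372187136) (nat_lit 4) (nat_lit 0) <| L.cons (nat_lit 35184372121600) (nat_lit 8) (nat_lit 0) <| L.cons (nat_lit 68719542272) (nat_lit 9) (nat_lit 0) <|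
  L.cons (nat_lit 34359869440) (nat_lit 0) (nat_lit 6) <| L.cons (nat_lit 34359803904) (nat_lit 0) (nat_lit 12) <| L.cons (nat_lit 196608) (nat_lit 1) (nat_lit 0) <| L.cons (nat_lit 131072) (nat_lit 4) (nat_lit 0) <| L.cons (nat_lit 65536) (nat_lit 4) (nat_lit 0) <|
  L.nil

/-- data -/
def s27_21 : L :=
  L.cons (nat_lit 70368744177664) (nat_lit 4) (nat_lit 0) <| L.cons (nat_lit 35218731859968) (nat_lit 0) (nat_lit 12) <| L.cons (nat_lit 35184372187136) (nat_lit 4) (nat_lit 0) <| L.cons (nat_lit 35184372121600) (nat_lit 8) (nat_lit 0) <| L.cons (nat_lit 68719542272) (nat_lit 9) (nat_lit 0) <|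
  L.cons (nat_lit 34359869440) (nat_lit 0) (nat_lit 6) <| L.cons (nat_lit 34359803904) (nat_lit 0) (nat_lit 12) <| L.cons (nat_lit 196608) (nat_lit 1) (nat_lit 0) <| L.cons (nat_lit 131072) (nat_lit 4) (nat_lit 0) <| L.cons (nat_lit 65536) (nat_lit 4) (nat_lit 0) <|
  L.nil

/-- data -/
def s27 : LL :=
  LL.cons L.nil <|
  LL.cons L.nil <|
  LL.cons L.nil <|
  LL.cons L.nil <|
  LL.cons L.nil <|
  LL.cons s27_21 <|
  LL.cons L.nil <|
  LL.cons L.nil <|
  LL.cons L.nil <|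
  LL.cons L.nil <|
  LL.cons L.nil <|
  LL.cons L.nil <|
  LL.cons L.nil <|
  LL.cons L.nil <|
  LL.cons L.nil <|
  LL.cons L.nil <|
  LL.cons L.nil <|
  LL.cons L.nil <|
  LL.cons L.nil <|
  LL.cons L.nil <|
  LL.cons L.nil <|
  LL.cons L.nil <|
  LL.cons s27_4 <|
  LL.cons s27_3 <|
  LL.cons s27_2 <|
  LL.cons s27_1 <|
  LL.cons s27_0 <|
  LL.nil

theorem r27 : chk G26 s27 (scN 1073741824 2 f27) = true := by decide +kernel

/-- data -/
def s28_21 : L :=
  L.cons (nat_lit 35218732875776) (nat_lit 6) (nat_lit 0) <| L.cons (nat_lit 35218731859968) (nat_lit 0) (nat_lit 6) <| L.cons (nat_lit 35184373202944) (nat_lit 0) (nat_lit 6) <| L.cons (nat_lit 35184373137408) (nat_lit 0) (nat_lit 4) <| L.cons (nat_lit 35184372187136) (nat_lit 4) (nat_lit 0) <|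
  L.cons (nat_lit 35184372121600) (nat_lit 0) (nat_lit 8) <| L.cons (nat_lit 68720558080) (nat_lit 0) (nat_lit 9) <| L.cons (nat_lit 34360885248) (nat_lit 12) (nat_lit 0) <| L.cons (nat_lit 34360819712) (nat_lit 12) (nat_lit 0) <| L.cons (nat_lit 34359869440) (nat_lit 3) (nat_lit 0) <|
  L.cons (nat_lit 34359803904) (nat_lit 0) (nat_lit 18) <| L.cons (nat_lit 1212416) (nat_lit 0) (nat_lit 3) <| L.cons (nat_lit 1146880) (nat_lit 0) (nat_lit 8) <| L.cons (nat_lit 1081344) (nat_lit 0) (nat_lit 4) <| L.cons (nat_lit 196608) (nat_lit 0) (nat_lit 2) <|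
  L.cons (nat_lit 131072) (nat_lit 16) (nat_lit 0) <| L.cons (nat_lit 65536) (nat_lit 0) (nat_lit 24) <|
  L.nil

/-- data -/
def s28_2 : L :=
  L.cons (nat_lit 35218732875776) (nat_lit 6) (nat_lit 0) <| L.cons (nat_lit 35218731859968) (nat_lit 0) (nat_lit 6) <| L.cons (nat_lit 35184373202944) (nat_lit 0) (nat_lit 6) <| L.cons (nat_lit 35184373137408) (nat_lit 0) (nat_lit 4) <| L.cons (nat_lit 35184372187136) (nat_lit 4) (nat_lit 0) <|
  L.cons (nat_lit 35184372121600) (nat_lit 0) (nat_lit 8) <| L.cons (nat_lit 68720558080) (nat_lit 0) (nat_lit 9) <| L.cons (nat_lit 34360885248) (nat_lit 12) (nat_lit 0) <| L.cons (nat_lit 34360819712) (nat_lit 12) (nat_lit 0) <| L.cons (nat_lit 34359869440) (nat_lit 3) (nat_lit 0) <|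
  L.cons (nat_lit 34359803904) (nat_lit 0) (nat_lit 18) <| L.cons (nat_lit 1212416) (nat_lit 0) (nat_lit 3) <| L.cons (nat_lit 1146880) (nat_lit 0) (nat_lit 8) <| L.cons (nat_lit 1081344) (nat_lit 0) (nat_lit 4) <| L.cons (nat_lit 196608) (nat_lit 0) (nat_lit 2) <|
  L.cons (nat_lit 131072) (nat_lit 16) (nat_lit 0) <| L.cons (nat_lit 65536) (nat_lit 0) (nat_lit 24) <|
  L.nil

/-- data -/
def s28_1 : L :=
  L.cons (nat_lit 35218732875776) (nat_lit 0) (nat_lit 24) <| L.cons (nat_lit 35218731859968) (nat_lit 24) (nat_lit 0) <| L.cons (nat_lit 35184373202944) (nat_lit 24) (nat_lit 0) <| L.cons (nat_lit 35184373137408) (nat_lit 16) (nat_lit 0) <| L.cons (nat_lit 35184372187136) (nat_lit 0) (nat_lit 16) <|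
  L.cons (nat_lit 35184372121600) (nat_lit 32) (nat_lit 0) <| L.cons (nat_lit 68720558080) (nat_lit 36) (nat_lit 0) <| L.cons (nat_lit 34360885248) (nat_lit 0) (nat_lit 48) <| L.cons (nat_lit 34360819712) (nat_lit 0) (nat_lit 48) <| L.cons (nat_lit 34359869440) (nat_lit 0) (nat_lit 12) <|
  L.cons (nat_lit 34359803904) (nat_lit 72) (nat_lit 0) <| L.cons (nat_lit 1212416) (nat_lit 12) (nat_lit 0) <| L.cons (nat_lit 1146880) (nat_lit 32) (nat_lit 0) <| L.cons (nat_lit 1081344) (nat_lit 16) (nat_lit 0) <| L.cons (nat_lit 196608) (nat_lit 8) (nat_lit 0) <|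
  L.cons (nat_lit 131072) (nat_lit 0) (nat_lit 64) <| L.cons (nat_lit 65536) (nat_lit 96) (nat_lit 0) <|
  L.nil

/-- data -/
def s28_0 : L :=
  L.cons (nat_lit 35218732875776) (nat_lit 12) (nat_lit 0) <| L.cons (nat_lit 35218731859968) (nat_lit 0) (nat_lit 12) <| L.cons (nat_lit 35184373202944) (nat_lit 0) (nat_lit 12) <| L.cons (nat_lit 35184373137408) (nat_lit 0) (nat_lit 8) <| L.cons (nat_lit 35184372187136) (nat_lit 8) (nat_lit 0) <|
  L.cons (nat_lit 35184372121600) (nat_lit 0) (nat_lit 16) <| L.cons (nat_lit 68720558080) (nat_lit 0) (nat_lit 18) <| L.cons (nat_lit 34360885248) (nat_lit 24) (nat_lit 0) <| L.cons (nat_lit 34360819712) (nat_lit 24) (nat_lit 0) <| L.cons (nat_lit 34359869440) (nat_lit 6) (nat_lit 0) <|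
  L.cons (nat_lit 34359803904) (nat_lit 0) (nat_lit 36) <| L.cons (nat_lit 1212416) (nat_lit 0) (nat_lit 6) <| L.cons (nat_lit 1146880) (nat_lit 0) (nat_lit 16) <| L.cons (nat_lit 1081344) (nat_lit 0) (nat_lit 8) <| L.cons (nat_lit 196608) (nat_lit 0) (nat_lit 4) <|
  L.cons (nat_lit 131072) (nat_lit 32) (nat_lit 0) <| L.cons (nat_lit 65536) (nat_lit 0) (nat_lit 48) <|
  L.nil

/-- data -/
def s28_5 : L :=
  L.cons (nat_lit 36283883716608) (nat_lit 0) (nat_lit 8) <| L.cons (nat_lit 35184406691840) (nat_lit 12) (nat_lit 0) <| L.cons (nat_lit 35184405676032) (nat_lit 12) (nat_lit 0) <| L.cons (nat_lit 35184374185984) (nat_lit 0) (nat_lit 4) <| L.cons (nat_lit 35184373170176) (nat_lit 0) (nat_lit 12) <|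
  L.cons (nat_lit 1099511726080) (nat_lit 4) (nat_lit 0) <| L.cons (nat_lit 1099511660544) (nat_lit 0) (nat_lit 24) <| L.cons (nat_lit 34394374144) (nat_lit 0) (nat_lit 18) <| L.cons (nat_lit 34393358336) (nat_lit 0) (nat_lit 18) <| L.cons (nat_lit 34361868288) (nat_lit 12) (nat_lit 0) <|
  L.cons (nat_lit 34360852480) (nat_lit 36) (nat_lit 0) <| L.cons (nat_lit 34359836672) (nat_lit 18) (nat_lit 0) <| L.cons (nat_lit 34359771136) (nat_lit 0) (nat_lit 36) <| L.cons (nat_lit 34701312) (nat_lit 6) (nat_lit 0) <| L.cons (nat_lit 34635776) (nat_lit 12) (nat_lit 0) <|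
  L.cons (nat_lit 33685504) (nat_lit 6) (nat_lit 0) <| L.cons (nat_lit 33619968) (nat_lit 12) (nat_lit 0) <| L.cons (nat_lit 2195456) (nat_lit 0) (nat_lit 6) <| L.cons (nat_lit 2129920) (nat_lit 4) (nat_lit 0) <| L.cons (nat_lit 1179648) (nat_lit 0) (nat_lit 18) <|
  L.cons (nat_lit 1114112) (nat_lit 12) (nat_lit 0) <| L.cons (nat_lit 163840) (nat_lit 0) (nat_lit 12) <| L.cons (nat_lit 98304) (nat_lit 48) (nat_lit 0) <| L.cons (nat_lit 32768) (nat_lit 0) (nat_lit 48) <|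
  L.nil

/-- data -/
def s28_4 : L :=
  L.cons (nat_lit 1133872414720) (nat_lit 24) (nat_lit 0) <| L.cons (nat_lit 1099512741888) (nat_lit 0) (nat_lit 24) <| L.cons (nat_lit 1099512676352) (nat_lit 0) (nat_lit 16) <| L.cons (nat_lit 34394374144) (nat_lit 0) (nat_lit 36) <| L.cons (nat_lit 34393358336) (nat_lit 0) (nat_lit 36) <|
  L.cons (nat_lit 34362884096) (nat_lit 0) (nat_lit 12) <| L.cons (nat_lit 34361868288) (nat_lit 0) (nat_lit 12) <| L.cons (nat_lit 34360852480) (nat_lit 36) (nat_lit 0) <| L.cons (nat_lit 34360786944) (nat_lit 72) (nat_lit 0) <| L.cons (nat_lit 34359836672) (nat_lit 36) (nat_lit 0) <|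
  L.cons (nat_lit 34359771136) (nat_lit 0) (nat_lit 72) <| L.cons (nat_lit 34701312) (nat_lit 24) (nat_lit 0) <| L.cons (nat_lit 34635776) (nat_lit 0) (nat_lit 48) <| L.cons (nat_lit 33685504) (nat_lit 24) (nat_lit 0) <| L.cons (nat_lit 33619968) (nat_lit 0) (nat_lit 48) <|
  L.cons (nat_lit 3211264) (nat_lit 12) (nat_lit 0) <| L.cons (nat_lit 3145728) (nat_lit 8) (nat_lit 0) <| L.cons (nat_lit 2195456) (nat_lit 20) (nat_lit 0) <| L.cons (nat_lit 2129920) (nat_lit 56) (nat_lit 0) <| L.cons (nat_lit 1179648) (nat_lit 0) (nat_lit 12) <|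
  L.cons (nat_lit 1114112) (nat_lit 48) (nat_lit 0) <| L.cons (nat_lit 1048576) (nat_lit 0) (nat_lit 48) <| L.cons (nat_lit 163840) (nat_lit 0) (nat_lit 24) <| L.cons (nat_lit 98304) (nat_lit 96) (nat_lit 0) <| L.cons (nat_lit 32768) (nat_lit 0) (nat_lit 96) <|
  L.nil

/-- data -/
def s28_3 : L :=
  L.cons (nat_lit 36283883716608) (nat_lit 24) (nat_lit 0) <| L.cons (nat_lit 35184406691840) (nat_lit 0) (nat_lit 36) <| L.cons (nat_lit 35184405676032) (nat_lit 0) (nat_lit 36) <| L.cons (nat_lit 35184374185984) (nat_lit 12) (nat_lit 0) <| L.cons (nat_lit 35184373170176) (nat_lit 36) (nat_lit 0) <|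
  L.cons (nat_lit 1133872414720) (nat_lit 0) (nat_lit 36) <| L.cons (nat_lit 1099512741888) (nat_lit 36) (nat_lit 0) <| L.cons (nat_lit 1099512676352) (nat_lit 24) (nat_lit 0) <| L.cons (nat_lit 1099511726080) (nat_lit 0) (nat_lit 12) <| L.cons (nat_lit 1099511660544) (nat_lit 72) (nat_lit 0) <|
  L.cons (nat_lit 34394374144) (nat_lit 108) (nat_lit 0) <| L.cons (nat_lit 34393358336) (nat_lit 108) (nat_lit 0) <| L.cons (nat_lit 34362884096) (nat_lit 18) (nat_lit 0) <| L.cons (nat_lit 34361868288) (nat_lit 0) (nat_lit 18) <| L.cons (nat_lit 34360852480) (nat_lit 0) (nat_lit 162) <|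
  L.cons (nat_lit 34360786944) (nat_lit 0) (nat_lit 108) <| L.cons (nat_lit 34359836672) (nat_lit 0) (nat_lit 108) <| L.cons (nat_lit 34359771136) (nat_lit 216) (nat_lit 0) <| L.cons (nat_lit 34701312) (nat_lit 0) (nat_lit 54) <| L.cons (nat_lit 34635776) (nat_lit 36) (nat_lit 0) <|
  L.cons (nat_lit 33685504) (nat_lit 0) (nat_lit 54) <| L.cons (nat_lit 33619968) (nat_lit 36) (nat_lit 0) <| L.cons (nat_lit 3211264) (nat_lit 0) (nat_lit 18) <| L.cons (nat_lit 3145728) (nat_lit 0) (nat_lit 12) <| L.cons (nat_lit 2195456) (nat_lit 0) (nat_lit 12) <|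
  L.cons (nat_lit 2129920) (nat_lit 0) (nat_lit 96) <| L.cons (nat_lit 1179648) (nat_lit 72) (nat_lit 0) <| L.cons (nat_lit 1114112) (nat_lit 0) (nat_lit 108) <| L.cons (nat_lit 1048576) (nat_lit 72) (nat_lit 0) <| L.cons (nat_lit 163840) (nat_lit 72) (nat_lit 0) <|
  L.cons (nat_lit 98304) (nat_lit 0) (nat_lit 288) <| L.cons (nat_lit 32768) (nat_lit 288) (nat_lit 0) <|
  L.nil

/-- data -/
def s28 : LL :=
  LL.cons L.nil <|
  LL.cons L.nil <|
  LL.cons L.nil <|
  LL.cons L.nil <|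
  LL.cons L.nil <|
  LL.cons L.nil <|
  LL.cons s28_21 <|
  LL.cons L.nil <|
  LL.cons L.nil <|
  LL.cons L.nil <|
  LL.cons L.nil <|
  LL.cons L.nil <|
  LL.cons L.nil <|
  LL.cons L.nil <|
  LL.cons L.nil <|
  LL.cons L.nil <|
  LL.cons L.nil <|
  LL.cons L.nil <|
  LL.cons L.nil <|
  LL.cons L.nil <|
  LL.cons L.nil <|
  LL.cons L.nil <|
  LL.cons s28_5 <|
  LL.cons s28_4 <|
  LL.cons s28_3 <|
  LL.cons s28_2 <|
  LL.cons s28_1 <|
  LL.cons s28_0 <|
  LL.nil

theorem r28 : chk G27 s28 (scN 1073741824 2 f28) = true := by decide +kernel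

/-- data -/
def s30_3 : L :=
  L.cons (nat_lit 36028797018963968) (nat_lit 0) (nat_lit 360) <| L.cons (nat_lit 1125899907891200) (nat_lit 0) (nat_lit 120) <| L.cons (nat_lit 1125899906875392) (nat_lit 120) (nat_lit 0) <| L.cons (nat_lit 35218731827200) (nat_lit 120) (nat_lit 0) <| L.cons (nat_lit 35184373170176) (nat_lit 120) (nat_lit 0) <|
  L.cons (nat_lit 35184372088832) (nat_lit 400) (nat_lit 0) <| L.cons (nat_lit 34360786944) (nat_lit 75) (nat_lit 0) <| L.cons (nat_lit 34359771136) (nat_lit 0) (nat_lit 300) <| L.cons (nat_lit 1114112) (nat_lit 0) (nat_lit 45) <| L.cons (nat_lit 1048576) (nat_lit 6) (nat_lit 0) <|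
  L.cons (nat_lit 32768) (nat_lit 0) (nat_lit 96) <|
  L.nil

/-- data -/
def s30_4 : L :=
  L.cons (nat_lit 1125899907891200) (nat_lit 120) (nat_lit 0) <| L.cons (nat_lit 1125899906875392) (nat_lit 120) (nat_lit 0) <| L.cons (nat_lit 35184373170176) (nat_lit 0) (nat_lit 120) <| L.cons (nat_lit 35184372154368) (nat_lit 0) (nat_lit 60) <| L.cons (nat_lit 35184372088832) (nat_lit 0) (nat_lit 150) <|
  L.cons (nat_lit 34360786944) (nat_lit 0) (nat_lit 75) <| L.cons (nat_lit 1114112) (nat_lit 45) (nat_lit 0) <| L.cons (nat_lit 1048576) (nat_lit 0) (nat_lit 6) <| L.cons (nat_lit 98304) (nat_lit 45) (nat_lit 0) <| L.cons (nat_lit 32768) (nat_lit 54) (nat_lit 0) <|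
  L.nil

/-- data -/
def s30_5 : L :=
  L.cons (nat_lit 36028797018963968) (nat_lit 120) (nat_lit 0) <| L.cons (nat_lit 1125899906875392) (nat_lit 0) (nat_lit 120) <| L.cons (nat_lit 35218731827200) (nat_lit 0) (nat_lit 60) <| L.cons (nat_lit 35184372154368) (nat_lit 60) (nat_lit 0) <| L.cons (nat_lit 35184372088832) (nat_lit 0) (nat_lit 50) <|
  L.cons (nat_lit 34359771136) (nat_lit 75) (nat_lit 0) <| L.cons (nat_lit 98304) (nat_lit 0) (nat_lit 15) <| L.cons (nat_lit 32768) (nat_lit 6) (nat_lit 0) <|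
  L.nil

/-- data -/
def s30_15 : L :=
  L.cons (nat_lit 35184372088832) (nat_lit 2) (nat_lit 0) <| L.cons (nat_lit 98304) (nat_lit 0) (nat_lit 1) <| L.cons (nat_lit 32768) (nat_lit 6) (nat_lit 0) <|
  L.nil

/-- data -/
def s30_16 : L :=
  L.cons (nat_lit 35184372088832) (nat_lit 0) (nat_lit 2) <| L.cons (nat_lit 34359771136) (nat_lit 3) (nat_lit 0) <| L.cons (nat_lit 98304) (nat_lit 0) (nat_lit 1) <| L.cons (nat_lit 32768) (nat_lit 0) (nat_lit 2) <|
  L.nil

/-- data -/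
def s30_17 : L :=
  L.cons (nat_lit 34359738368) (nat_lit 3) (nat_lit 0) <| L.cons (nat_lit 65536) (nat_lit 0) (nat_lit 3) <| L.cons (nat_lit 0) (nat_lit 0) (nat_lit 2) <|
  L.nil

/-- data -/
def s30 : LL :=
  LL.cons L.nil <|
  LL.cons L.nil <|
  LL.cons L.nil <|
  LL.cons L.nil <|
  LL.cons L.nil <|
  LL.cons L.nil <|
  LL.cons L.nil <|
  LL.cons L.nil <|
  LL.cons L.nil <|
  LL.cons L.nil <|
  LL.cons L.nil <|
  LL.cons s30_17 <|
  LL.cons s30_16 <|
  LL.cons s30_15 <|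
  LL.cons L.nil <|
  LL.cons L.nil <|
  LL.cons L.nil <|
  LL.cons L.nil <|
  LL.cons L.nil <|
  LL.cons L.nil <|
  LL.cons L.nil <|
  LL.cons L.nil <|
  LL.cons L.nil <|
  LL.cons s30_5 <|
  LL.cons s30_4 <|
  LL.cons s30_3 <|
  LL.cons L.nil <|
  LL.cons L.nil <|
  LL.cons L.nil <|
  LL.nil

theorem r30 : chk G28 s30 (scN 1073741824 1 f30) = true := by decide +kernel

/-- data -/
def s31_0 : L :=
  L.cons (nat_lit 36028797020012544) (nat_lit 360) (nat_lit 0) <| L.cons (nat_lit 1125899907923968) (nat_lit 0) (nat_lit 120) <| L.cons (nat_lit 35218732875776) (nat_lit 0) (nat_lit 120) <| L.cons (nat_lit 35184373137408) (nat_lit 0) (nat_lit 400) <| L.cons (nat_lit 34360819712) (nat_lit 300) (nat_lit 0) <|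
  L.cons (nat_lit 1081344) (nat_lit 96) (nat_lit 0) <|
  L.nil

/-- data -/
def s31_1 : L :=
  L.cons (nat_lit 36028797020012544) (nat_lit 0) (nat_lit 480) <| L.cons (nat_lit 1125899907923968) (nat_lit 360) (nat_lit 0) <| L.cons (nat_lit 35218732875776) (nat_lit 180) (nat_lit 0) <| L.cons (nat_lit 35184373202944) (nat_lit 0) (nat_lit 120) <| L.cons (nat_lit 35184373137408) (nat_lit 300) (nat_lit 0) <|
  L.cons (nat_lit 34360819712) (nat_lit 0) (nat_lit 375) <| L.cons (nat_lit 1146880) (nat_lit 60) (nat_lit 0) <| L.cons (nat_lit 1081344) (nat_lit 0) (nat_lit 48) <|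
  L.nil

/-- data -/
def s31_2 : L :=
  L.cons (nat_lit 36028797020012544) (nat_lit 120) (nat_lit 0) <| L.cons (nat_lit 1125899907923968) (nat_lit 0) (nat_lit 120) <| L.cons (nat_lit 35218732875776) (nat_lit 0) (nat_lit 60) <| L.cons (nat_lit 35184373202944) (nat_lit 60) (nat_lit 0) <| L.cons (nat_lit 35184373137408) (nat_lit 0) (nat_lit 50) <|
  L.cons (nat_lit 34360819712) (nat_lit 75) (nat_lit 0) <| L.cons (nat_lit 1146880) (nat_lit 0) (nat_lit 15) <| L.cons (nat_lit 1081344) (nat_lit 6) (nat_lit 0) <|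
  L.nil

/-- data -/
def s31_3 : L :=
  L.cons (nat_lit 36028797018963968) (nat_lit 0) (nat_lit 360) <| L.cons (nat_lit 1125899907891200) (nat_lit 360) (nat_lit 0) <| L.cons (nat_lit 1125899906875392) (nat_lit 120) (nat_lit 0) <| L.cons (nat_lit 35218731827200) (nat_lit 120) (nat_lit 0) <| L.cons (nat_lit 35184406691840) (nat_lit 0) (nat_lit 120) <|
  L.cons (nat_lit 35184374185984) (nat_lit 60) (nat_lit 0) <| L.cons (nat_lit 35184373170176) (nat_lit 0) (nat_lit 120) <| L.cons (nat_lit 35184372088832) (nat_lit 400) (nat_lit 0) <| L.cons (nat_lit 1133872414720) (nat_lit 60) (nat_lit 0) <| L.cons (nat_lit 1099512741888) (nat_lit 0) (nat_lit 60) <|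
  L.cons (nat_lit 1099512676352) (nat_lit 50) (nat_lit 0) <| L.cons (nat_lit 34360786944) (nat_lit 0) (nat_lit 600) <| L.cons (nat_lit 34359771136) (nat_lit 0) (nat_lit 300) <| L.cons (nat_lit 34635776) (nat_lit 300) (nat_lit 0) <| L.cons (nat_lit 2129920) (nat_lit 0) (nat_lit 45) <|
  L.cons (nat_lit 1114112) (nat_lit 135) (nat_lit 0) <| L.cons (nat_lit 1048576) (nat_lit 0) (nat_lit 138) <| L.cons (nat_lit 32768) (nat_lit 0) (nat_lit 96) <|
  L.nil

/-- data -/
def s31_4 : L :=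
  L.cons (nat_lit 1125899906875392) (nat_lit 120) (nat_lit 0) <| L.cons (nat_lit 35184406691840) (nat_lit 60) (nat_lit 0) <| L.cons (nat_lit 35184374185984) (nat_lit 0) (nat_lit 60) <| L.cons (nat_lit 35184373170176) (nat_lit 0) (nat_lit 120) <| L.cons (nat_lit 35184372154368) (nat_lit 0) (nat_lit 60) <|
  L.cons (nat_lit 35184372088832) (nat_lit 0) (nat_lit 150) <| L.cons (nat_lit 1133872414720) (nat_lit 0) (nat_lit 60) <| L.cons (nat_lit 1099512741888) (nat_lit 60) (nat_lit 0) <| L.cons (nat_lit 1099512676352) (nat_lit 0) (nat_lit 50) <| L.cons (nat_lit 34360786944) (nat_lit 225) (nat_lit 0) <|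
  L.cons (nat_lit 34635776) (nat_lit 0) (nat_lit 225) <| L.cons (nat_lit 2129920) (nat_lit 45) (nat_lit 0) <| L.cons (nat_lit 1114112) (nat_lit 45) (nat_lit 0) <| L.cons (nat_lit 1048576) (nat_lit 90) (nat_lit 0) <| L.cons (nat_lit 98304) (nat_lit 45) (nat_lit 0) <|
  L.cons (nat_lit 32768) (nat_lit 54) (nat_lit 0) <|
  L.nil

/-- data -/
def s31_5 : L :=
  L.cons (nat_lit 36028797018963968) (nat_lit 120) (nat_lit 0) <| L.cons (nat_lit 1125899907891200) (nat_lit 0) (nat_lit 120) <| L.cons (nat_lit 1125899906875392) (nat_lit 0) (nat_lit 120) <| L.cons (nat_lit 35218731827200) (nat_lit 0) (nat_lit 60) <| L.cons (nat_lit 35184373170176) (nat_lit 120) (nat_lit 0) <|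
  L.cons (nat_lit 35184372154368) (nat_lit 60) (nat_lit 0) <| L.cons (nat_lit 35184372088832) (nat_lit 0) (nat_lit 50) <| L.cons (nat_lit 34360786944) (nat_lit 75) (nat_lit 0) <| L.cons (nat_lit 34359771136) (nat_lit 75) (nat_lit 0) <| L.cons (nat_lit 1114112) (nat_lit 0) (nat_lit 45) <|
  L.cons (nat_lit 1048576) (nat_lit 6) (nat_lit 0) <| L.cons (nat_lit 98304) (nat_lit 0) (nat_lit 15) <| L.cons (nat_lit 32768) (nat_lit 6) (nat_lit 0) <|
  L.nil

/-- data -/
def s31_13 : L :=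
  L.cons (nat_lit 35184373137408) (nat_lit 4) (nat_lit 0) <| L.cons (nat_lit 34360819712) (nat_lit 0) (nat_lit 3) <| L.cons (nat_lit 1081344) (nat_lit 8) (nat_lit 0) <|
  L.nil

/-- data -/
def s31_14 : L :=
  L.cons (nat_lit 35184373137408) (nat_lit 0) (nat_lit 2) <| L.cons (nat_lit 34360819712) (nat_lit 3) (nat_lit 0) <| L.cons (nat_lit 1146880) (nat_lit 0) (nat_lit 1) <| L.cons (nat_lit 1081344) (nat_lit 0) (nat_lit 2) <|
  L.nil

/-- data -/
def s31_15 : L :=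
  L.cons (nat_lit 35184372088832) (nat_lit 2) (nat_lit 0) <| L.cons (nat_lit 34360786944) (nat_lit 0) (nat_lit 3) <| L.cons (nat_lit 34635776) (nat_lit 3) (nat_lit 0) <| L.cons (nat_lit 1048576) (nat_lit 8) (nat_lit 0) <| L.cons (nat_lit 98304) (nat_lit 0) (nat_lit 1) <|
  L.cons (nat_lit 32768) (nat_lit 6) (nat_lit 0) <|
  L.nil

/-- data -/
def s31_16 : L :=
  L.cons (nat_lit 35184372088832) (nat_lit 0) (nat_lit 2) <| L.cons (nat_lit 34360786944) (nat_lit 3) (nat_lit 0) <| L.cons (nat_lit 34359771136) (nat_lit 3) (nat_lit 0) <| L.cons (nat_lit 1114112) (nat_lit 0) (nat_lit 3) <| L.cons (nat_lit 1048576) (nat_lit 0) (nat_lit 2) <|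
  L.cons (nat_lit 98304) (nat_lit 0) (nat_lit 1) <| L.cons (nat_lit 32768) (nat_lit 0) (nat_lit 2) <|
  L.nil

/-- data -/
def s31_17 : L :=
  L.cons (nat_lit 1099511627776) (nat_lit 2) (nat_lit 0) <| L.cons (nat_lit 1081344) (nat_lit 0) (nat_lit 3) <| L.cons (nat_lit 65536) (nat_lit 0) (nat_lit 3) <| L.cons (nat_lit 0) (nat_lit 6) (nat_lit 0) <|
  L.nil

/-- data -/
def s31 : LL :=
  LL.cons L.nil <|
  LL.cons L.nil <|
  LL.cons L.nil <|
  LL.cons L.nil <|
  LL.cons L.nil <|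
  LL.cons L.nil <|
  LL.cons L.nil <|
  LL.cons L.nil <|
  LL.cons L.nil <|
  LL.cons L.nil <|
  LL.cons L.nil <|
  LL.cons L.nil <|
  LL.cons s31_17 <|
  LL.cons s31_16 <|
  LL.cons s31_15 <|
  LL.cons s31_14 <|
  LL.cons s31_13 <|
  LL.cons L.nil <|
  LL.cons L.nil <|
  LL.cons L.nil <|
  LL.cons L.nil <|
  LL.cons L.nil <|
  LL.cons L.nil <|
  LL.cons L.nil <|
  LL.cons s31_5 <|
  LL.cons s31_4 <|
  LL.cons s31_3 <|
  LL.cons s31_2 <|
  LL.cons s31_1 <|
  LL.cons s31_0 <|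
  LL.nil

theorem r31 : chk G30 s31 (scN 1073741824 1 f31) = true := by decide +kernel

/-- data -/
def s32_0 : L :=
  L.cons (nat_lit 35184372088864) (nat_lit 0) (nat_lit 2) <| L.cons (nat_lit 34359771168) (nat_lit 3) (nat_lit 0) <| L.cons (nat_lit 98336) (nat_lit 0) (nat_lit 1) <| L.cons (nat_lit 32800) (nat_lit 0) (nat_lit 2) <|
  L.nil

/-- data -/
def s32_4 : L :=
  L.cons (nat_lit 35184372088832) (nat_lit 0) (nat_lit 2) <| L.cons (nat_lit 34360786945) (nat_lit 0) (nat_lit 3) <| L.cons (nat_lit 34360786944) (nat_lit 3) (nat_lit 0) <| L.cons (nat_lit 34359771136) (nat_lit 6) (nat_lit 0) <| L.cons (nat_lit 34359738400) (nat_lit 0) (nat_lit 3) <|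
  L.cons (nat_lit 1114113) (nat_lit 3) (nat_lit 0) <| L.cons (nat_lit 1114112) (nat_lit 0) (nat_lit 3) <| L.cons (nat_lit 1048577) (nat_lit 2) (nat_lit 0) <| L.cons (nat_lit 1048576) (nat_lit 0) (nat_lit 2) <| L.cons (nat_lit 98304) (nat_lit 0) (nat_lit 3) <|
  L.cons (nat_lit 65568) (nat_lit 3) (nat_lit 0) <| L.cons (nat_lit 32768) (nat_lit 2) (nat_lit 0) <| L.cons (nat_lit 32) (nat_lit 2) (nat_lit 0) <|
  L.nil

/-- data -/
def s32_3 : L :=
  L.cons (nat_lit 35184372088833) (nat_lit 0) (nat_lit 6) <| L.cons (nat_lit 35184372088832) (nat_lit 10) (nat_lit 0) <| L.cons (nat_lit 34360786945) (nat_lit 3) (nat_lit 0) <| L.cons (nat_lit 34360786944) (nat_lit 0) (nat_lit 3) <| L.cons (nat_lit 34359771137) (nat_lit 9) (nat_lit 0) <|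
  L.cons (nat_lit 34359771136) (nat_lit 0) (nat_lit 18) <| L.cons (nat_lit 34359738400) (nat_lit 3) (nat_lit 0) <| L.cons (nat_lit 1114113) (nat_lit 0) (nat_lit 3) <| L.cons (nat_lit 1114112) (nat_lit 3) (nat_lit 0) <| L.cons (nat_lit 1048577) (nat_lit 0) (nat_lit 2) <|
  L.cons (nat_lit 1048576) (nat_lit 2) (nat_lit 0) <| L.cons (nat_lit 98305) (nat_lit 0) (nat_lit 3) <| L.cons (nat_lit 98304) (nat_lit 7) (nat_lit 0) <| L.cons (nat_lit 65568) (nat_lit 0) (nat_lit 3) <| L.cons (nat_lit 32769) (nat_lit 0) (nat_lit 6) <|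
  L.cons (nat_lit 32768) (nat_lit 6) (nat_lit 0) <| L.cons (nat_lit 32) (nat_lit 0) (nat_lit 2) <|
  L.nil

/-- data -/
def s32_5 : L :=
  L.cons (nat_lit 35184372088833) (nat_lit 2) (nat_lit 0) <| L.cons (nat_lit 35184372088832) (nat_lit 0) (nat_lit 2) <| L.cons (nat_lit 34359771137) (nat_lit 0) (nat_lit 3) <| L.cons (nat_lit 34359771136) (nat_lit 3) (nat_lit 0) <| L.cons (nat_lit 98305) (nat_lit 1) (nat_lit 0) <|
  L.cons (nat_lit 98304) (nat_lit 0) (nat_lit 1) <| L.cons (nat_lit 32769) (nat_lit 2) (nat_lit 0) <| L.cons (nat_lit 32768) (nat_lit 0) (nat_lit 2) <|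
  L.nil

/-- data -/
def s32 : LL :=
  LL.cons L.nil <|
  LL.cons L.nil <|
  LL.cons L.nil <|
  LL.cons L.nil <|
  LL.cons L.nil <|
  LL.cons L.nil <|
  LL.cons L.nil <|
  LL.cons L.nil <|
  LL.cons L.nil <|
  LL.cons L.nil <|
  LL.cons L.nil <|
  LL.cons L.nil <|
  LL.cons L.nil <|
  LL.cons L.nil <|
  LL.cons L.nil <|
  LL.cons L.nil <|
  LL.cons L.nil <|
  LL.cons L.nil <|
  LL.cons L.nil <|
  LL.cons L.nil <|
  LL.cons L.nil <|
  LL.cons L.nil <|
  LL.cons L.nil <|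
  LL.cons L.nil <|
  LL.cons L.nil <|
  LL.cons s32_5 <|
  LL.cons s32_4 <|
  LL.cons s32_3 <|
  LL.cons L.nil <|
  LL.cons L.nil <|
  LL.cons s32_0 <|
  LL.nil

theorem r32 : chk G31 s32 (scN 1073741824 1 f32) = true := by decide +kernel

/-- data -/
def s33_0 : L :=
  L.cons (nat_lit 35184373137409) (nat_lit 0) (nat_lit 4) <| L.cons (nat_lit 35184373137408) (nat_lit 0) (nat_lit 4) <| L.cons (nat_lit 35184372088864) (nat_lit 0) (nat_lit 4) <| L.cons (nat_lit 34360819713) (nat_lit 24) (nat_lit 0) <| L.cons (nat_lit 34360819712) (nat_lit 0) (nat_lit 12) <|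
  L.cons (nat_lit 34359771168) (nat_lit 18) (nat_lit 0) <| L.cons (nat_lit 34635808) (nat_lit 0) (nat_lit 6) <| L.cons (nat_lit 3146752) (nat_lit 2) (nat_lit 0) <| L.cons (nat_lit 1146881) (nat_lit 0) (nat_lit 14) <| L.cons (nat_lit 1146880) (nat_lit 10) (nat_lit 0) <|
  L.cons (nat_lit 1114144) (nat_lit 6) (nat_lit 0) <| L.cons (nat_lit 1081345) (nat_lit 20) (nat_lit 0) <| L.cons (nat_lit 1081344) (nat_lit 0) (nat_lit 28) <| L.cons (nat_lit 1048608) (nat_lit 0) (nat_lit 12) <| L.cons (nat_lit 98336) (nat_lit 0) (nat_lit 10) <|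
  L.cons (nat_lit 32800) (nat_lit 12) (nat_lit 0) <|
  L.nil

/-- data -/
def s33_1 : L :=
  L.cons (nat_lit 35184373137409) (nat_lit 8) (nat_lit 0) <| L.cons (nat_lit 35184373137408) (nat_lit 8) (nat_lit 0) <| L.cons (nat_lit 35184372088864) (nat_lit 8) (nat_lit 0) <| L.cons (nat_lit 34360819713) (nat_lit 0) (nat_lit 36) <| L.cons (nat_lit 34360819712) (nat_lit 12) (nat_lit 0) <|
  L.cons (nat_lit 34359771168) (nat_lit 0) (nat_lit 36) <| L.cons (nat_lit 1146881) (nat_lit 20) (nat_lit 0) <| L.cons (nat_lit 1146880) (nat_lit 0) (nat_lit 12) <| L.cons (nat_lit 1081345) (nat_lit 0) (nat_lit 24) <| L.cons (nat_lit 1081344) (nat_lit 40) (nat_lit 0) <|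
  L.cons (nat_lit 98336) (nat_lit 20) (nat_lit 0) <| L.cons (nat_lit 32800) (nat_lit 0) (nat_lit 24) <|
  L.nil

/-- data -/
def s33_4 : L :=
  L.cons (nat_lit 1099512676353) (nat_lit 0) (nat_lit 4) <| L.cons (nat_lit 1099512676352) (nat_lit 8) (nat_lit 0) <| L.cons (nat_lit 1099511627808) (nat_lit 0) (nat_lit 4) <| L.cons (nat_lit 35651585) (nat_lit 0) (nat_lit 6) <| L.cons (nat_lit 35651584) (nat_lit 6) (nat_lit 0) <|
  L.cons (nat_lit 34635777) (nat_lit 0) (nat_lit 6) <| L.cons (nat_lit 34635776) (nat_lit 6) (nat_lit 0) <| L.cons (nat_lit 34603040) (nat_lit 0) (nat_lit 6) <| L.cons (nat_lit 33587232) (nat_lit 0) (nat_lit 6) <| L.cons (nat_lit 3145729) (nat_lit 6) (nat_lit 0) <|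
  L.cons (nat_lit 3145728) (nat_lit 0) (nat_lit 8) <| L.cons (nat_lit 2129921) (nat_lit 18) (nat_lit 0) <| L.cons (nat_lit 2129920) (nat_lit 0) (nat_lit 24) <| L.cons (nat_lit 2097184) (nat_lit 6) (nat_lit 0) <| L.cons (nat_lit 1114113) (nat_lit 12) (nat_lit 0) <|
  L.cons (nat_lit 1114112) (nat_lit 0) (nat_lit 18) <| L.cons (nat_lit 1081376) (nat_lit 18) (nat_lit 0) <| L.cons (nat_lit 1048577) (nat_lit 0) (nat_lit 24) <| L.cons (nat_lit 1048576) (nat_lit 36) (nat_lit 0) <| L.cons (nat_lit 65568) (nat_lit 12) (nat_lit 0) <|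
  L.cons (nat_lit 32) (nat_lit 0) (nat_lit 24) <|
  L.nil

/-- data -/
def s33_3 : L :=
  L.cons (nat_lit 1099512676353) (nat_lit 8) (nat_lit 0) <| L.cons (nat_lit 1099512676352) (nat_lit 0) (nat_lit 12) <| L.cons (nat_lit 1099511627808) (nat_lit 8) (nat_lit 0) <| L.cons (nat_lit 34359771137) (nat_lit 0) (nat_lit 18) <| L.cons (nat_lit 34359771136) (nat_lit 18) (nat_lit 0) <|
  L.cons (nat_lit 35651585) (nat_lit 6) (nat_lit 0) <| L.cons (nat_lit 35651584) (nat_lit 0) (nat_lit 6) <| L.cons (nat_lit 34635777) (nat_lit 6) (nat_lit 0) <| L.cons (nat_lit 34635776) (nat_lit 0) (nat_lit 6) <| L.cons (nat_lit 34603040) (nat_lit 6) (nat_lit 0) <|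
  L.cons (nat_lit 33587232) (nat_lit 24) (nat_lit 0) <| L.cons (nat_lit 3145729) (nat_lit 0) (nat_lit 8) <| L.cons (nat_lit 3145728) (nat_lit 10) (nat_lit 0) <| L.cons (nat_lit 2129921) (nat_lit 0) (nat_lit 24) <| L.cons (nat_lit 2129920) (nat_lit 30) (nat_lit 0) <|
  L.cons (nat_lit 2098176) (nat_lit 0) (nat_lit 6) <| L.cons (nat_lit 2097184) (nat_lit 0) (nat_lit 8) <| L.cons (nat_lit 1114113) (nat_lit 0) (nat_lit 18) <| L.cons (nat_lit 1114112) (nat_lit 24) (nat_lit 0) <| L.cons (nat_lit 1081376) (nat_lit 0) (nat_lit 24) <|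
  L.cons (nat_lit 1048577) (nat_lit 36) (nat_lit 0) <| L.cons (nat_lit 1048576) (nat_lit 0) (nat_lit 48) <| L.cons (nat_lit 98305) (nat_lit 12) (nat_lit 0) <| L.cons (nat_lit 98304) (nat_lit 0) (nat_lit 12) <| L.cons (nat_lit 65568) (nat_lit 0) (nat_lit 36) <|
  L.cons (nat_lit 32769) (nat_lit 0) (nat_lit 24) <| L.cons (nat_lit 32768) (nat_lit 24) (nat_lit 0) <| L.cons (nat_lit 32) (nat_lit 72) (nat_lit 0) <|
  L.nil

/-- data -/
def s33_2 : L :=
  L.cons (nat_lit 35184373137409) (nat_lit 0) (nat_lit 2) <| L.cons (nat_lit 35184373137408) (nat_lit 0) (nat_lit 2) <| L.cons (nat_lit 35184372088864) (nat_lit 0) (nat_lit 2) <| L.cons (nat_lit 34360819713) (nat_lit 9) (nat_lit 0) <| L.cons (nat_lit 34360819712) (nat_lit 0) (nat_lit 3) <|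
  L.cons (nat_lit 34359771168) (nat_lit 9) (nat_lit 0) <| L.cons (nat_lit 1146881) (nat_lit 0) (nat_lit 5) <| L.cons (nat_lit 1146880) (nat_lit 3) (nat_lit 0) <| L.cons (nat_lit 1081345) (nat_lit 6) (nat_lit 0) <| L.cons (nat_lit 1081344) (nat_lit 0) (nat_lit 10) <|
  L.cons (nat_lit 98336) (nat_lit 0) (nat_lit 5) <| L.cons (nat_lit 32800) (nat_lit 6) (nat_lit 0) <|
  L.nil

/-- data -/
def s33_21 : L :=
  L.cons (nat_lit 35184373137409) (nat_lit 0) (nat_lit 2) <| L.cons (nat_lit 35184373137408) (nat_lit 2) (nat_lit 0) <| L.cons (nat_lit 35184372088864) (nat_lit 0) (nat_lit 2) <| L.cons (nat_lit 34360819713) (nat_lit 3) (nat_lit 0) <| L.cons (nat_lit 34360819712) (nat_lit 0) (nat_lit 3) <|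
  L.cons (nat_lit 34359771168) (nat_lit 3) (nat_lit 0) <| L.cons (nat_lit 1146881) (nat_lit 0) (nat_lit 1) <| L.cons (nat_lit 1146880) (nat_lit 1) (nat_lit 0) <| L.cons (nat_lit 1081345) (nat_lit 0) (nat_lit 2) <| L.cons (nat_lit 1081344) (nat_lit 2) (nat_lit 0) <|
  L.cons (nat_lit 98336) (nat_lit 0) (nat_lit 1) <| L.cons (nat_lit 32800) (nat_lit 0) (nat_lit 2) <|
  L.nil

/-- data -/
def s33_5 : L :=
  L.cons (nat_lit 34359771137) (nat_lit 6) (nat_lit 0) <| L.cons (nat_lit 34359771136) (nat_lit 0) (nat_lit 6) <| L.cons (nat_lit 33587232) (nat_lit 0) (nat_lit 6) <| L.cons (nat_lit 2098176) (nat_lit 2) (nat_lit 0) <| L.cons (nat_lit 98305) (nat_lit 0) (nat_lit 4) <|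
  L.cons (nat_lit 98304) (nat_lit 4) (nat_lit 0) <| L.cons (nat_lit 65568) (nat_lit 6) (nat_lit 0) <| L.cons (nat_lit 32769) (nat_lit 8) (nat_lit 0) <| L.cons (nat_lit 32768) (nat_lit 0) (nat_lit 8) <| L.cons (nat_lit 32) (nat_lit 0) (nat_lit 12) <|
  L.nil

/-- data -/
def s33 : LL :=
  LL.cons L.nil <|
  LL.cons L.nil <|
  LL.cons L.nil <|
  LL.cons L.nil <|
  LL.cons L.nil <|
  LL.cons L.nil <|
  LL.cons L.nil <|
  LL.cons L.nil <|
  LL.cons L.nil <|
  LL.cons L.nil <|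
  LL.cons s33_21 <|
  LL.cons L.nil <|
  LL.cons L.nil <|
  LL.cons L.nil <|
  LL.cons L.nil <|
  LL.cons L.nil <|
  LL.cons L.nil <|
  LL.cons L.nil <|
  LL.cons L.nil <|
  LL.cons L.nil <|
  LL.cons L.nil <|
  LL.cons L.nil <|
  LL.cons L.nil <|
  LL.cons L.nil <|
  LL.cons L.nil <|
  LL.cons L.nil <|
  LL.cons s33_5 <|
  LL.cons s33_4 <|
  LL.cons s33_3 <|
  LL.cons s33_2 <|
  LL.cons s33_1 <|
  LL.cons s33_0 <|
  LL.nil

theorem r33 : chk G32 s33 (scN 1073741824 2 f33) = true := by decide +kernel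

/-- data -/
def s35_0 : L :=
  L.cons (nat_lit 1125899906842656) (nat_lit 90) (nat_lit 0) <| L.cons (nat_lit 68719476768) (nat_lit 0) (nat_lit 45) <| L.cons (nat_lit 34359803936) (nat_lit 0) (nat_lit 90) <| L.cons (nat_lit 34359738400) (nat_lit 30) (nat_lit 0) <| L.cons (nat_lit 131104) (nat_lit 45) (nat_lit 0) <|
  L.cons (nat_lit 65568) (nat_lit 75) (nat_lit 0) <| L.cons (nat_lit 32) (nat_lit 0) (nat_lit 32) <|
  L.nil

/-- data -/
def s35_4 : L :=
  L.cons (nat_lit 68719476736) (nat_lit 0) (nat_lit 45) <| L.cons (nat_lit 34360819713) (nat_lit 135) (nat_lit 0) <| L.cons (nat_lit 34360819712) (nat_lit 0) (nat_lit 135) <| L.cons (nat_lit 34359803904) (nat_lit 0) (nat_lit 180) <| L.cons (nat_lit 34359771168) (nat_lit 135) (nat_lit 0) <|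
  L.cons (nat_lit 34359738368) (nat_lit 0) (nat_lit 60) <| L.cons (nat_lit 1146881) (nat_lit 0) (nat_lit 135) <| L.cons (nat_lit 1146880) (nat_lit 135) (nat_lit 0) <| L.cons (nat_lit 1081345) (nat_lit 0) (nat_lit 90) <| L.cons (nat_lit 1081344) (nat_lit 90) (nat_lit 0) <|
  L.cons (nat_lit 131072) (nat_lit 135) (nat_lit 0) <| L.cons (nat_lit 98336) (nat_lit 0) (nat_lit 135) <| L.cons (nat_lit 65536) (nat_lit 0) (nat_lit 75) <| L.cons (nat_lit 32800) (nat_lit 0) (nat_lit 90) <| L.cons (nat_lit 0) (nat_lit 160) (nat_lit 0) <|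
  L.nil

/-- data -/
def s35_3 : L :=
  L.cons (nat_lit 1125899906842625) (nat_lit 270) (nat_lit 0) <| L.cons (nat_lit 1125899906842624) (nat_lit 0) (nat_lit 270) <| L.cons (nat_lit 35184372121600) (nat_lit 0) (nat_lit 90) <| L.cons (nat_lit 68719476737) (nat_lit 0) (nat_lit 135) <| L.cons (nat_lit 68719476736) (nat_lit 180) (nat_lit 0) <|
  L.cons (nat_lit 34360819713) (nat_lit 0) (nat_lit 135) <| L.cons (nat_lit 34360819712) (nat_lit 135) (nat_lit 0) <| L.cons (nat_lit 34359803905) (nat_lit 0) (nat_lit 270) <| L.cons (nat_lit 34359803904) (nat_lit 585) (nat_lit 0) <| L.cons (nat_lit 34359771168) (nat_lit 0) (nat_lit 135) <|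
  L.cons (nat_lit 34359738369) (nat_lit 90) (nat_lit 0) <| L.cons (nat_lit 34359738368) (nat_lit 0) (nat_lit 30) <| L.cons (nat_lit 1146881) (nat_lit 135) (nat_lit 0) <| L.cons (nat_lit 1146880) (nat_lit 0) (nat_lit 135) <| L.cons (nat_lit 1081345) (nat_lit 90) (nat_lit 0) <|
  L.cons (nat_lit 1081344) (nat_lit 0) (nat_lit 90) <| L.cons (nat_lit 131073) (nat_lit 135) (nat_lit 0) <| L.cons (nat_lit 131072) (nat_lit 0) (nat_lit 315) <| L.cons (nat_lit 98336) (nat_lit 135) (nat_lit 0) <| L.cons (nat_lit 65537) (nat_lit 225) (nat_lit 0) <|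
  L.cons (nat_lit 65536) (nat_lit 0) (nat_lit 240) <| L.cons (nat_lit 32800) (nat_lit 90) (nat_lit 0) <| L.cons (nat_lit 1) (nat_lit 0) (nat_lit 96) <| L.cons (nat_lit 0) (nat_lit 0) (nat_lit 64) <|
  L.nil

/-- data -/
def s35_5 : L :=
  L.cons (nat_lit 1125899906842625) (nat_lit 0) (nat_lit 90) <| L.cons (nat_lit 1125899906842624) (nat_lit 90) (nat_lit 0) <| L.cons (nat_lit 68719476737) (nat_lit 45) (nat_lit 0) <| L.cons (nat_lit 68719476736) (nat_lit 0) (nat_lit 45) <| L.cons (nat_lit 34359803905) (nat_lit 90) (nat_lit 0) <|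
  L.cons (nat_lit 34359803904) (nat_lit 0) (nat_lit 90) <| L.cons (nat_lit 34359738369) (nat_lit 0) (nat_lit 30) <| L.cons (nat_lit 34359738368) (nat_lit 30) (nat_lit 0) <| L.cons (nat_lit 131073) (nat_lit 0) (nat_lit 45) <| L.cons (nat_lit 131072) (nat_lit 45) (nat_lit 0) <|
  L.cons (nat_lit 65537) (nat_lit 0) (nat_lit 75) <| L.cons (nat_lit 65536) (nat_lit 75) (nat_lit 0) <| L.cons (nat_lit 1) (nat_lit 32) (nat_lit 0) <| L.cons (nat_lit 0) (nat_lit 0) (nat_lit 32) <|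
  L.nil

/-- data -/
def s35_9 : L :=
  L.cons (nat_lit 35184372088832) (nat_lit 0) (nat_lit 2) <| L.cons (nat_lit 34360786945) (nat_lit 0) (nat_lit 3) <| L.cons (nat_lit 34360786944) (nat_lit 3) (nat_lit 0) <| L.cons (nat_lit 34359771136) (nat_lit 3) (nat_lit 0) <| L.cons (nat_lit 34359738400) (nat_lit 0) (nat_lit 3) <|
  L.cons (nat_lit 1114113) (nat_lit 3) (nat_lit 0) <| L.cons (nat_lit 1114112) (nat_lit 0) (nat_lit 3) <| L.cons (nat_lit 1048577) (nat_lit 2) (nat_lit 0) <| L.cons (nat_lit 1048576) (nat_lit 0) (nat_lit 2) <| L.cons (nat_lit 98304) (nat_lit 0) (nat_lit 1) <|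
  L.cons (nat_lit 65568) (nat_lit 3) (nat_lit 0) <| L.cons (nat_lit 32768) (nat_lit 0) (nat_lit 2) <| L.cons (nat_lit 32) (nat_lit 2) (nat_lit 0) <|
  L.nil

/-- data -/
def s35_10 : L :=
  L.cons (nat_lit 34360786945) (nat_lit 3) (nat_lit 0) <| L.cons (nat_lit 34360786944) (nat_lit 0) (nat_lit 3) <| L.cons (nat_lit 34359738400) (nat_lit 3) (nat_lit 0) <| L.cons (nat_lit 1114113) (nat_lit 0) (nat_lit 3) <| L.cons (nat_lit 1114112) (nat_lit 3) (nat_lit 0) <|
  L.cons (nat_lit 1048577) (nat_lit 0) (nat_lit 2) <| L.cons (nat_lit 1048576) (nat_lit 2) (nat_lit 0) <| L.cons (nat_lit 65568) (nat_lit 0) (nat_lit 3) <| L.cons (nat_lit 32) (nat_lit 0) (nat_lit 2) <|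
  L.nil

/-- data -/
def s35 : LL :=
  LL.cons L.nil <|
  LL.cons L.nil <|
  LL.cons L.nil <|
  LL.cons L.nil <|
  LL.cons L.nil <|
  LL.cons L.nil <|
  LL.cons L.nil <|
  LL.cons L.nil <|
  LL.cons L.nil <|
  LL.cons L.nil <|
  LL.cons L.nil <|
  LL.cons L.nil <|
  LL.cons L.nil <|
  LL.cons L.nil <|
  LL.cons L.nil <|
  LL.cons L.nil <|
  LL.cons L.nil <|
  LL.cons L.nil <|
  LL.cons L.nil <|
  LL.cons L.nil <|
  LL.cons L.nil <|
  LL.cons L.nil <|
  LL.cons s35_10 <|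
  LL.cons s35_9 <|
  LL.cons L.nil <|
  LL.cons L.nil <|
  LL.cons L.nil <|
  LL.cons s35_5 <|
  LL.cons s35_4 <|
  LL.cons s35_3 <|
  LL.cons L.nil <|
  LL.cons L.nil <|
  LL.cons s35_0 <|
  LL.nil

theorem r35 : chk G33 s35 (scN 1073741824 1 f35) = true := by decide +kernel

/-- data -/
def s37_17 : L :=
  L.cons (nat_lit 35184372088832) (nat_lit 0) (nat_lit 6) <| L.cons (nat_lit 34359771136) (nat_lit 9) (nat_lit 0) <| L.cons (nat_lit 98304) (nat_lit 0) (nat_lit 3) <| L.cons (nat_lit 32768) (nat_lit 0) (nat_lit 6) <|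
  L.nil

/-- data -/
def s37_12 : L :=
  L.cons (nat_lit 35184372121600) (nat_lit 0) (nat_lit 8) <| L.cons (nat_lit 34359803904) (nat_lit 12) (nat_lit 0) <| L.cons (nat_lit 131072) (nat_lit 0) (nat_lit 4) <| L.cons (nat_lit 65536) (nat_lit 0) (nat_lit 8) <|
  L.nil

/-- data -/
def s37_6 : L :=
  L.cons (nat_lit 36028797018963968) (nat_lit 360) (nat_lit 0) <| L.cons (nat_lit 35218731827200) (nat_lit 0) (nat_lit 180) <| L.cons (nat_lit 35184372154368) (nat_lit 0) (nat_lit 180) <| L.cons (nat_lit 35184372088832) (nat_lit 0) (nat_lit 150) <| L.cons (nat_lit 68719509504) (nat_lit 0) (nat_lit 180) <|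
  L.cons (nat_lit 34359836672) (nat_lit 180) (nat_lit 0) <| L.cons (nat_lit 34359771136) (nat_lit 345) (nat_lit 0) <| L.cons (nat_lit 98304) (nat_lit 0) (nat_lit 105) <| L.cons (nat_lit 32768) (nat_lit 0) (nat_lit 110) <|
  L.nil

/-- data -/
def s37 : LL :=
  LL.cons L.nil <|
  LL.cons L.nil <|
  LL.cons L.nil <|
  LL.cons L.nil <|
  LL.cons L.nil <|
  LL.cons L.nil <|
  LL.cons L.nil <|
  LL.cons L.nil <|
  LL.cons L.nil <|
  LL.cons L.nil <|
  LL.cons L.nil <|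
  LL.cons L.nil <|
  LL.cons L.nil <|
  LL.cons L.nil <|
  LL.cons L.nil <|
  LL.cons L.nil <|
  LL.cons s37_17 <|
  LL.cons L.nil <|
  LL.cons L.nil <|
  LL.cons L.nil <|
  LL.cons L.nil <|
  LL.cons s37_12 <|
  LL.cons L.nil <|
  LL.cons L.nil <|
  LL.cons L.nil <|
  LL.cons L.nil <|
  LL.cons L.nil <|
  LL.cons s37_6 <|
  LL.cons L.nil <|
  LL.cons L.nil <|
  LL.cons L.nil <|
  LL.cons L.nil <|
  LL.cons L.nil <|
  LL.cons L.nil <|
  LL.nil

theorem r37 : chk G35 s37 (scN 1073741824 2 f37) = true := by decide +kernel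

/-- data -/
def s38_0 : L :=
  L.cons (nat_lit 1125934266613760) (nat_lit 540) (nat_lit 0) <| L.cons (nat_lit 1125899906940928) (nat_lit 0) (nat_lit 360) <| L.cons (nat_lit 1125899906875392) (nat_lit 720) (nat_lit 0) <| L.cons (nat_lit 35253091565568) (nat_lit 0) (nat_lit 180) <| L.cons (nat_lit 35218731892736) (nat_lit 0) (nat_lit 720) <|
  L.cons (nat_lit 35218731827200) (nat_lit 0) (nat_lit 240) <| L.cons (nat_lit 35184372219904) (nat_lit 540) (nat_lit 0) <| L.cons (nat_lit 35184372154368) (nat_lit 0) (nat_lit 300) <| L.cons (nat_lit 35184372088832) (nat_lit 640) (nat_lit 0) <| L.cons (nat_lit 68719575040) (nat_lit 630) (nat_lit 0) <|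
  L.cons (nat_lit 34359902208) (nat_lit 0) (nat_lit 540) <| L.cons (nat_lit 34359836672) (nat_lit 0) (nat_lit 780) <| L.cons (nat_lit 34359771136) (nat_lit 0) (nat_lit 1152) <| L.cons (nat_lit 229376) (nat_lit 90) (nat_lit 0) <| L.cons (nat_lit 163840) (nat_lit 450) (nat_lit 0) <|
  L.cons (nat_lit 98304) (nat_lit 748) (nat_lit 0) <| L.cons (nat_lit 32768) (nat_lit 384) (nat_lit 0) <|
  L.nil

/-- data -/
def s38_1 : L :=
  L.cons (nat_lit 1125934266613760) (nat_lit 0) (nat_lit 1080) <| L.cons (nat_lit 1125899906940928) (nat_lit 720) (nat_lit 0) <| L.cons (nat_lit 1125899906875392) (nat_lit 0) (nat_lit 1440) <| L.cons (nat_lit 35253091565568) (nat_lit 360) (nat_lit 0) <| L.cons (nat_lit 35218731892736) (nat_lit 1440) (nat_lit 0) <|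
  L.cons (nat_lit 35218731827200) (nat_lit 480) (nat_lit 0) <| L.cons (nat_lit 35184372219904) (nat_lit 0) (nat_lit 1080) <| L.cons (nat_lit 35184372154368) (nat_lit 600) (nat_lit 0) <| L.cons (nat_lit 35184372088832) (nat_lit 0) (nat_lit 1280) <| L.cons (nat_lit 68719575040) (nat_lit 0) (nat_lit 1260) <|
  L.cons (nat_lit 34359902208) (nat_lit 1080) (nat_lit 0) <| L.cons (nat_lit 34359836672) (nat_lit 1560) (nat_lit 0) <| L.cons (nat_lit 34359771136) (nat_lit 2304) (nat_lit 0) <| L.cons (nat_lit 229376) (nat_lit 0) (nat_lit 180) <| L.cons (nat_lit 163840) (nat_lit 0) (nat_lit 900) <|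
  L.cons (nat_lit 98304) (nat_lit 0) (nat_lit 1496) <| L.cons (nat_lit 32768) (nat_lit 0) (nat_lit 768) <|
  L.nil

/-- data -/
def s38_4 : L :=
  L.cons (nat_lit 1125899941445632) (nat_lit 540) (nat_lit 0) <| L.cons (nat_lit 1125899940429824) (nat_lit 540) (nat_lit 0) <| L.cons (nat_lit 1125899908939776) (nat_lit 0) (nat_lit 360) <| L.cons (nat_lit 1125899907923968) (nat_lit 0) (nat_lit 1080) <| L.cons (nat_lit 1125899906908160) (nat_lit 0) (nat_lit 540) <|
  L.cons (nat_lit 1168231104512) (nat_lit 0) (nat_lit 180) <| L.cons (nat_lit 1133871431680) (nat_lit 0) (nat_lit 720) <| L.cons (nat_lit 1133871366144) (nat_lit 0) (nat_lit 240) <| L.cons (nat_lit 1099511758848) (nat_lit 540) (nat_lit 0) <| L.cons (nat_lit 1099511693312) (nat_lit 0) (nat_lit 300) <|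
  L.cons (nat_lit 1099511627776) (nat_lit 640) (nat_lit 0) <| L.cons (nat_lit 68754079744) (nat_lit 0) (nat_lit 270) <| L.cons (nat_lit 68753063936) (nat_lit 0) (nat_lit 270) <| L.cons (nat_lit 68721573888) (nat_lit 270) (nat_lit 0) <| L.cons (nat_lit 68720558080) (nat_lit 810) (nat_lit 0) <|
  L.cons (nat_lit 68719542272) (nat_lit 540) (nat_lit 0) <| L.cons (nat_lit 68719476736) (nat_lit 0) (nat_lit 1080) <| L.cons (nat_lit 34394406912) (nat_lit 0) (nat_lit 540) <| L.cons (nat_lit 34394341376) (nat_lit 180) (nat_lit 0) <| L.cons (nat_lit 34393391104) (nat_lit 0) (nat_lit 540) <|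
  L.cons (nat_lit 34393325568) (nat_lit 180) (nat_lit 0) <| L.cons (nat_lit 34361901056) (nat_lit 720) (nat_lit 0) <| L.cons (nat_lit 34360885248) (nat_lit 2160) (nat_lit 0) <| L.cons (nat_lit 34359869440) (nat_lit 1620) (nat_lit 0) <| L.cons (nat_lit 34359803904) (nat_lit 0) (nat_lit 2520) <|
  L.cons (nat_lit 34359738368) (nat_lit 0) (nat_lit 1440) <| L.cons (nat_lit 34734080) (nat_lit 270) (nat_lit 0) <| L.cons (nat_lit 34668544) (nat_lit 450) (nat_lit 0) <| L.cons (nat_lit 34603008) (nat_lit 0) (nat_lit 192) <| L.cons (nat_lit 33718272) (nat_lit 270) (nat_lit 0) <|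
  L.cons (nat_lit 33652736) (nat_lit 450) (nat_lit 0) <| L.cons (nat_lit 33587200) (nat_lit 0) (nat_lit 192) <| L.cons (nat_lit 2228224) (nat_lit 0) (nat_lit 450) <| L.cons (nat_lit 2162688) (nat_lit 0) (nat_lit 150) <| L.cons (nat_lit 2097152) (nat_lit 0) (nat_lit 192) <|
  L.cons (nat_lit 1212416) (nat_lit 0) (nat_lit 1350) <| L.cons (nat_lit 1146880) (nat_lit 0) (nat_lit 450) <| L.cons (nat_lit 1081344) (nat_lit 0) (nat_lit 576) <| L.cons (nat_lit 196608) (nat_lit 0) (nat_lit 1080) <| L.cons (nat_lit 131072) (nat_lit 2160) (nat_lit 0) <|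
  L.cons (nat_lit 65536) (nat_lit 0) (nat_lit 408) <| L.cons (nat_lit 0) (nat_lit 3840) (nat_lit 0) <|
  L.nil

/-- data -/
def s38_3 : L :=
  L.cons (nat_lit 1125899941445632) (nat_lit 0) (nat_lit 1080) <| L.cons (nat_lit 1125899940429824) (nat_lit 0) (nat_lit 1080) <| L.cons (nat_lit 1125899908939776) (nat_lit 720) (nat_lit 0) <| L.cons (nat_lit 1125899907923968) (nat_lit 2160) (nat_lit 0) <| L.cons (nat_lit 1125899906908160) (nat_lit 1080) (nat_lit 0) <|
  L.cons (nat_lit 35184406724608) (nat_lit 540) (nat_lit 0) <| L.cons (nat_lit 35184405708800) (nat_lit 540) (nat_lit 0) <| L.cons (nat_lit 35184374218752) (nat_lit 0) (nat_lit 360) <| L.cons (nat_lit 35184373202944) (nat_lit 0) (nat_lit 1080) <| L.cons (nat_lit 35184372187136) (nat_lit 0) (nat_lit 540) <|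
  L.cons (nat_lit 1168231104512) (nat_lit 360) (nat_lit 0) <| L.cons (nat_lit 1133871431680) (nat_lit 900) (nat_lit 0) <| L.cons (nat_lit 1133871366144) (nat_lit 480) (nat_lit 0) <| L.cons (nat_lit 1099511758848) (nat_lit 0) (nat_lit 720) <| L.cons (nat_lit 1099511693312) (nat_lit 0) (nat_lit 120) <|
  L.cons (nat_lit 1099511627776) (nat_lit 0) (nat_lit 1280) <| L.cons (nat_lit 68754079744) (nat_lit 540) (nat_lit 0) <| L.cons (nat_lit 68753063936) (nat_lit 540) (nat_lit 0) <| L.cons (nat_lit 68721573888) (nat_lit 0) (nat_lit 540) <| L.cons (nat_lit 68720558080) (nat_lit 0) (nat_lit 1620) <|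
  L.cons (nat_lit 68719542272) (nat_lit 0) (nat_lit 1080) <| L.cons (nat_lit 68719476736) (nat_lit 1620) (nat_lit 0) <| L.cons (nat_lit 34394406912) (nat_lit 270) (nat_lit 0) <| L.cons (nat_lit 34394341376) (nat_lit 0) (nat_lit 360) <| L.cons (nat_lit 34393391104) (nat_lit 270) (nat_lit 0) <|
  L.cons (nat_lit 34393325568) (nat_lit 0) (nat_lit 360) <| L.cons (nat_lit 34361901056) (nat_lit 0) (nat_lit 630) <| L.cons (nat_lit 34360885248) (nat_lit 0) (nat_lit 1890) <| L.cons (nat_lit 34359869440) (nat_lit 0) (nat_lit 1620) <| L.cons (nat_lit 34359803904) (nat_lit 2880) (nat_lit 0) <|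
  L.cons (nat_lit 34359738368) (nat_lit 2160) (nat_lit 0) <| L.cons (nat_lit 34734080) (nat_lit 0) (nat_lit 270) <| L.cons (nat_lit 34668544) (nat_lit 0) (nat_lit 360) <| L.cons (nat_lit 34603008) (nat_lit 384) (nat_lit 0) <| L.cons (nat_lit 33718272) (nat_lit 0) (nat_lit 270) <|
  L.cons (nat_lit 33652736) (nat_lit 0) (nat_lit 360) <| L.cons (nat_lit 33587200) (nat_lit 384) (nat_lit 0) <| L.cons (nat_lit 2228224) (nat_lit 540) (nat_lit 0) <| L.cons (nat_lit 2162688) (nat_lit 300) (nat_lit 0) <| L.cons (nat_lit 2097152) (nat_lit 384) (nat_lit 0) <|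
  L.cons (nat_lit 1212416) (nat_lit 1620) (nat_lit 0) <| L.cons (nat_lit 1146880) (nat_lit 900) (nat_lit 0) <| L.cons (nat_lit 1081344) (nat_lit 1152) (nat_lit 0) <| L.cons (nat_lit 196608) (nat_lit 1350) (nat_lit 0) <| L.cons (nat_lit 131072) (nat_lit 0) (nat_lit 2160) <|
  L.cons (nat_lit 65536) (nat_lit 0) (nat_lit 84) <| L.cons (nat_lit 0) (nat_lit 0) (nat_lit 5760) <|
  L.nil

/-- data -/
def s38_2 : L :=
  L.cons (nat_lit 1125934266613760) (nat_lit 270) (nat_lit 0) <| L.cons (nat_lit 1125899906940928) (nat_lit 0) (nat_lit 180) <| L.cons (nat_lit 1125899906875392) (nat_lit 360) (nat_lit 0) <| L.cons (nat_lit 35253091565568) (nat_lit 0) (nat_lit 90) <| L.cons (nat_lit 35218731892736) (nat_lit 0) (nat_lit 360) <|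
  L.cons (nat_lit 35218731827200) (nat_lit 0) (nat_lit 120) <| L.cons (nat_lit 35184372219904) (nat_lit 270) (nat_lit 0) <| L.cons (nat_lit 35184372154368) (nat_lit 0) (nat_lit 150) <| L.cons (nat_lit 35184372088832) (nat_lit 320) (nat_lit 0) <| L.cons (nat_lit 68719575040) (nat_lit 315) (nat_lit 0) <|
  L.cons (nat_lit 34359902208) (nat_lit 0) (nat_lit 270) <| L.cons (nat_lit 34359836672) (nat_lit 0) (nat_lit 390) <| L.cons (nat_lit 34359771136) (nat_lit 0) (nat_lit 576) <| L.cons (nat_lit 229376) (nat_lit 45) (nat_lit 0) <| L.cons (nat_lit 163840) (nat_lit 225) (nat_lit 0) <|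
  L.cons (nat_lit 98304) (nat_lit 374) (nat_lit 0) <| L.cons (nat_lit 32768) (nat_lit 192) (nat_lit 0) <|
  L.nil

/-- data -/
def s38_21 : L :=
  L.cons (nat_lit 1125934266613760) (nat_lit 270) (nat_lit 0) <| L.cons (nat_lit 1125899906940928) (nat_lit 0) (nat_lit 180) <| L.cons (nat_lit 1125899906875392) (nat_lit 360) (nat_lit 0) <| L.cons (nat_lit 35253091565568) (nat_lit 0) (nat_lit 90) <| L.cons (nat_lit 35218731892736) (nat_lit 0) (nat_lit 360) <|
  L.cons (nat_lit 35218731827200) (nat_lit 0) (nat_lit 120) <| L.cons (nat_lit 35184372219904) (nat_lit 270) (nat_lit 0) <| L.cons (nat_lit 35184372154368) (nat_lit 0) (nat_lit 150) <| L.cons (nat_lit 35184372088832) (nat_lit 320) (nat_lit 0) <| L.cons (nat_lit 68719575040) (nat_lit 315) (nat_lit 0) <|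
  L.cons (nat_lit 34359902208) (nat_lit 0) (nat_lit 270) <| L.cons (nat_lit 34359836672) (nat_lit 0) (nat_lit 390) <| L.cons (nat_lit 34359771136) (nat_lit 0) (nat_lit 576) <| L.cons (nat_lit 229376) (nat_lit 45) (nat_lit 0) <| L.cons (nat_lit 163840) (nat_lit 225) (nat_lit 0) <|
  L.cons (nat_lit 98304) (nat_lit 374) (nat_lit 0) <| L.cons (nat_lit 32768) (nat_lit 192) (nat_lit 0) <|
  L.nil

/-- data -/
def s38_9 : L :=
  L.cons (nat_lit 35184406691840) (nat_lit 12) (nat_lit 0) <| L.cons (nat_lit 35184405676032) (nat_lit 12) (nat_lit 0) <| L.cons (nat_lit 35184374185984) (nat_lit 0) (nat_lit 8) <| L.cons (nat_lit 35184373170176) (nat_lit 0) (nat_lit 24) <| L.cons (nat_lit 35184372154368) (nat_lit 0) (nat_lit 12) <|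
  L.cons (nat_lit 1133871398912) (nat_lit 0) (nat_lit 12) <| L.cons (nat_lit 1099511726080) (nat_lit 8) (nat_lit 0) <| L.cons (nat_lit 1099511660544) (nat_lit 0) (nat_lit 16) <| L.cons (nat_lit 34394374144) (nat_lit 0) (nat_lit 18) <| L.cons (nat_lit 34393358336) (nat_lit 0) (nat_lit 18) <|
  L.cons (nat_lit 34361868288) (nat_lit 18) (nat_lit 0) <| L.cons (nat_lit 34360852480) (nat_lit 54) (nat_lit 0) <| L.cons (nat_lit 34359836672) (nat_lit 36) (nat_lit 0) <| L.cons (nat_lit 34359771136) (nat_lit 0) (nat_lit 72) <| L.cons (nat_lit 34701312) (nat_lit 6) (nat_lit 0) <|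
  L.cons (nat_lit 34635776) (nat_lit 12) (nat_lit 0) <| L.cons (nat_lit 33685504) (nat_lit 6) (nat_lit 0) <| L.cons (nat_lit 33619968) (nat_lit 12) (nat_lit 0) <| L.cons (nat_lit 2195456) (nat_lit 0) (nat_lit 8) <| L.cons (nat_lit 1179648) (nat_lit 0) (nat_lit 24) <|
  L.cons (nat_lit 163840) (nat_lit 0) (nat_lit 18) <| L.cons (nat_lit 98304) (nat_lit 60) (nat_lit 0) <| L.cons (nat_lit 32768) (nat_lit 0) (nat_lit 96) <|
  L.nil

/-- data -/
def s38_10 : L :=
  L.cons (nat_lit 34359771136) (nat_lit 36) (nat_lit 0) <| L.cons (nat_lit 98304) (nat_lit 0) (nat_lit 24) <| L.cons (nat_lit 32768) (nat_lit 48) (nat_lit 0) <|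
  L.nil

/-- data -/
def s38 : LL :=
  LL.cons L.nil <|
  LL.cons L.nil <|
  LL.cons L.nil <|
  LL.cons L.nil <|
  LL.cons L.nil <|
  LL.cons L.nil <|
  LL.cons L.nil <|
  LL.cons L.nil <|
  LL.cons L.nil <|
  LL.cons L.nil <|
  LL.cons L.nil <|
  LL.cons L.nil <|
  LL.cons L.nil <|
  LL.cons s38_21 <|
  LL.cons L.nil <|
  LL.cons L.nil <|
  LL.cons L.nil <|
  LL.cons L.nil <|
  LL.cons L.nil <|
  LL.cons L.nil <|
  LL.cons L.nil <|
  LL.cons L.nil <|
  LL.cons L.nil <|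
  LL.cons L.nil <|
  LL.cons s38_10 <|
  LL.cons s38_9 <|
  LL.cons L.nil <|
  LL.cons L.nil <|
  LL.cons L.nil <|
  LL.cons L.nil <|
  LL.cons s38_4 <|
  LL.cons s38_3 <|
  LL.cons s38_2 <|
  LL.cons s38_1 <|
  LL.cons s38_0 <|
  LL.nil

theorem r38 : chk G37 s38 (scN 1073741824 2 f38) = true := by decide +kernel

/-- data -/
def s39_0 : L :=
  L.cons (nat_lit 35218732908544) (nat_lit 0) (nat_lit 300) <| L.cons (nat_lit 35184373235712) (nat_lit 300) (nat_lit 0) <| L.cons (nat_lit 35184373170176) (nat_lit 200) (nat_lit 0) <| L.cons (nat_lit 68720590848) (nat_lit 450) (nat_lit 0) <| L.cons (nat_lit 68719575040) (nat_lit 450) (nat_lit 0) <|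
  L.cons (nat_lit 34360918016) (nat_lit 0) (nat_lit 600) <| L.cons (nat_lit 34360852480) (nat_lit 0) (nat_lit 600) <| L.cons (nat_lit 34359902208) (nat_lit 0) (nat_lit 600) <| L.cons (nat_lit 34359836672) (nat_lit 1200) (nat_lit 0) <| L.cons (nat_lit 1245184) (nat_lit 150) (nat_lit 0) <|
  L.cons (nat_lit 1179648) (nat_lit 400) (nat_lit 0) <| L.cons (nat_lit 1114112) (nat_lit 200) (nat_lit 0) <| L.cons (nat_lit 229376) (nat_lit 200) (nat_lit 0) <| L.cons (nat_lit 163840) (nat_lit 0) (nat_lit 800) <| L.cons (nat_lit 98304) (nat_lit 800) (nat_lit 0) <|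
  L.nil

/-- data -/
def s39_1 : L :=
  L.cons (nat_lit 35218732908544) (nat_lit 600) (nat_lit 0) <| L.cons (nat_lit 35184373235712) (nat_lit 0) (nat_lit 600) <| L.cons (nat_lit 35184373170176) (nat_lit 0) (nat_lit 400) <| L.cons (nat_lit 68720590848) (nat_lit 0) (nat_lit 900) <| L.cons (nat_lit 68719575040) (nat_lit 0) (nat_lit 900) <|
  L.cons (nat_lit 34360918016) (nat_lit 1200) (nat_lit 0) <| L.cons (nat_lit 34360852480) (nat_lit 1200) (nat_lit 0) <| L.cons (nat_lit 34359902208) (nat_lit 1200) (nat_lit 0) <| L.cons (nat_lit 34359836672) (nat_lit 0) (nat_lit 2400) <| L.cons (nat_lit 1245184) (nat_lit 0) (nat_lit 300) <|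
  L.cons (nat_lit 1179648) (nat_lit 0) (nat_lit 800) <| L.cons (nat_lit 1114112) (nat_lit 0) (nat_lit 400) <| L.cons (nat_lit 229376) (nat_lit 0) (nat_lit 400) <| L.cons (nat_lit 163840) (nat_lit 1600) (nat_lit 0) <| L.cons (nat_lit 98304) (nat_lit 0) (nat_lit 1600) <|
  L.nil

/-- data -/
def s39_4 : L :=
  L.cons (nat_lit 36028797020012544) (nat_lit 1440) (nat_lit 0) <| L.cons (nat_lit 1125899907923968) (nat_lit 0) (nat_lit 1440) <| L.cons (nat_lit 1125899906908160) (nat_lit 0) (nat_lit 1440) <| L.cons (nat_lit 35184373202944) (nat_lit 720) (nat_lit 0) <| L.cons (nat_lit 35184373137408) (nat_lit 0) (nat_lit 1800) <|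
  L.cons (nat_lit 35184372187136) (nat_lit 720) (nat_lit 0) <| L.cons (nat_lit 35184372121600) (nat_lit 1800) (nat_lit 0) <| L.cons (nat_lit 1133872447488) (nat_lit 0) (nat_lit 300) <| L.cons (nat_lit 1099512774656) (nat_lit 300) (nat_lit 0) <| L.cons (nat_lit 1099512709120) (nat_lit 200) (nat_lit 0) <|
  L.cons (nat_lit 34394406912) (nat_lit 450) (nat_lit 0) <| L.cons (nat_lit 34393391104) (nat_lit 450) (nat_lit 0) <| L.cons (nat_lit 34362916864) (nat_lit 150) (nat_lit 0) <| L.cons (nat_lit 34361901056) (nat_lit 150) (nat_lit 0) <| L.cons (nat_lit 34360885248) (nat_lit 0) (nat_lit 450) <|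
  L.cons (nat_lit 34360819712) (nat_lit 1800) (nat_lit 0) <| L.cons (nat_lit 34359869440) (nat_lit 0) (nat_lit 450) <| L.cons (nat_lit 34359803904) (nat_lit 900) (nat_lit 0) <| L.cons (nat_lit 34734080) (nat_lit 0) (nat_lit 300) <| L.cons (nat_lit 34668544) (nat_lit 600) (nat_lit 0) <|
  L.cons (nat_lit 33718272) (nat_lit 0) (nat_lit 300) <| L.cons (nat_lit 33652736) (nat_lit 600) (nat_lit 0) <| L.cons (nat_lit 3244032) (nat_lit 0) (nat_lit 150) <| L.cons (nat_lit 3178496) (nat_lit 0) (nat_lit 100) <| L.cons (nat_lit 2228224) (nat_lit 0) (nat_lit 250) <|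
  L.cons (nat_lit 2162688) (nat_lit 0) (nat_lit 700) <| L.cons (nat_lit 1212416) (nat_lit 150) (nat_lit 0) <| L.cons (nat_lit 1146880) (nat_lit 0) (nat_lit 1320) <| L.cons (nat_lit 1081344) (nat_lit 1032) (nat_lit 0) <| L.cons (nat_lit 196608) (nat_lit 300) (nat_lit 0) <|
  L.cons (nat_lit 131072) (nat_lit 0) (nat_lit 1740) <| L.cons (nat_lit 65536) (nat_lit 552) (nat_lit 0) <|
  L.nil

/-- data -/
def s39_3 : L :=
  L.cons (nat_lit 36028797020012544) (nat_lit 0) (nat_lit 2880) <| L.cons (nat_lit 36028797018996736) (nat_lit 4320) (nat_lit 0) <| L.cons (nat_lit 1125899907923968) (nat_lit 2880) (nat_lit 0) <| L.cons (nat_lit 1125899906908160) (nat_lit 0) (nat_lit 1440) <| L.cons (nat_lit 35218732875776) (nat_lit 720) (nat_lit 0) <|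
  L.cons (nat_lit 35218731859968) (nat_lit 0) (nat_lit 1440) <| L.cons (nat_lit 35184406724608) (nat_lit 900) (nat_lit 0) <| L.cons (nat_lit 35184405708800) (nat_lit 900) (nat_lit 0) <| L.cons (nat_lit 35184374218752) (nat_lit 0) (nat_lit 600) <| L.cons (nat_lit 35184373202944) (nat_lit 0) (nat_lit 3240) <|
  L.cons (nat_lit 35184373137408) (nat_lit 2400) (nat_lit 0) <| L.cons (nat_lit 35184372187136) (nat_lit 0) (nat_lit 900) <| L.cons (nat_lit 35184372121600) (nat_lit 0) (nat_lit 3000) <| L.cons (nat_lit 1133872447488) (nat_lit 600) (nat_lit 0) <| L.cons (nat_lit 1133871431680) (nat_lit 0) (nat_lit 900) <|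
  L.cons (nat_lit 1099512774656) (nat_lit 0) (nat_lit 600) <| L.cons (nat_lit 1099512709120) (nat_lit 0) (nat_lit 400) <| L.cons (nat_lit 1099511758848) (nat_lit 600) (nat_lit 0) <| L.cons (nat_lit 1099511693312) (nat_lit 0) (nat_lit 1200) <| L.cons (nat_lit 34394406912) (nat_lit 0) (nat_lit 2250) <|
  L.cons (nat_lit 34393391104) (nat_lit 0) (nat_lit 2250) <| L.cons (nat_lit 34362916864) (nat_lit 0) (nat_lit 300) <| L.cons (nat_lit 34361901056) (nat_lit 1050) (nat_lit 0) <| L.cons (nat_lit 34360885248) (nat_lit 4950) (nat_lit 0) <| L.cons (nat_lit 34360819712) (nat_lit 0) (nat_lit 1800) <|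
  L.cons (nat_lit 34359869440) (nat_lit 3600) (nat_lit 0) <| L.cons (nat_lit 34359803904) (nat_lit 0) (nat_lit 3600) <| L.cons (nat_lit 34734080) (nat_lit 1050) (nat_lit 0) <| L.cons (nat_lit 34668544) (nat_lit 0) (nat_lit 300) <| L.cons (nat_lit 33718272) (nat_lit 1050) (nat_lit 0) <|
  L.cons (nat_lit 33652736) (nat_lit 0) (nat_lit 300) <| L.cons (nat_lit 3244032) (nat_lit 300) (nat_lit 0) <| L.cons (nat_lit 3178496) (nat_lit 200) (nat_lit 0) <| L.cons (nat_lit 2228224) (nat_lit 0) (nat_lit 100) <| L.cons (nat_lit 2162688) (nat_lit 1400) (nat_lit 0) <|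
  L.cons (nat_lit 1212416) (nat_lit 0) (nat_lit 2100) <| L.cons (nat_lit 1146880) (nat_lit 2100) (nat_lit 0) <| L.cons (nat_lit 1081344) (nat_lit 0) (nat_lit 1704) <| L.cons (nat_lit 196608) (nat_lit 0) (nat_lit 1950) <| L.cons (nat_lit 131072) (nat_lit 6000) (nat_lit 0) <|
  L.cons (nat_lit 65536) (nat_lit 0) (nat_lit 3048) <|
  L.nil

/-- data -/
def s39_2 : L :=
  L.cons (nat_lit 35218732908544) (nat_lit 0) (nat_lit 150) <| L.cons (nat_lit 35184373235712) (nat_lit 150) (nat_lit 0) <| L.cons (nat_lit 35184373170176) (nat_lit 100) (nat_lit 0) <| L.cons (nat_lit 68720590848) (nat_lit 225) (nat_lit 0) <| L.cons (nat_lit 68719575040) (nat_lit 225) (nat_lit 0) <|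
  L.cons (nat_lit 34360918016) (nat_lit 0) (nat_lit 300) <| L.cons (nat_lit 34360852480) (nat_lit 0) (nat_lit 300) <| L.cons (nat_lit 34359902208) (nat_lit 0) (nat_lit 300) <| L.cons (nat_lit 34359836672) (nat_lit 600) (nat_lit 0) <| L.cons (nat_lit 1245184) (nat_lit 75) (nat_lit 0) <|
  L.cons (nat_lit 1179648) (nat_lit 200) (nat_lit 0) <| L.cons (nat_lit 1114112) (nat_lit 100) (nat_lit 0) <| L.cons (nat_lit 229376) (nat_lit 100) (nat_lit 0) <| L.cons (nat_lit 163840) (nat_lit 0) (nat_lit 400) <| L.cons (nat_lit 98304) (nat_lit 400) (nat_lit 0) <|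
  L.nil

/-- data -/
def s39_21 : L :=
  L.cons (nat_lit 35218732908544) (nat_lit 0) (nat_lit 150) <| L.cons (nat_lit 35184373235712) (nat_lit 150) (nat_lit 0) <| L.cons (nat_lit 35184373170176) (nat_lit 100) (nat_lit 0) <| L.cons (nat_lit 68720590848) (nat_lit 225) (nat_lit 0) <| L.cons (nat_lit 68719575040) (nat_lit 225) (nat_lit 0) <|
  L.cons (nat_lit 34360918016) (nat_lit 0) (nat_lit 300) <| L.cons (nat_lit 34360852480) (nat_lit 0) (nat_lit 300) <| L.cons (nat_lit 34359902208) (nat_lit 0) (nat_lit 300) <| L.cons (nat_lit 34359836672) (nat_lit 600) (nat_lit 0) <| L.cons (nat_lit 1245184) (nat_lit 75) (nat_lit 0) <|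
  L.cons (nat_lit 1179648) (nat_lit 200) (nat_lit 0) <| L.cons (nat_lit 1114112) (nat_lit 100) (nat_lit 0) <| L.cons (nat_lit 229376) (nat_lit 100) (nat_lit 0) <| L.cons (nat_lit 163840) (nat_lit 0) (nat_lit 400) <| L.cons (nat_lit 98304) (nat_lit 400) (nat_lit 0) <|
  L.nil

/-- data -/
def s39_5 : L :=
  L.cons (nat_lit 36028797018996736) (nat_lit 0) (nat_lit 1440) <| L.cons (nat_lit 1125899906908160) (nat_lit 1440) (nat_lit 0) <| L.cons (nat_lit 35218731859968) (nat_lit 720) (nat_lit 0) <| L.cons (nat_lit 35184406724608) (nat_lit 0) (nat_lit 300) <| L.cons (nat_lit 35184405708800) (nat_lit 0) (nat_lit 300) <|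
  L.cons (nat_lit 35184374218752) (nat_lit 200) (nat_lit 0) <| L.cons (nat_lit 35184373202944) (nat_lit 600) (nat_lit 0) <| L.cons (nat_lit 35184372187136) (nat_lit 0) (nat_lit 420) <| L.cons (nat_lit 1133871431680) (nat_lit 300) (nat_lit 0) <| L.cons (nat_lit 1099511758848) (nat_lit 0) (nat_lit 200) <|
  L.cons (nat_lit 1099511693312) (nat_lit 400) (nat_lit 0) <| L.cons (nat_lit 34394406912) (nat_lit 450) (nat_lit 0) <| L.cons (nat_lit 34393391104) (nat_lit 450) (nat_lit 0) <| L.cons (nat_lit 34361901056) (nat_lit 0) (nat_lit 450) <| L.cons (nat_lit 34360885248) (nat_lit 0) (nat_lit 1350) <|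
  L.cons (nat_lit 34359869440) (nat_lit 0) (nat_lit 900) <| L.cons (nat_lit 34359803904) (nat_lit 900) (nat_lit 0) <| L.cons (nat_lit 34734080) (nat_lit 0) (nat_lit 150) <| L.cons (nat_lit 34668544) (nat_lit 0) (nat_lit 300) <| L.cons (nat_lit 33718272) (nat_lit 0) (nat_lit 150) <|
  L.cons (nat_lit 33652736) (nat_lit 0) (nat_lit 300) <| L.cons (nat_lit 2228224) (nat_lit 200) (nat_lit 0) <| L.cons (nat_lit 1212416) (nat_lit 600) (nat_lit 0) <| L.cons (nat_lit 196608) (nat_lit 450) (nat_lit 0) <| L.cons (nat_lit 131072) (nat_lit 0) (nat_lit 1020) <|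
  L.cons (nat_lit 65536) (nat_lit 528) (nat_lit 0) <|
  L.nil

/-- data -/
def s39_15 : L :=
  L.cons (nat_lit 35184373137408) (nat_lit 24) (nat_lit 0) <| L.cons (nat_lit 35184372121600) (nat_lit 0) (nat_lit 24) <| L.cons (nat_lit 34360819712) (nat_lit 0) (nat_lit 36) <| L.cons (nat_lit 1146880) (nat_lit 12) (nat_lit 0) <| L.cons (nat_lit 1081344) (nat_lit 24) (nat_lit 0) <|
  L.cons (nat_lit 131072) (nat_lit 12) (nat_lit 0) <| L.cons (nat_lit 65536) (nat_lit 0) (nat_lit 72) <|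
  L.nil

/-- data -/
def s39_16 : L :=
  L.cons (nat_lit 35184372121600) (nat_lit 24) (nat_lit 0) <| L.cons (nat_lit 34359803904) (nat_lit 0) (nat_lit 36) <| L.cons (nat_lit 131072) (nat_lit 12) (nat_lit 0) <| L.cons (nat_lit 65536) (nat_lit 24) (nat_lit 0) <|
  L.nil

/-- data -/
def s39_17 : L :=
  L.cons (nat_lit 98304) (nat_lit 12) (nat_lit 0) <| L.cons (nat_lit 32768) (nat_lit 72) (nat_lit 0) <|
  L.nil

/-- data -/
def s39 : LL :=
  LL.cons L.nil <|
  LL.cons L.nil <|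
  LL.cons L.nil <|
  LL.cons L.nil <|
  LL.cons L.nil <|
  LL.cons L.nil <|
  LL.cons L.nil <|
  LL.cons L.nil <|
  LL.cons L.nil <|
  LL.cons L.nil <|
  LL.cons L.nil <|
  LL.cons L.nil <|
  LL.cons L.nil <|
  LL.cons L.nil <|
  LL.cons s39_21 <|
  LL.cons L.nil <|
  LL.cons L.nil <|
  LL.cons L.nil <|
  LL.cons s39_17 <|
  LL.cons s39_16 <|
  LL.cons s39_15 <|
  LL.cons L.nil <|
  LL.cons L.nil <|
  LL.cons L.nil <|
  LL.cons L.nil <|
  LL.cons L.nil <|
  LL.cons L.nil <|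
  LL.cons L.nil <|
  LL.cons L.nil <|
  LL.cons L.nil <|
  LL.cons s39_5 <|
  LL.cons s39_4 <|
  LL.cons s39_3 <|
  LL.cons s39_2 <|
  LL.cons s39_1 <|
  LL.cons s39_0 <|
  LL.nil

theorem r39 : chk G38 s39 (scN 1073741824 2 f39) = true := by decide +kernel

theorem van {xs : List ℝ} (hx : xs.length = 12) (hQ : mono xs 1073741824 ≠ 0)
    (h20 : Van xs G20) : Van xs G39 := by
  have h21 : Van xs G21 := sat r21 hx (by decide +kernel) (by decide +kernel) (by norm_num) hQ h20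
  have h22 : Van xs G22 := sat r22 hx (by decide +kernel) (by decide +kernel) (by norm_num) hQ h21
  have h23 : Van xs G23 := sat r23 hx (by decide +kernel) (by decide +kernel) (by norm_num) hQ h22
  have h24 : Van xs G24 := sat r24 hx (by decide +kernel) (by decide +kernel) (by norm_num) hQ h23
  have h25 : Van xs G25 := sat r25 hx (by decide +kernel) (by decide +kernel) (by norm_num) hQ h24
  have h26 : Van xs G26 := sat r26 hx (by decide +kernel) (by decide +kernel) (by norm_num) hQ h25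
  have h27 : Van xs G27 := sat r27 hx (by decide +kernel) (by decide +kernel) (by norm_num) hQ h26
  have h28 : Van xs G28 := sat r28 hx (by decide +kernel) (by decide +kernel) (by norm_num) hQ h27
  have h30 : Van xs G30 := sat r30 hx (by decide +kernel) (by decide +kernel) (by norm_num) hQ h28
  have h31 : Van xs G31 := sat r31 hx (by decide +kernel) (by decide +kernel) (by norm_num) hQ h30
  have h32 : Van xs G32 := sat r32 hx (by decide +kernel) (by decide +kernel) (by norm_num) hQ h31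
  have h33 : Van xs G33 := sat r33 hx (by decide +kernel) (by decide +kernel) (by norm_num) hQ h32
  have h35 : Van xs G35 := sat r35 hx (by decide +kernel) (by decide +kernel) (by norm_num) hQ h33
  have h37 : Van xs G37 := sat r37 hx (by decide +kernel) (by decide +kernel) (by norm_num) hQ h35
  have h38 : Van xs G38 := sat r38 hx (by decide +kernel) (by decide +kernel) (by norm_num) hQ h37
  have h39 : Van xs G39 := sat r39 hx (by decide +kernel) (by decide +kernel) (by norm_num) hQ h38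
  exact h39

end Vale.Agent.P280Z.M2.K1
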