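import Vale.Agent.P280Z.M2.K1.F
import Vale.Agent.P280Z.M2.E62

/-!
# P280Z, block M2: the generators vanish
-/

noncomputable section

namespace Vale.Agent.P280Z.M2.K1

open Al.C3

set_option linter.unusedSimpArgs false

variable {a mu l c X2 Y2 X3 y3 X4 y4 X5 X6 z5 z6 : ℝ}

theorem v0 (h : E62 a mu l c 0 X2 Y2 X3 (y3 * Y2) X4 (y4 * Y2) X5 X6 z5 z6) :
    ev [a, mu * Y2, l * Y2, X2, c * Y2, y3, Y2 ^ 2, X3, y4, X4, X5, X6] f0 = 0 := by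
  simp only [f0, ev, mono, Nat.reduceMod, Nat.reduceDiv, pow_zero, pow_one, one_mul, mul_one,
    Nat.cast_ofNat, Nat.cast_zero, Nat.cast_one, sub_zero, zero_sub, add_zero]
  linear_combination (1 : ℝ) * Y2 ^ 0 * h.r3_02000

theorem v1 (h : E62 a mu l c 0 X2 Y2 X3 (y3 * Y2) X4 (y4 * Y2) X5 X6 z5 z6) :
    ev [a, mu * Y2, l * Y2, X2, c * Y2, y3, Y2 ^ 2, X3, y4, X4, X5, X6] f1 = 0 := by
  simp only [f1, ev, mono, Nat.reduceMod, Nat.reduceDiv, pow_zero, pow_one, one_mul, mul_one,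
    Nat.cast_ofNat, Nat.cast_zero, Nat.cast_one, sub_zero, zero_sub, add_zero]
  linear_combination (1 : ℝ) * Y2 ^ 0 * h.r3_21000

theorem v2 (h : E62 a mu l c 0 X2 Y2 X3 (y3 * Y2) X4 (y4 * Y2) X5 X6 z5 z6) :
    ev [a, mu * Y2, l * Y2, X2, c * Y2, y3, Y2 ^ 2, X3, y4, X4, X5, X6] f2 = 0 := by
  simp only [f2, ev, mono, Nat.reduceMod, Nat.reduceDiv, pow_zero, pow_one, one_mul, mul_one,
    Nat.cast_ofNat, Nat.cast_zero, Nat.cast_one, sub_zero, zero_sub, add_zero]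
  linear_combination (1 : ℝ) * Y2 ^ 0 * h.r3_40000

theorem v3 (h : E62 a mu l c 0 X2 Y2 X3 (y3 * Y2) X4 (y4 * Y2) X5 X6 z5 z6) :
    ev [a, mu * Y2, l * Y2, X2, c * Y2, y3, Y2 ^ 2, X3, y4, X4, X5, X6] f3 = 0 := by
  simp only [f3, ev, mono, Nat.reduceMod, Nat.reduceDiv, pow_zero, pow_one, one_mul, mul_one,
    Nat.cast_ofNat, Nat.cast_zero, Nat.cast_one, sub_zero, zero_sub, add_zero]
  linear_combination (1 : ℝ) * Y2 ^ 1 * h.r3_11100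

theorem v4 (h : E62 a mu l c 0 X2 Y2 X3 (y3 * Y2) X4 (y4 * Y2) X5 X6 z5 z6) :
    ev [a, mu * Y2, l * Y2, X2, c * Y2, y3, Y2 ^ 2, X3, y4, X4, X5, X6] f4 = 0 := by
  simp only [f4, ev, mono, Nat.reduceMod, Nat.reduceDiv, pow_zero, pow_one, one_mul, mul_one,
    Nat.cast_ofNat, Nat.cast_zero, Nat.cast_one, sub_zero, zero_sub, add_zero]
  linear_combination (1 : ℝ) * Y2 ^ 1 * h.r3_20010

theorem v5 (h : E62 a mu l c 0 X2 Y2 X3 (y3 * Y2) X4 (y4 * Y2) X5 X6 z5 z6) :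
    ev [a, mu * Y2, l * Y2, X2, c * Y2, y3, Y2 ^ 2, X3, y4, X4, X5, X6] f5 = 0 := by
  simp only [f5, ev, mono, Nat.reduceMod, Nat.reduceDiv, pow_zero, pow_one, one_mul, mul_one,
    Nat.cast_ofNat, Nat.cast_zero, Nat.cast_one, sub_zero, zero_sub, add_zero]
  linear_combination (1 : ℝ) * Y2 ^ 1 * h.r3_30100

theorem v6 (h : E62 a mu l c 0 X2 Y2 X3 (y3 * Y2) X4 (y4 * Y2) X5 X6 z5 z6) :
    ev [a, mu * Y2, l * Y2, X2, c * Y2, y3, Y2 ^ 2, X3, y4, X4, X5, X6] f6 = 0 := by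
  simp only [f6, ev, mono, Nat.reduceMod, Nat.reduceDiv, pow_zero, pow_one, one_mul, mul_one,
    Nat.cast_ofNat, Nat.cast_zero, Nat.cast_one, sub_zero, zero_sub, add_zero]
  linear_combination (1 : ℝ) * Y2 ^ 2 * h.r3_20200 - (1 : ℝ) * (Y2 ^ 2) ^ 1 * h.r3_01200

theorem v7 (h : E62 a mu l c 0 X2 Y2 X3 (y3 * Y2) X4 (y4 * Y2) X5 X6 z5 z6) :
    ev [a, mu * Y2, l * Y2, X2, c * Y2, y3, Y2 ^ 2, X3, y4, X4, X5, X6] f7 = 0 := by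
  simp only [f7, ev, mono, Nat.reduceMod, Nat.reduceDiv, pow_zero, pow_one, one_mul, mul_one,
    Nat.cast_ofNat, Nat.cast_zero, Nat.cast_one, sub_zero, zero_sub, add_zero]
  linear_combination (1 : ℝ) * Y2 ^ 0 * h.r4_11000

theorem v8 (h : E62 a mu l c 0 X2 Y2 X3 (y3 * Y2) X4 (y4 * Y2) X5 X6 z5 z6) :
    ev [a, mu * Y2, l * Y2, X2, c * Y2, y3, Y2 ^ 2, X3, y4, X4, X5, X6] f8 = 0 := by
  simp only [f8, ev, mono, Nat.reduceMod, Nat.reduceDiv, pow_zero, pow_one, one_mul, mul_one,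
    Nat.cast_ofNat, Nat.cast_zero, Nat.cast_one, sub_zero, zero_sub, add_zero]
  linear_combination (1 : ℝ) * Y2 ^ 0 * h.r4_30000

theorem v9 (h : E62 a mu l c 0 X2 Y2 X3 (y3 * Y2) X4 (y4 * Y2) X5 X6 z5 z6) :
    ev [a, mu * Y2, l * Y2, X2, c * Y2, y3, Y2 ^ 2, X3, y4, X4, X5, X6] f9 = 0 := by
  simp only [f9, ev, mono, Nat.reduceMod, Nat.reduceDiv, pow_zero, pow_one, one_mul, mul_one,
    Nat.cast_ofNat, Nat.cast_zero, Nat.cast_one, sub_zero, zero_sub, add_zero]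
  linear_combination (1 : ℝ) * Y2 ^ 1 * h.r4_01100

theorem v10 (h : E62 a mu l c 0 X2 Y2 X3 (y3 * Y2) X4 (y4 * Y2) X5 X6 z5 z6) :
    ev [a, mu * Y2, l * Y2, X2, c * Y2, y3, Y2 ^ 2, X3, y4, X4, X5, X6] f10 = 0 := by
  simp only [f10, ev, mono, Nat.reduceMod, Nat.reduceDiv, pow_zero, pow_one, one_mul, mul_one,
    Nat.cast_ofNat, Nat.cast_zero, Nat.cast_one, sub_zero, zero_sub, add_zero]
  linear_combination (1 : ℝ) * Y2 ^ 1 * h.r4_10010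

theorem v11 (h : E62 a mu l c 0 X2 Y2 X3 (y3 * Y2) X4 (y4 * Y2) X5 X6 z5 z6) :
    ev [a, mu * Y2, l * Y2, X2, c * Y2, y3, Y2 ^ 2, X3, y4, X4, X5, X6] f11 = 0 := by
  simp only [f11, ev, mono, Nat.reduceMod, Nat.reduceDiv, pow_zero, pow_one, one_mul, mul_one,
    Nat.cast_ofNat, Nat.cast_zero, Nat.cast_one, sub_zero, zero_sub, add_zero]
  linear_combination (1 : ℝ) * Y2 ^ 1 * h.r4_20100

theorem v12 (h : E62 a mu l c 0 X2 Y2 X3 (y3 * Y2) X4 (y4 * Y2) X5 X6 z5 z6) :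
    ev [a, mu * Y2, l * Y2, X2, c * Y2, y3, Y2 ^ 2, X3, y4, X4, X5, X6] f12 = 0 := by
  simp only [f12, f12_1, ev, mono, Nat.reduceMod, Nat.reduceDiv, pow_zero, pow_one, one_mul, mul_one,
    Nat.cast_ofNat, Nat.cast_zero, Nat.cast_one, sub_zero, zero_sub, add_zero]
  linear_combination (1/2 : ℝ) * Y2 ^ 2 * h.r4_10200 - (45/2 : ℝ) * (y3) ^ 1 * (Y2 ^ 2) ^ 1 * h.r3_01200

theorem v13 (h : E62 a mu l c 0 X2 Y2 X3 (y3 * Y2) X4 (y4 * Y2) X5 X6 z5 z6) :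
    ev [a, mu * Y2, l * Y2, X2, c * Y2, y3, Y2 ^ 2, X3, y4, X4, X5, X6] f13 = 0 := by
  simp only [f13, ev, mono, Nat.reduceMod, Nat.reduceDiv, pow_zero, pow_one, one_mul, mul_one,
    Nat.cast_ofNat, Nat.cast_zero, Nat.cast_one, sub_zero, zero_sub, add_zero]
  linear_combination (1 : ℝ) * Y2 ^ 0 * h.r5_01000

theorem v14 (h : E62 a mu l c 0 X2 Y2 X3 (y3 * Y2) X4 (y4 * Y2) X5 X6 z5 z6) :
    ev [a, mu * Y2, l * Y2, X2, c * Y2, y3, Y2 ^ 2, X3, y4, X4, X5, X6] f14 = 0 := by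
  simp only [f14, ev, mono, Nat.reduceMod, Nat.reduceDiv, pow_zero, pow_one, one_mul, mul_one,
    Nat.cast_ofNat, Nat.cast_zero, Nat.cast_one, sub_zero, zero_sub, add_zero]
  linear_combination (1 : ℝ) * Y2 ^ 0 * h.r5_20000

theorem v15 (h : E62 a mu l c 0 X2 Y2 X3 (y3 * Y2) X4 (y4 * Y2) X5 X6 z5 z6) :
    ev [a, mu * Y2, l * Y2, X2, c * Y2, y3, Y2 ^ 2, X3, y4, X4, X5, X6] f15 = 0 := by
  simp only [f15, ev, mono, Nat.reduceMod, Nat.reduceDiv, pow_zero, pow_one, one_mul, mul_one,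
    Nat.cast_ofNat, Nat.cast_zero, Nat.cast_one, sub_zero, zero_sub, add_zero]
  linear_combination (1 : ℝ) * Y2 ^ 1 * h.r5_00010

theorem v16 (h : E62 a mu l c 0 X2 Y2 X3 (y3 * Y2) X4 (y4 * Y2) X5 X6 z5 z6) :
    ev [a, mu * Y2, l * Y2, X2, c * Y2, y3, Y2 ^ 2, X3, y4, X4, X5, X6] f16 = 0 := by
  simp only [f16, f16_1, ev, mono, Nat.reduceMod, Nat.reduceDiv, pow_zero, pow_one, one_mul, mul_one,
    Nat.cast_ofNat, Nat.cast_zero, Nat.cast_one, sub_zero, zero_sub, add_zero]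
  linear_combination (1 : ℝ) * Y2 ^ 1 * h.r5_10100

theorem v17 (h : E62 a mu l c 0 X2 Y2 X3 (y3 * Y2) X4 (y4 * Y2) X5 X6 z5 z6) :
    ev [a, mu * Y2, l * Y2, X2, c * Y2, y3, Y2 ^ 2, X3, y4, X4, X5, X6] f17 = 0 := by
  simp only [f17, f17_1, ev, mono, Nat.reduceMod, Nat.reduceDiv, pow_zero, pow_one, one_mul, mul_one,
    Nat.cast_ofNat, Nat.cast_zero, Nat.cast_one, sub_zero, zero_sub, add_zero]
  linear_combination (1 : ℝ) * Y2 ^ 2 * h.r5_00200 - (15 : ℝ) * (Y2 ^ 2) ^ 1 * (y4) ^ 1 * h.r3_01200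

theorem v18 (h : E62 a mu l c 0 X2 Y2 X3 (y3 * Y2) X4 (y4 * Y2) X5 X6 z5 z6) :
    ev [a, mu * Y2, l * Y2, X2, c * Y2, y3, Y2 ^ 2, X3, y4, X4, X5, X6] f18 = 0 := by
  simp only [f18, ev, mono, Nat.reduceMod, Nat.reduceDiv, pow_zero, pow_one, one_mul, mul_one,
    Nat.cast_ofNat, Nat.cast_zero, Nat.cast_one, sub_zero, zero_sub, add_zero]
  linear_combination (1 : ℝ) * Y2 ^ 0 * h.r6_10000

theorem v19 (h : E62 a mu l c 0 X2 Y2 X3 (y3 * Y2) X4 (y4 * Y2) X5 X6 z5 z6) :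
    ev [a, mu * Y2, l * Y2, X2, c * Y2, y3, Y2 ^ 2, X3, y4, X4, X5, X6] f19 = 0 := by
  simp only [f19, f19_1, ev, mono, Nat.reduceMod, Nat.reduceDiv, pow_zero, pow_one, one_mul, mul_one,
    Nat.cast_ofNat, Nat.cast_zero, Nat.cast_one, sub_zero, zero_sub, add_zero]
  linear_combination (1 : ℝ) * Y2 ^ 1 * h.r6_00100

theorem v20 (h : E62 a mu l c 0 X2 Y2 X3 (y3 * Y2) X4 (y4 * Y2) X5 X6 z5 z6) :
    ev [a, mu * Y2, l * Y2, X2, c * Y2, y3, Y2 ^ 2, X3, y4, X4, X5, X6] f20 = 0 := by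
  simp only [f20, ev, mono, Nat.reduceMod, Nat.reduceDiv, pow_zero, pow_one, one_mul, mul_one,
    Nat.cast_ofNat, Nat.cast_zero, Nat.cast_one, sub_zero, zero_sub, add_zero]
  linear_combination (1 : ℝ) * Y2 ^ 0 * h.r7_00000

theorem v (h : E62 a mu l c 0 X2 Y2 X3 (y3 * Y2) X4 (y4 * Y2) X5 X6 z5 z6) :
    Van [a, mu * Y2, l * Y2, X2, c * Y2, y3, Y2 ^ 2, X3, y4, X4, X5, X6] G20 :=
  ⟨v20 h, v19 h, v18 h, v17 h, v16 h, v15 h, v14 h, v13 h, v12 h, v11 h, v10 h, v9 h, v8 h, v7 h, v6 h, v5 h, v4 h, v3 h, v2 h, v1 h, v0 h, trivial⟩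

end Vale.Agent.P280Z.M2.K1
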