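import Vale.Agent.P280Z.M2.K1.R000
import Vale.Agent.P280Z.M2.K1.R001
import Vale.Agent.P280Z.M2.K1.R010
import Vale.Agent.P280Z.M2.K1.R011
import Vale.Agent.P280Z.M2.K1.R100
import Vale.Agent.P280Z.M2.K1.R101
import Vale.Agent.P280Z.M2.K1.R110
import Vale.Agent.P280Z.M2.K1.R111
import Vale.Agent.P280Z.M2.K1.S
import Vale.Agent.P280Z.M2.K1.E
import Vale.Agent.P280Z.M2.K1.V

/-!
# P280Z, block M2: the numbers of the family
-/

noncomputable section

namespace Vale.Agent.P280Z.M2.K1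

open Al.C3

set_option linter.unusedSimpArgs false

theorem tgt {xs : List ℝ} (hx : xs.length = 12) {f c : LL} {t : L} {n : ℕ} (hf : Van xs f)
    (ht : smL 12 t = true) (hn : n ≠ 0) (h0 : mono xs 0 = 1)
    (h : dot xs f c + ev xs (scN 0 n t) = 0) : ev xs t = 0 := by
  have s0 : sm 12 0 = true := by decide +kernel
  rw [dot_van xs f hf, ev_scN xs 0 n (hx ▸ s0) t (hx ▸ ht), zero_add, neg_eq_zero, h0,
    mul_one] at h
  exact (mul_eq_zero.1 h).resolve_left (Nat.cast_ne_zero.2 hn)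

theorem run1 {xs : List ℝ} (hx : xs.length = 12) : dot xs G39 cs + ev xs (scN 0 n1 t1) = 0 :=
  glue (glue (glue (chk_ok run000 xs hx) (chk_ok run001 xs hx))
      (glue (chk_ok run010 xs hx) (chk_ok run011 xs hx)))
    (glue (glue (chk_ok run100 xs hx) (chk_ok run101 xs hx))
      (glue (chk_ok run110 xs hx) (chk_ok run111 xs hx)))

/-- the numbers `a`, `l`, `mu` -/
theorem num {a mu l c X2 Y2 X3 Y3 X4 Y4 X5 X6 z5 z6 : ℝ}
    (h : E62 a mu l c 0 X2 Y2 X3 Y3 X4 Y4 X5 X6 z5 z6) (hY : Y2 ≠ 0) :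
    a = 2 ∧ l ^ 2 = 1 ∧ mu = 3 * l := by
  obtain ⟨y3, rfl⟩ : ∃ y3, Y3 = y3 * Y2 := ⟨Y3 / Y2, by field_simp⟩
  obtain ⟨y4, rfl⟩ : ∃ y4, Y4 = y4 * Y2 := ⟨Y4 / Y2, by field_simp⟩
  have h0 : mono [a, mu * Y2, l * Y2, X2, c * Y2, y3, Y2 ^ 2, X3, y4, X4, X5, X6] 0 = 1 := by
    simp only [mono, Nat.zero_mod, Nat.zero_div, pow_zero, mul_one]
  have h39 := van rfl (by
    simp only [mono, Nat.reduceMod, Nat.reduceDiv, Nat.zero_mod, Nat.zero_div, pow_zero, pow_one,
      one_mul, mul_one]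
    exact pow_ne_zero 2 hY) (v h)
  have e1 := tgt rfl h39 (by decide +kernel) (by decide +kernel) h0 (run1 rfl)
  simp only [t1, ev, mono, Nat.reduceMod, Nat.reduceDiv, pow_zero, pow_one, one_mul, mul_one,
    Nat.cast_ofNat, Nat.cast_zero, Nat.cast_one, sub_zero, zero_sub, add_zero] at e1
  have q : 0 < Y2 ^ 2 := by positivity
  have e2 : (mu - 3 * l) ^ 2 + 4 * (a - 2) ^ 2 = 0 :=
    (mul_eq_zero.1 (show Y2 ^ 2 * _ = 0 by linear_combination e1)).resolve_left q.ne'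
  have ha : a = 2 := by nlinarith [sq_nonneg (mu - 3 * l), sq_nonneg (a - 2)]
  have hm : mu = 3 * l := by nlinarith [sq_nonneg (mu - 3 * l), sq_nonneg (a - 2)]
  have h41 : Van [a, mu * Y2, l * Y2, X2, c * Y2, y3, Y2 ^ 2, X3, y4, X4, X5, X6] G41 := by
    refine ⟨?_, ?_, h39⟩
    · simp only [f41, ev, mono, Nat.reduceMod, Nat.reduceDiv, pow_zero, pow_one, one_mul, mul_one,
        Nat.cast_ofNat, Nat.cast_zero, Nat.cast_one, sub_zero, zero_sub, add_zero]
      linear_combination Y2 * hm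
    · simp only [f40, ev, mono, Nat.reduceMod, Nat.reduceDiv, pow_zero, pow_one, one_mul, mul_one,
        Nat.cast_ofNat, Nat.cast_zero, Nat.cast_one, sub_zero, zero_sub, add_zero]
      linear_combination ha
  have e3 := tgt rfl h41 (by decide +kernel) (by decide +kernel) h0 (chk_ok run2 _ rfl)
  simp only [t2, ev, mono, Nat.reduceMod, Nat.reduceDiv, pow_zero, pow_one, one_mul, mul_one,
    Nat.cast_ofNat, Nat.cast_zero, Nat.cast_one, sub_zero, zero_sub, add_zero] at e3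
  have e4 : l ^ 2 - 1 = 0 :=
    (mul_eq_zero.1 (show (Y2 ^ 2) ^ 2 * _ = 0 by linear_combination e3)).resolve_left
      (by positivity)
  exact ⟨ha, by linarith, hm⟩

end Vale.Agent.P280Z.M2.K1
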