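import Vale.Agent.P280Z.Al.C3.Chk

/-!
# P280Z, block M2: a checker for polynomial identities that can be cut into pieces
-/

noncomputable section

namespace Vale.Agent.P280Z.M2.K1

open Al.C3

/-- the terms whose key has a given parity -/
def flt (i j : ℕ) (l : L) : L :=
  L.rec .nil (fun k a b _ ih => Bool.rec ih (.cons k a b ih)
    (Nat.beq (Nat.mod (Nat.div k i) 2) j)) l

theorem ev_flt (xs : List ℝ) (i : ℕ) (l : L) :
    ev xs l = ev xs (flt i 0 l) + ev xs (flt i 1 l) := by
  induction l with
  | nil => show (0 : ℝ) = 0 + 0; simp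
  | cons k a b t ih =>
    show _ = ev xs (Bool.rec (flt i 0 t) (.cons k a b (flt i 0 t)) (Nat.beq (k / i % 2) 0)) +
      ev xs (Bool.rec (flt i 1 t) (.cons k a b (flt i 1 t)) (Nat.beq (k / i % 2) 1))
    rcases Nat.mod_two_eq_zero_or_one (k / i) with h | h <;> rw [h]
    · show _ = ev xs (.cons k a b (flt i 0 t)) + ev xs (flt i 1 t)
      simp only [ev]; linarith
    · show _ = ev xs (flt i 0 t) + ev xs (.cons k a b (flt i 1 t))
      simp only [ev]; linarith

/-- the sum of the products -/
def dot (xs : List ℝ) : LL → LL → ℝ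
  | .cons f t, .cons c u => ev xs f * ev xs c + dot xs t u
  | .nil, _ => 0
  | .cons _ _, .nil => 0

/-- every polynomial is cut into two pieces -/
def spl (i j j' : ℕ) (l : LL) : LL :=
  LL.rec .nil (fun h _ ih => .cons (flt i j h) (.cons (flt i j' h) ih)) l

theorem dot_spl (xs : List ℝ) (i : ℕ) (f : LL) : ∀ c, dot xs f c =
    dot xs (spl i 0 1 f) (spl i 0 1 c) + dot xs (spl i 0 1 f) (spl i 1 0 c) := by
  induction f with
  | nil => intro c; show (0 : ℝ) = dot xs .nil _ + dot xs .nil _; simp [dot]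
  | cons f t ih =>
    intro c
    cases c with
    | nil => show (0 : ℝ) = dot xs (.cons _ _) .nil + dot xs (.cons _ _) .nil; simp [dot]
    | cons c u =>
      show _ = dot xs (.cons (flt i 0 f) (.cons (flt i 1 f) (spl i 0 1 t)))
          (.cons (flt i 0 c) (.cons (flt i 1 c) (spl i 0 1 u))) +
        dot xs (.cons (flt i 0 f) (.cons (flt i 1 f) (spl i 0 1 t)))
          (.cons (flt i 1 c) (.cons (flt i 0 c) (spl i 1 0 u)))
      simp only [dot]
      rw [ih u, ev_flt xs i f, ev_flt xs i c]
      ring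

theorem dot_van (xs : List ℝ) (f : LL) (hf : Van xs f) : ∀ c, dot xs f c = 0 := by
  induction f with
  | nil => intro c; simp [dot]
  | cons f t ih =>
    intro c
    cases c with
    | nil => simp [dot]
    | cons c u => simp only [dot]; rw [hf.1, ih hf.2, zero_mul, add_zero]

/-- the products -/
def pr2 (f c : LL) : LL :=
  LL.rec (motive := fun _ => LL → LL) (fun _ => .nil)
    (fun f _ ih c => LL.rec .nil (fun c t _ => .cons (sum 10 (trm f c)) (ih t)) c) f c

/-- all keys are small -/
def smLL (l : LL) : Bool := LL.rec true (fun h _ ih => Bool.rec false ih (smL 12 h)) l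

theorem smLL_cons {h t} : smLL (.cons h t) = true ↔ smL 12 h = true ∧ smLL t = true := by
  show Bool.rec false (smLL t) (smL 12 h) = true ↔ _
  cases smL 12 h <;> simp

theorem evs_pr2 (xs : List ℝ) (hx : xs.length = 12) (f : LL) (hf : smLL f = true) :
    ∀ c, smLL c = true → evs xs (pr2 f c) = dot xs f c := by
  induction f with
  | nil => intro c _; simp only [dot]; rfl
  | cons f t ih =>
    intro c hc
    cases c with
    | nil => simp only [dot]; rfl
    | cons c u =>
      show ev xs (sum 10 (trm f c)) + evs xs (pr2 t u) = _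
      rw [ev_sum, evs_trm xs c (hx ▸ (smLL_cons.1 hc).1) f (hx ▸ (smLL_cons.1 hf).1),
        ih (smLL_cons.1 hf).2 u (smLL_cons.1 hc).2]
      simp only [dot]

/-- the check -/
def chk (f c : LL) (t : L) : Bool :=
  Bool.rec false (Bool.rec false (allz (mrg (sum 10 (pr2 f c)) t)) (smLL c)) (smLL f)

theorem chk_ok {f c : LL} {t : L} (h : chk f c t = true) (xs : List ℝ) (hx : xs.length = 12) :
    dot xs f c + ev xs t = 0 := by
  unfold chk at h
  cases h1 : smLL f
  · rw [h1] at h; cases h
  · cases h2 : smLL c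
    · rw [h1, h2] at h; cases h
    · rw [h1, h2] at h
      have := ev_allz xs _ h
      rwa [ev_mrg, ev_sum, evs_pr2 xs hx f h1 c h2] at this

/-- one of two pieces -/
def ch1 (i j j' : ℕ) (r : LL → LL → L → Bool) (f c : LL) (t : L) : Bool :=
  r (spl i 0 1 f) (spl i j j' c) (flt i j t)

theorem glue {xs : List ℝ} {i : ℕ} {f c : LL} {t : L}
    (h0 : dot xs (spl i 0 1 f) (spl i 0 1 c) + ev xs (flt i 0 t) = 0)
    (h1 : dot xs (spl i 0 1 f) (spl i 1 0 c) + ev xs (flt i 1 t) = 0) :
    dot xs f c + ev xs t = 0 := by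
  rw [dot_spl xs i, ev_flt xs i t]; linarith

/-- division by a monomial -/
theorem sat {f c : LL} {g : L} {k n : ℕ} (h : chk f c (scN k n g) = true) {xs : List ℝ}
    (hx : xs.length = 12) (hk : sm 12 k = true) (hg : smL 12 g = true) (hn : n ≠ 0)
    (hm : mono xs k ≠ 0) (hf : Van xs f) : Van xs (.cons g f) := by
  have := chk_ok h xs hx
  rw [dot_van xs f hf, ev_scN xs k n (hx ▸ hk) g (hx ▸ hg), zero_add, neg_eq_zero] at this
  exact ⟨(mul_eq_zero.1 this).resolve_left (mul_ne_zero (Nat.cast_ne_zero.2 hn) hm), hf⟩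

end Vale.Agent.P280Z.M2.K1
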