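import Vale.Agent.P280Z.M2.K1.Chk

/-!
# P280Z, block M2: data of a certificate
-/

noncomputable section

namespace Vale.Agent.P280Z.M2.K1

open Al.C3

/-- data -/
def f0 : L :=
  L.cons (nat_lit 35184372088832) (nat_lit 2) (nat_lit 0) <| L.cons (nat_lit 34359771137) (nat_lit 0) (nat_lit 3) <| L.cons (nat_lit 34359739392) (nat_lit 0) (nat_lit 3) <| L.cons (nat_lit 1073774592) (nat_lit 0) (nat_lit 3) <| L.cons (nat_lit 1073742848) (nat_lit 1) (nat_lit 0) <|
  L.cons (nat_lit 1073741856) (nat_lit 0) (nat_lit 2) <| L.cons (nat_lit 98305) (nat_lit 2) (nat_lit 0) <| L.cons (nat_lit 98304) (nat_lit 0) (nat_lit 1) <| L.cons (nat_lit 66560) (nat_lit 3) (nat_lit 0) <| L.cons (nat_lit 32769) (nat_lit 0) (nat_lit 4) <|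
  L.cons (nat_lit 32768) (nat_lit 6) (nat_lit 0) <| L.cons (nat_lit 1024) (nat_lit 2) (nat_lit 0) <|
  L.nil

/-- data -/
def f1 : L :=
  L.cons (nat_lit 35184372088833) (nat_lit 2) (nat_lit 0) <| L.cons (nat_lit 35184372088832) (nat_lit 2) (nat_lit 0) <| L.cons (nat_lit 34359771137) (nat_lit 0) (nat_lit 9) <| L.cons (nat_lit 34359739392) (nat_lit 0) (nat_lit 6) <| L.cons (nat_lit 34359738400) (nat_lit 0) (nat_lit 3) <|
  L.cons (nat_lit 1107296256) (nat_lit 3) (nat_lit 0) <| L.cons (nat_lit 1073774593) (nat_lit 0) (nat_lit 3) <| L.cons (nat_lit 1073774592) (nat_lit 0) (nat_lit 9) <| L.cons (nat_lit 1073742848) (nat_lit 1) (nat_lit 0) <| L.cons (nat_lit 1073741856) (nat_lit 0) (nat_lit 5) <|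
  L.cons (nat_lit 33588224) (nat_lit 0) (nat_lit 3) <| L.cons (nat_lit 98305) (nat_lit 5) (nat_lit 0) <| L.cons (nat_lit 98304) (nat_lit 0) (nat_lit 1) <| L.cons (nat_lit 66560) (nat_lit 9) (nat_lit 0) <| L.cons (nat_lit 65568) (nat_lit 3) (nat_lit 0) <|
  L.cons (nat_lit 32769) (nat_lit 0) (nat_lit 6) <| L.cons (nat_lit 32768) (nat_lit 6) (nat_lit 0) <| L.cons (nat_lit 1024) (nat_lit 0) (nat_lit 2) <| L.cons (nat_lit 32) (nat_lit 2) (nat_lit 0) <|
  L.nil

/-- data -/
def f2 : L :=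
  L.cons (nat_lit 35184372088833) (nat_lit 8) (nat_lit 0) <| L.cons (nat_lit 35184372088832) (nat_lit 4) (nat_lit 0) <| L.cons (nat_lit 1099511628800) (nat_lit 2) (nat_lit 0) <| L.cons (nat_lit 34359771137) (nat_lit 0) (nat_lit 27) <| L.cons (nat_lit 34359771136) (nat_lit 0) (nat_lit 3) <|
  L.cons (nat_lit 34359739392) (nat_lit 0) (nat_lit 18) <| L.cons (nat_lit 34359738400) (nat_lit 0) (nat_lit 12) <| L.cons (nat_lit 1107296257) (nat_lit 3) (nat_lit 0) <| L.cons (nat_lit 1107296256) (nat_lit 12) (nat_lit 0) <| L.cons (nat_lit 1074790400) (nat_lit 1) (nat_lit 0) <|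
  L.cons (nat_lit 1073774593) (nat_lit 0) (nat_lit 18) <| L.cons (nat_lit 1073774592) (nat_lit 0) (nat_lit 30) <| L.cons (nat_lit 1073742848) (nat_lit 1) (nat_lit 0) <| L.cons (nat_lit 1073741856) (nat_lit 0) (nat_lit 17) <| L.cons (nat_lit 33588224) (nat_lit 0) (nat_lit 12) <|
  L.cons (nat_lit 33587232) (nat_lit 0) (nat_lit 3) <| L.cons (nat_lit 1082368) (nat_lit 0) (nat_lit 3) <| L.cons (nat_lit 98305) (nat_lit 14) (nat_lit 0) <| L.cons (nat_lit 66560) (nat_lit 27) (nat_lit 0) <| L.cons (nat_lit 65568) (nat_lit 15) (nat_lit 0) <|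
  L.cons (nat_lit 32769) (nat_lit 0) (nat_lit 12) <| L.cons (nat_lit 32768) (nat_lit 8) (nat_lit 0) <| L.cons (nat_lit 1024) (nat_lit 0) (nat_lit 6) <| L.cons (nat_lit 32) (nat_lit 2) (nat_lit 0) <|
  L.nil

/-- data -/
def f3 : L :=
  L.cons (nat_lit 35184372089856) (nat_lit 2) (nat_lit 0) <| L.cons (nat_lit 35184372088864) (nat_lit 2) (nat_lit 0) <| L.cons (nat_lit 35433480193) (nat_lit 3) (nat_lit 0) <| L.cons (nat_lit 35433480192) (nat_lit 6) (nat_lit 0) <| L.cons (nat_lit 34359772160) (nat_lit 0) (nat_lit 6) <|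
  L.cons (nat_lit 34359771168) (nat_lit 0) (nat_lit 3) <| L.cons (nat_lit 2147483649) (nat_lit 9) (nat_lit 0) <| L.cons (nat_lit 2147483648) (nat_lit 3) (nat_lit 0) <| L.cons (nat_lit 1107329024) (nat_lit 3) (nat_lit 0) <| L.cons (nat_lit 1107297280) (nat_lit 0) (nat_lit 3) <|
  L.cons (nat_lit 1107296288) (nat_lit 6) (nat_lit 0) <| L.cons (nat_lit 1074791424) (nat_lit 6) (nat_lit 0) <| L.cons (nat_lit 1074790432) (nat_lit 0) (nat_lit 2) <| L.cons (nat_lit 1073807361) (nat_lit 0) (nat_lit 3) <| L.cons (nat_lit 1073807360) (nat_lit 0) (nat_lit 9) <|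
  L.cons (nat_lit 1073775616) (nat_lit 3) (nat_lit 0) <| L.cons (nat_lit 1073774624) (nat_lit 0) (nat_lit 15) <| L.cons (nat_lit 1073741825) (nat_lit 0) (nat_lit 2) <| L.cons (nat_lit 1073741824) (nat_lit 2) (nat_lit 0) <| L.cons (nat_lit 99328) (nat_lit 3) (nat_lit 0) <|
  L.cons (nat_lit 98336) (nat_lit 1) (nat_lit 0) <| L.cons (nat_lit 33792) (nat_lit 0) (nat_lit 2) <| L.cons (nat_lit 32800) (nat_lit 2) (nat_lit 0) <|
  L.nil

/-- data -/
def f4 : L :=
  L.cons (nat_lit 35184372089856) (nat_lit 4) (nat_lit 0) <| L.cons (nat_lit 35184372088864) (nat_lit 2) (nat_lit 0) <| L.cons (nat_lit 35433480193) (nat_lit 3) (nat_lit 0) <| L.cons (nat_lit 35433480192) (nat_lit 9) (nat_lit 0) <| L.cons (nat_lit 34359772160) (nat_lit 0) (nat_lit 9) <|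
  L.cons (nat_lit 34359771168) (nat_lit 0) (nat_lit 3) <| L.cons (nat_lit 2147483649) (nat_lit 13) (nat_lit 0) <| L.cons (nat_lit 2147483648) (nat_lit 4) (nat_lit 0) <| L.cons (nat_lit 1107329024) (nat_lit 3) (nat_lit 0) <| L.cons (nat_lit 1107297280) (nat_lit 0) (nat_lit 6) <|
  L.cons (nat_lit 1107296288) (nat_lit 9) (nat_lit 0) <| L.cons (nat_lit 1074791424) (nat_lit 9) (nat_lit 0) <| L.cons (nat_lit 1074790432) (nat_lit 0) (nat_lit 3) <| L.cons (nat_lit 1073807361) (nat_lit 0) (nat_lit 3) <| L.cons (nat_lit 1073807360) (nat_lit 0) (nat_lit 12) <|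
  L.cons (nat_lit 1073775616) (nat_lit 6) (nat_lit 0) <| L.cons (nat_lit 1073774624) (nat_lit 0) (nat_lit 21) <| L.cons (nat_lit 1073741825) (nat_lit 0) (nat_lit 2) <| L.cons (nat_lit 99328) (nat_lit 4) (nat_lit 0) <| L.cons (nat_lit 98336) (nat_lit 1) (nat_lit 0) <|
  L.cons (nat_lit 32800) (nat_lit 2) (nat_lit 0) <|
  L.nil

/-- data -/
def f5 : L :=
  L.cons (nat_lit 35184372089856) (nat_lit 6) (nat_lit 0) <| L.cons (nat_lit 35184372088864) (nat_lit 6) (nat_lit 0) <| L.cons (nat_lit 1100585369600) (nat_lit 0) (nat_lit 2) <| L.cons (nat_lit 35433480193) (nat_lit 15) (nat_lit 0) <| L.cons (nat_lit 35433480192) (nat_lit 21) (nat_lit 0) <|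
  L.cons (nat_lit 34360787968) (nat_lit 3) (nat_lit 0) <| L.cons (nat_lit 34359772160) (nat_lit 0) (nat_lit 18) <| L.cons (nat_lit 34359771168) (nat_lit 0) (nat_lit 12) <| L.cons (nat_lit 2147483649) (nat_lit 30) (nat_lit 0) <| L.cons (nat_lit 2147483648) (nat_lit 12) (nat_lit 0) <|
  L.cons (nat_lit 1107329025) (nat_lit 3) (nat_lit 0) <| L.cons (nat_lit 1107329024) (nat_lit 12) (nat_lit 0) <| L.cons (nat_lit 1107297280) (nat_lit 0) (nat_lit 6) <| L.cons (nat_lit 1107296288) (nat_lit 21) (nat_lit 0) <| L.cons (nat_lit 1074823168) (nat_lit 3) (nat_lit 0) <|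
  L.cons (nat_lit 1074791424) (nat_lit 18) (nat_lit 0) <| L.cons (nat_lit 1074790432) (nat_lit 0) (nat_lit 4) <| L.cons (nat_lit 1073807361) (nat_lit 0) (nat_lit 18) <| L.cons (nat_lit 1073807360) (nat_lit 0) (nat_lit 30) <| L.cons (nat_lit 1073775616) (nat_lit 3) (nat_lit 0) <|
  L.cons (nat_lit 1073774624) (nat_lit 0) (nat_lit 51) <| L.cons (nat_lit 1073741825) (nat_lit 0) (nat_lit 4) <| L.cons (nat_lit 1073741824) (nat_lit 4) (nat_lit 0) <| L.cons (nat_lit 1115136) (nat_lit 0) (nat_lit 3) <| L.cons (nat_lit 1049600) (nat_lit 0) (nat_lit 2) <|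
  L.cons (nat_lit 99328) (nat_lit 9) (nat_lit 0) <| L.cons (nat_lit 98336) (nat_lit 5) (nat_lit 0) <| L.cons (nat_lit 33792) (nat_lit 0) (nat_lit 6) <| L.cons (nat_lit 32800) (nat_lit 2) (nat_lit 0) <|
  L.nil

/-- data -/
def f6 : L :=
  L.cons (nat_lit 35184373138432) (nat_lit 0) (nat_lit 2) <| L.cons (nat_lit 1100585370624) (nat_lit 2) (nat_lit 0) <| L.cons (nat_lit 1100585369632) (nat_lit 0) (nat_lit 4) <| L.cons (nat_lit 35434528768) (nat_lit 0) (nat_lit 3) <| L.cons (nat_lit 35433512961) (nat_lit 3) (nat_lit 0) <|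
  L.cons (nat_lit 35433512960) (nat_lit 0) (nat_lit 3) <| L.cons (nat_lit 34360820736) (nat_lit 3) (nat_lit 0) <| L.cons (nat_lit 2181038081) (nat_lit 9) (nat_lit 0) <| L.cons (nat_lit 2148532225) (nat_lit 0) (nat_lit 8) <| L.cons (nat_lit 2148532224) (nat_lit 2) (nat_lit 0) <|
  L.cons (nat_lit 2147516417) (nat_lit 0) (nat_lit 18) <| L.cons (nat_lit 2147484672) (nat_lit 0) (nat_lit 3) <| L.cons (nat_lit 2147483680) (nat_lit 0) (nat_lit 3) <| L.cons (nat_lit 1108345856) (nat_lit 9) (nat_lit 0) <| L.cons (nat_lit 1108344864) (nat_lit 0) (nat_lit 3) <|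
  L.cons (nat_lit 1107330048) (nat_lit 6) (nat_lit 0) <| L.cons (nat_lit 1107329056) (nat_lit 0) (nat_lit 3) <| L.cons (nat_lit 1075840000) (nat_lit 0) (nat_lit 7) <| L.cons (nat_lit 1075839008) (nat_lit 3) (nat_lit 0) <| L.cons (nat_lit 1074855936) (nat_lit 3) (nat_lit 0) <|
  L.cons (nat_lit 1074824192) (nat_lit 0) (nat_lit 18) <| L.cons (nat_lit 1074823200) (nat_lit 12) (nat_lit 0) <| L.cons (nat_lit 1074790400) (nat_lit 2) (nat_lit 0) <| L.cons (nat_lit 1073840129) (nat_lit 0) (nat_lit 2) <| L.cons (nat_lit 1073840128) (nat_lit 2) (nat_lit 0) <|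
  L.cons (nat_lit 1073808384) (nat_lit 0) (nat_lit 9) <| L.cons (nat_lit 1073807392) (nat_lit 9) (nat_lit 0) <| L.cons (nat_lit 1073774593) (nat_lit 4) (nat_lit 0) <| L.cons (nat_lit 1073774592) (nat_lit 0) (nat_lit 4) <| L.cons (nat_lit 1073742848) (nat_lit 18) (nat_lit 0) <|
  L.cons (nat_lit 1073741856) (nat_lit 0) (nat_lit 18) <| L.cons (nat_lit 1147904) (nat_lit 0) (nat_lit 1) <| L.cons (nat_lit 1082368) (nat_lit 0) (nat_lit 2) <|
  L.nil

/-- data -/
def f7 : L :=
  L.cons (nat_lit 1125899906842624) (nat_lit 90) (nat_lit 0) <| L.cons (nat_lit 35184372121601) (nat_lit 0) (nat_lit 90) <| L.cons (nat_lit 35184372121600) (nat_lit 0) (nat_lit 90) <| L.cons (nat_lit 35184372089856) (nat_lit 0) (nat_lit 90) <| L.cons (nat_lit 35184372088864) (nat_lit 0) (nat_lit 90) <|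
  L.cons (nat_lit 68719476737) (nat_lit 0) (nat_lit 90) <| L.cons (nat_lit 35433480193) (nat_lit 0) (nat_lit 45) <| L.cons (nat_lit 35433480192) (nat_lit 0) (nat_lit 90) <| L.cons (nat_lit 34393293824) (nat_lit 0) (nat_lit 90) <| L.cons (nat_lit 34359803905) (nat_lit 135) (nat_lit 0) <|
  L.cons (nat_lit 34359772160) (nat_lit 180) (nat_lit 0) <| L.cons (nat_lit 34359771168) (nat_lit 90) (nat_lit 0) <| L.cons (nat_lit 34359738369) (nat_lit 0) (nat_lit 30) <| L.cons (nat_lit 1107329024) (nat_lit 0) (nat_lit 90) <| L.cons (nat_lit 1107297280) (nat_lit 45) (nat_lit 0) <|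
  L.cons (nat_lit 1107296288) (nat_lit 0) (nat_lit 90) <| L.cons (nat_lit 1073741825) (nat_lit 15) (nat_lit 0) <| L.cons (nat_lit 1073741824) (nat_lit 0) (nat_lit 15) <| L.cons (nat_lit 33620992) (nat_lit 45) (nat_lit 0) <| L.cons (nat_lit 33555456) (nat_lit 30) (nat_lit 0) <|
  L.cons (nat_lit 65537) (nat_lit 45) (nat_lit 0) <| L.cons (nat_lit 65536) (nat_lit 0) (nat_lit 45) <| L.cons (nat_lit 33792) (nat_lit 30) (nat_lit 0) <| L.cons (nat_lit 32800) (nat_lit 0) (nat_lit 30) <| L.cons (nat_lit 1) (nat_lit 0) (nat_lit 160) <|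
  L.cons (nat_lit 0) (nat_lit 288) (nat_lit 0) <|
  L.nil

/-- data -/
def f8 : L :=
  L.cons (nat_lit 1125899906842625) (nat_lit 90) (nat_lit 0) <| L.cons (nat_lit 1125899906842624) (nat_lit 180) (nat_lit 0) <| L.cons (nat_lit 35184372121601) (nat_lit 0) (nat_lit 360) <| L.cons (nat_lit 35184372121600) (nat_lit 0) (nat_lit 180) <| L.cons (nat_lit 35184372089856) (nat_lit 0) (nat_lit 270) <|
  L.cons (nat_lit 35184372088864) (nat_lit 0) (nat_lit 270) <| L.cons (nat_lit 1100585369600) (nat_lit 90) (nat_lit 0) <| L.cons (nat_lit 1099511661568) (nat_lit 0) (nat_lit 90) <| L.cons (nat_lit 68719476737) (nat_lit 0) (nat_lit 270) <| L.cons (nat_lit 68719476736) (nat_lit 0) (nat_lit 45) <|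
  L.cons (nat_lit 35433480193) (nat_lit 0) (nat_lit 225) <| L.cons (nat_lit 35433480192) (nat_lit 0) (nat_lit 315) <| L.cons (nat_lit 34393293824) (nat_lit 0) (nat_lit 270) <| L.cons (nat_lit 34393292832) (nat_lit 0) (nat_lit 90) <| L.cons (nat_lit 34360787968) (nat_lit 0) (nat_lit 45) <|
  L.cons (nat_lit 34359803905) (nat_lit 405) (nat_lit 0) <| L.cons (nat_lit 34359803904) (nat_lit 45) (nat_lit 0) <| L.cons (nat_lit 34359772160) (nat_lit 540) (nat_lit 0) <| L.cons (nat_lit 34359771168) (nat_lit 360) (nat_lit 0) <| L.cons (nat_lit 34359738369) (nat_lit 0) (nat_lit 90) <|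
  L.cons (nat_lit 34359738368) (nat_lit 30) (nat_lit 0) <| L.cons (nat_lit 1140850688) (nat_lit 45) (nat_lit 0) <| L.cons (nat_lit 1107329025) (nat_lit 0) (nat_lit 90) <| L.cons (nat_lit 1107329024) (nat_lit 0) (nat_lit 360) <| L.cons (nat_lit 1107297280) (nat_lit 90) (nat_lit 0) <|
  L.cons (nat_lit 1107296288) (nat_lit 0) (nat_lit 315) <| L.cons (nat_lit 1073741825) (nat_lit 30) (nat_lit 0) <| L.cons (nat_lit 1073741824) (nat_lit 0) (nat_lit 30) <| L.cons (nat_lit 33620992) (nat_lit 180) (nat_lit 0) <| L.cons (nat_lit 33620000) (nat_lit 45) (nat_lit 0) <|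
  L.cons (nat_lit 33554464) (nat_lit 30) (nat_lit 0) <| L.cons (nat_lit 1049600) (nat_lit 15) (nat_lit 0) <| L.cons (nat_lit 65537) (nat_lit 90) (nat_lit 0) <| L.cons (nat_lit 65536) (nat_lit 0) (nat_lit 60) <| L.cons (nat_lit 33792) (nat_lit 90) (nat_lit 0) <|
  L.cons (nat_lit 32800) (nat_lit 0) (nat_lit 30) <| L.cons (nat_lit 1) (nat_lit 0) (nat_lit 192) <| L.cons (nat_lit 0) (nat_lit 256) (nat_lit 0) <|
  L.nil

/-- data -/
def f9 : L :=
  L.cons (nat_lit 1125899906842656) (nat_lit 90) (nat_lit 0) <| L.cons (nat_lit 35185445830657) (nat_lit 90) (nat_lit 0) <| L.cons (nat_lit 35185445830656) (nat_lit 90) (nat_lit 0) <| L.cons (nat_lit 35184372122624) (nat_lit 0) (nat_lit 90) <| L.cons (nat_lit 35184372121632) (nat_lit 0) (nat_lit 90) <|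
  L.cons (nat_lit 68719477760) (nat_lit 0) (nat_lit 45) <| L.cons (nat_lit 68719476768) (nat_lit 0) (nat_lit 45) <| L.cons (nat_lit 35467034624) (nat_lit 90) (nat_lit 0) <| L.cons (nat_lit 35433512961) (nat_lit 0) (nat_lit 90) <| L.cons (nat_lit 35433512960) (nat_lit 0) (nat_lit 180) <|
  L.cons (nat_lit 35433480224) (nat_lit 0) (nat_lit 135) <| L.cons (nat_lit 34359804928) (nat_lit 90) (nat_lit 0) <| L.cons (nat_lit 34359803936) (nat_lit 45) (nat_lit 0) <| L.cons (nat_lit 34359739392) (nat_lit 0) (nat_lit 60) <| L.cons (nat_lit 34359738400) (nat_lit 30) (nat_lit 0) <|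
  L.cons (nat_lit 2181038081) (nat_lit 180) (nat_lit 0) <| L.cons (nat_lit 2181038080) (nat_lit 45) (nat_lit 0) <| L.cons (nat_lit 1140851712) (nat_lit 0) (nat_lit 45) <| L.cons (nat_lit 1140850720) (nat_lit 45) (nat_lit 0) <| L.cons (nat_lit 1108345856) (nat_lit 135) (nat_lit 0) <|
  L.cons (nat_lit 1108344864) (nat_lit 0) (nat_lit 45) <| L.cons (nat_lit 1107361792) (nat_lit 0) (nat_lit 45) <| L.cons (nat_lit 1107330048) (nat_lit 90) (nat_lit 0) <| L.cons (nat_lit 1107329056) (nat_lit 0) (nat_lit 180) <| L.cons (nat_lit 1107296256) (nat_lit 0) (nat_lit 30) <|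
  L.cons (nat_lit 1073774593) (nat_lit 30) (nat_lit 0) <| L.cons (nat_lit 1073774592) (nat_lit 0) (nat_lit 30) <| L.cons (nat_lit 1073742848) (nat_lit 45) (nat_lit 0) <| L.cons (nat_lit 1073741856) (nat_lit 0) (nat_lit 45) <| L.cons (nat_lit 66560) (nat_lit 15) (nat_lit 0) <|
  L.cons (nat_lit 65568) (nat_lit 0) (nat_lit 15) <| L.cons (nat_lit 1024) (nat_lit 160) (nat_lit 0) <| L.cons (nat_lit 32) (nat_lit 0) (nat_lit 32) <|
  L.nil

/-- data -/
def f10 : L :=
  L.cons (nat_lit 1125899906843648) (nat_lit 90) (nat_lit 0) <| L.cons (nat_lit 1125899906842656) (nat_lit 90) (nat_lit 0) <| L.cons (nat_lit 35185445830657) (nat_lit 90) (nat_lit 0) <| L.cons (nat_lit 35185445830656) (nat_lit 180) (nat_lit 0) <| L.cons (nat_lit 35184372122624) (nat_lit 0) (nat_lit 180) <|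
  L.cons (nat_lit 35184372121632) (nat_lit 0) (nat_lit 90) <| L.cons (nat_lit 1100585370624) (nat_lit 0) (nat_lit 90) <| L.cons (nat_lit 1100585369632) (nat_lit 90) (nat_lit 0) <| L.cons (nat_lit 68719477760) (nat_lit 0) (nat_lit 90) <| L.cons (nat_lit 68719476768) (nat_lit 0) (nat_lit 45) <|
  L.cons (nat_lit 35467034624) (nat_lit 90) (nat_lit 0) <| L.cons (nat_lit 35433512961) (nat_lit 0) (nat_lit 90) <| L.cons (nat_lit 35433512960) (nat_lit 0) (nat_lit 270) <| L.cons (nat_lit 35433481216) (nat_lit 45) (nat_lit 0) <| L.cons (nat_lit 35433480224) (nat_lit 0) (nat_lit 225) <|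
  L.cons (nat_lit 34359804928) (nat_lit 135) (nat_lit 0) <| L.cons (nat_lit 34359803936) (nat_lit 45) (nat_lit 0) <| L.cons (nat_lit 34359739392) (nat_lit 0) (nat_lit 30) <| L.cons (nat_lit 34359738400) (nat_lit 30) (nat_lit 0) <| L.cons (nat_lit 2181038081) (nat_lit 270) (nat_lit 0) <|
  L.cons (nat_lit 2181038080) (nat_lit 45) (nat_lit 0) <| L.cons (nat_lit 1140851712) (nat_lit 0) (nat_lit 90) <| L.cons (nat_lit 1140850720) (nat_lit 45) (nat_lit 0) <| L.cons (nat_lit 1108345856) (nat_lit 225) (nat_lit 0) <| L.cons (nat_lit 1108344864) (nat_lit 0) (nat_lit 90) <|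
  L.cons (nat_lit 1107361792) (nat_lit 0) (nat_lit 45) <| L.cons (nat_lit 1107330048) (nat_lit 180) (nat_lit 0) <| L.cons (nat_lit 1107329056) (nat_lit 0) (nat_lit 270) <| L.cons (nat_lit 1107296256) (nat_lit 0) (nat_lit 30) <| L.cons (nat_lit 1073774593) (nat_lit 30) (nat_lit 0) <|
  L.cons (nat_lit 1073742848) (nat_lit 30) (nat_lit 0) <| L.cons (nat_lit 1073741856) (nat_lit 0) (nat_lit 15) <| L.cons (nat_lit 65568) (nat_lit 0) (nat_lit 15) <| L.cons (nat_lit 1024) (nat_lit 128) (nat_lit 0) <| L.cons (nat_lit 32) (nat_lit 0) (nat_lit 32) <|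
  L.nil

/-- data -/
def f11 : L :=
  L.cons (nat_lit 1125899906843648) (nat_lit 90) (nat_lit 0) <| L.cons (nat_lit 1125899906842656) (nat_lit 180) (nat_lit 0) <| L.cons (nat_lit 35185445830657) (nat_lit 360) (nat_lit 0) <| L.cons (nat_lit 35185445830656) (nat_lit 360) (nat_lit 0) <| L.cons (nat_lit 35184373138432) (nat_lit 90) (nat_lit 0) <|
  L.cons (nat_lit 35184372122624) (nat_lit 0) (nat_lit 270) <| L.cons (nat_lit 35184372121632) (nat_lit 0) (nat_lit 270) <| L.cons (nat_lit 1100585402368) (nat_lit 90) (nat_lit 0) <| L.cons (nat_lit 1100585370624) (nat_lit 0) (nat_lit 90) <| L.cons (nat_lit 1100585369632) (nat_lit 180) (nat_lit 0) <|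
  L.cons (nat_lit 68719477760) (nat_lit 0) (nat_lit 180) <| L.cons (nat_lit 68719476768) (nat_lit 0) (nat_lit 135) <| L.cons (nat_lit 35467034625) (nat_lit 90) (nat_lit 0) <| L.cons (nat_lit 35467034624) (nat_lit 270) (nat_lit 0) <| L.cons (nat_lit 35434528768) (nat_lit 45) (nat_lit 0) <|
  L.cons (nat_lit 35433512961) (nat_lit 0) (nat_lit 450) <| L.cons (nat_lit 35433512960) (nat_lit 0) (nat_lit 630) <| L.cons (nat_lit 35433480224) (nat_lit 0) (nat_lit 540) <| L.cons (nat_lit 34360820736) (nat_lit 0) (nat_lit 90) <| L.cons (nat_lit 34359804928) (nat_lit 270) (nat_lit 0) <|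
  L.cons (nat_lit 34359803936) (nat_lit 180) (nat_lit 0) <| L.cons (nat_lit 34359739392) (nat_lit 0) (nat_lit 60) <| L.cons (nat_lit 2181038081) (nat_lit 585) (nat_lit 0) <| L.cons (nat_lit 2181038080) (nat_lit 180) (nat_lit 0) <| L.cons (nat_lit 1140851712) (nat_lit 0) (nat_lit 90) <|
  L.cons (nat_lit 1140850720) (nat_lit 135) (nat_lit 0) <| L.cons (nat_lit 1108345856) (nat_lit 405) (nat_lit 0) <| L.cons (nat_lit 1108344864) (nat_lit 0) (nat_lit 135) <| L.cons (nat_lit 1107361793) (nat_lit 0) (nat_lit 45) <| L.cons (nat_lit 1107361792) (nat_lit 0) (nat_lit 180) <|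
  L.cons (nat_lit 1107330048) (nat_lit 180) (nat_lit 0) <| L.cons (nat_lit 1107329056) (nat_lit 0) (nat_lit 630) <| L.cons (nat_lit 1107296257) (nat_lit 0) (nat_lit 30) <| L.cons (nat_lit 1074790400) (nat_lit 0) (nat_lit 15) <| L.cons (nat_lit 1073774593) (nat_lit 60) (nat_lit 0) <|
  L.cons (nat_lit 1073774592) (nat_lit 0) (nat_lit 60) <| L.cons (nat_lit 1073742848) (nat_lit 45) (nat_lit 0) <| L.cons (nat_lit 1073741856) (nat_lit 0) (nat_lit 45) <| L.cons (nat_lit 1082368) (nat_lit 30) (nat_lit 0) <| L.cons (nat_lit 66560) (nat_lit 45) (nat_lit 0) <|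
  L.cons (nat_lit 65568) (nat_lit 0) (nat_lit 15) <| L.cons (nat_lit 1024) (nat_lit 0) (nat_lit 32) <| L.cons (nat_lit 32) (nat_lit 96) (nat_lit 0) <|
  L.nil

/-- data -/
def f12_1 : L :=
  L.cons (nat_lit 1109393440) (nat_lit 45) (nat_lit 0) <| L.cons (nat_lit 1108378624) (nat_lit 0) (nat_lit 810) <| L.cons (nat_lit 1108377632) (nat_lit 270) (nat_lit 0) <| L.cons (nat_lit 1107394561) (nat_lit 90) (nat_lit 0) <| L.cons (nat_lit 1107394560) (nat_lit 270) (nat_lit 0) <|
  L.cons (nat_lit 1107362816) (nat_lit 0) (nat_lit 180) <| L.cons (nat_lit 1107361824) (nat_lit 1035) (nat_lit 0) <| L.cons (nat_lit 1107329025) (nat_lit 180) (nat_lit 0) <| L.cons (nat_lit 1107329024) (nat_lit 0) (nat_lit 180) <| L.cons (nat_lit 1107297280) (nat_lit 480) (nat_lit 0) <|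
  L.cons (nat_lit 1107296288) (nat_lit 0) (nat_lit 510) <| L.cons (nat_lit 1074823168) (nat_lit 0) (nat_lit 30) <| L.cons (nat_lit 1074791424) (nat_lit 90) (nat_lit 0) <| L.cons (nat_lit 1074790432) (nat_lit 0) (nat_lit 60) <| L.cons (nat_lit 1073807361) (nat_lit 30) (nat_lit 0) <|
  L.cons (nat_lit 1073807360) (nat_lit 0) (nat_lit 30) <| L.cons (nat_lit 1073775616) (nat_lit 90) (nat_lit 0) <| L.cons (nat_lit 1073774624) (nat_lit 0) (nat_lit 90) <| L.cons (nat_lit 1073741825) (nat_lit 0) (nat_lit 64) <| L.cons (nat_lit 1073741824) (nat_lit 64) (nat_lit 0) <|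
  L.cons (nat_lit 1115136) (nat_lit 15) (nat_lit 0) <| L.cons (nat_lit 1049600) (nat_lit 32) (nat_lit 0) <|
  L.nil

/-- data -/
def f12 : L :=
  L.cons (nat_lit 1125900980584449) (nat_lit 0) (nat_lit 270) <| L.cons (nat_lit 1125900980584448) (nat_lit 0) (nat_lit 180) <| L.cons (nat_lit 1125899907892224) (nat_lit 0) (nat_lit 90) <| L.cons (nat_lit 35185479385089) (nat_lit 180) (nat_lit 0) <| L.cons (nat_lit 35185479385088) (nat_lit 180) (nat_lit 0) <|
  L.cons (nat_lit 35185446879232) (nat_lit 0) (nat_lit 90) <| L.cons (nat_lit 35185445863425) (nat_lit 360) (nat_lit 0) <| L.cons (nat_lit 35185445863424) (nat_lit 360) (nat_lit 0) <| L.cons (nat_lit 35185445831680) (nat_lit 90) (nat_lit 0) <| L.cons (nat_lit 35185445830688) (nat_lit 630) (nat_lit 0) <|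
  L.cons (nat_lit 35184373171200) (nat_lit 90) (nat_lit 0) <| L.cons (nat_lit 1101659111425) (nat_lit 0) (nat_lit 360) <| L.cons (nat_lit 1101659111424) (nat_lit 0) (nat_lit 90) <| L.cons (nat_lit 1100586419200) (nat_lit 0) (nat_lit 270) <| L.cons (nat_lit 1100586418208) (nat_lit 90) (nat_lit 0) <|
  L.cons (nat_lit 1100585403392) (nat_lit 0) (nat_lit 90) <| L.cons (nat_lit 1100585402400) (nat_lit 180) (nat_lit 0) <| L.cons (nat_lit 69793218561) (nat_lit 180) (nat_lit 0) <| L.cons (nat_lit 69793218560) (nat_lit 225) (nat_lit 0) <| L.cons (nat_lit 68720526336) (nat_lit 45) (nat_lit 0) <|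
  L.cons (nat_lit 36507222017) (nat_lit 945) (nat_lit 0) <| L.cons (nat_lit 36507222016) (nat_lit 405) (nat_lit 0) <| L.cons (nat_lit 35467067393) (nat_lit 0) (nat_lit 270) <| L.cons (nat_lit 35467067392) (nat_lit 0) (nat_lit 540) <| L.cons (nat_lit 35467035648) (nat_lit 0) (nat_lit 90) <|
  L.cons (nat_lit 35467034656) (nat_lit 0) (nat_lit 360) <| L.cons (nat_lit 35434561536) (nat_lit 90) (nat_lit 0) <| L.cons (nat_lit 35434529792) (nat_lit 540) (nat_lit 0) <| L.cons (nat_lit 35434528800) (nat_lit 0) (nat_lit 90) <| L.cons (nat_lit 35433545729) (nat_lit 0) (nat_lit 225) <|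
  L.cons (nat_lit 35433545728) (nat_lit 0) (nat_lit 315) <| L.cons (nat_lit 35433512992) (nat_lit 0) (nat_lit 1080) <| L.cons (nat_lit 35433480193) (nat_lit 0) (nat_lit 30) <| L.cons (nat_lit 35433480192) (nat_lit 30) (nat_lit 0) <| L.cons (nat_lit 34360853504) (nat_lit 0) (nat_lit 45) <|
  L.cons (nat_lit 34360787968) (nat_lit 0) (nat_lit 30) <| L.cons (nat_lit 2214592513) (nat_lit 810) (nat_lit 0) <| L.cons (nat_lit 2214592512) (nat_lit 225) (nat_lit 0) <| L.cons (nat_lit 2182086657) (nat_lit 0) (nat_lit 90) <| L.cons (nat_lit 2182086656) (nat_lit 90) (nat_lit 0) <|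
  L.cons (nat_lit 2181070849) (nat_lit 0) (nat_lit 1260) <| L.cons (nat_lit 2181070848) (nat_lit 0) (nat_lit 450) <| L.cons (nat_lit 2181039104) (nat_lit 0) (nat_lit 90) <| L.cons (nat_lit 2181038112) (nat_lit 0) (nat_lit 225) <| L.cons (nat_lit 2147483649) (nat_lit 90) (nat_lit 0) <|
  L.cons (nat_lit 1141900288) (nat_lit 585) (nat_lit 0) <| L.cons (nat_lit 1141899296) (nat_lit 0) (nat_lit 180) <| L.cons (nat_lit 1140884480) (nat_lit 270) (nat_lit 0) <| L.cons (nat_lit 1140883488) (nat_lit 0) (nat_lit 540) <| L.cons (nat_lit 1109394432) (nat_lit 0) (nat_lit 90) <|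
  f12_1

/-- data -/
def f13 : L :=
  L.cons (nat_lit 1125899906875392) (nat_lit 0) (nat_lit 120) <| L.cons (nat_lit 1125899906842656) (nat_lit 0) (nat_lit 120) <| L.cons (nat_lit 35218731827201) (nat_lit 0) (nat_lit 60) <| L.cons (nat_lit 35185445830657) (nat_lit 0) (nat_lit 60) <| L.cons (nat_lit 35185445830656) (nat_lit 0) (nat_lit 60) <|
  L.cons (nat_lit 35184405644288) (nat_lit 0) (nat_lit 60) <| L.cons (nat_lit 35184372154369) (nat_lit 60) (nat_lit 0) <| L.cons (nat_lit 35184372154368) (nat_lit 60) (nat_lit 0) <| L.cons (nat_lit 35184372122624) (nat_lit 120) (nat_lit 0) <| L.cons (nat_lit 35184372121632) (nat_lit 120) (nat_lit 0) <|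
  L.cons (nat_lit 35184372088833) (nat_lit 0) (nat_lit 50) <| L.cons (nat_lit 35184372088832) (nat_lit 150) (nat_lit 0) <| L.cons (nat_lit 34359771137) (nat_lit 0) (nat_lit 75) <| L.cons (nat_lit 34359739392) (nat_lit 0) (nat_lit 150) <| L.cons (nat_lit 34359738400) (nat_lit 75) (nat_lit 0) <|
  L.cons (nat_lit 1107296256) (nat_lit 0) (nat_lit 75) <| L.cons (nat_lit 1073774593) (nat_lit 45) (nat_lit 0) <| L.cons (nat_lit 1073774592) (nat_lit 0) (nat_lit 45) <| L.cons (nat_lit 1073742848) (nat_lit 45) (nat_lit 0) <| L.cons (nat_lit 1073741856) (nat_lit 0) (nat_lit 45) <|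
  L.cons (nat_lit 33588224) (nat_lit 75) (nat_lit 0) <| L.cons (nat_lit 98305) (nat_lit 45) (nat_lit 0) <| L.cons (nat_lit 98304) (nat_lit 0) (nat_lit 45) <| L.cons (nat_lit 66560) (nat_lit 45) (nat_lit 0) <| L.cons (nat_lit 65568) (nat_lit 0) (nat_lit 45) <|
  L.cons (nat_lit 32769) (nat_lit 30) (nat_lit 0) <| L.cons (nat_lit 32768) (nat_lit 0) (nat_lit 54) <| L.cons (nat_lit 1024) (nat_lit 0) (nat_lit 30) <| L.cons (nat_lit 32) (nat_lit 6) (nat_lit 0) <|
  L.nil

/-- data -/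
def f14 : L :=
  L.cons (nat_lit 36028797018963968) (nat_lit 120) (nat_lit 0) <| L.cons (nat_lit 1125899906875393) (nat_lit 0) (nat_lit 120) <| L.cons (nat_lit 1125899906875392) (nat_lit 0) (nat_lit 240) <| L.cons (nat_lit 1125899906843648) (nat_lit 0) (nat_lit 120) <| L.cons (nat_lit 1125899906842656) (nat_lit 0) (nat_lit 240) <|
  L.cons (nat_lit 35218731827201) (nat_lit 0) (nat_lit 180) <| L.cons (nat_lit 35218731827200) (nat_lit 0) (nat_lit 60) <| L.cons (nat_lit 35185445830657) (nat_lit 0) (nat_lit 240) <| L.cons (nat_lit 35185445830656) (nat_lit 0) (nat_lit 240) <| L.cons (nat_lit 35184405644288) (nat_lit 0) (nat_lit 120) <|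
  L.cons (nat_lit 35184405643296) (nat_lit 0) (nat_lit 60) <| L.cons (nat_lit 35184373138432) (nat_lit 0) (nat_lit 60) <| L.cons (nat_lit 35184372154369) (nat_lit 240) (nat_lit 0) <| L.cons (nat_lit 35184372154368) (nat_lit 120) (nat_lit 0) <| L.cons (nat_lit 35184372122624) (nat_lit 360) (nat_lit 0) <|
  L.cons (nat_lit 35184372121632) (nat_lit 360) (nat_lit 0) <| L.cons (nat_lit 35184372088832) (nat_lit 100) (nat_lit 0) <| L.cons (nat_lit 1133871367168) (nat_lit 0) (nat_lit 60) <| L.cons (nat_lit 1100585402368) (nat_lit 0) (nat_lit 120) <| L.cons (nat_lit 1100585370624) (nat_lit 60) (nat_lit 0) <|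
  L.cons (nat_lit 1100585369632) (nat_lit 0) (nat_lit 120) <| L.cons (nat_lit 1099511694336) (nat_lit 60) (nat_lit 0) <| L.cons (nat_lit 1099511628800) (nat_lit 0) (nat_lit 50) <| L.cons (nat_lit 34359771137) (nat_lit 0) (nat_lit 225) <| L.cons (nat_lit 34359771136) (nat_lit 75) (nat_lit 0) <|
  L.cons (nat_lit 34359739392) (nat_lit 0) (nat_lit 150) <| L.cons (nat_lit 1107296257) (nat_lit 0) (nat_lit 75) <| L.cons (nat_lit 1074790400) (nat_lit 0) (nat_lit 15) <| L.cons (nat_lit 1073774593) (nat_lit 90) (nat_lit 0) <| L.cons (nat_lit 1073774592) (nat_lit 0) (nat_lit 90) <|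
  L.cons (nat_lit 1073742848) (nat_lit 45) (nat_lit 0) <| L.cons (nat_lit 1073741856) (nat_lit 0) (nat_lit 45) <| L.cons (nat_lit 33587232) (nat_lit 75) (nat_lit 0) <| L.cons (nat_lit 1082368) (nat_lit 45) (nat_lit 0) <| L.cons (nat_lit 98305) (nat_lit 90) (nat_lit 0) <|
  L.cons (nat_lit 98304) (nat_lit 0) (nat_lit 60) <| L.cons (nat_lit 66560) (nat_lit 135) (nat_lit 0) <| L.cons (nat_lit 65568) (nat_lit 0) (nat_lit 45) <| L.cons (nat_lit 32769) (nat_lit 36) (nat_lit 0) <| L.cons (nat_lit 32768) (nat_lit 0) (nat_lit 48) <|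
  L.cons (nat_lit 1024) (nat_lit 6) (nat_lit 0) <| L.cons (nat_lit 32) (nat_lit 0) (nat_lit 18) <|
  L.nil

/-- data -/
def f15 : L :=
  L.cons (nat_lit 36028797018964000) (nat_lit 120) (nat_lit 0) <| L.cons (nat_lit 1125900980584449) (nat_lit 120) (nat_lit 0) <| L.cons (nat_lit 1125900980584448) (nat_lit 120) (nat_lit 0) <| L.cons (nat_lit 1125899906876416) (nat_lit 0) (nat_lit 120) <| L.cons (nat_lit 1125899906875424) (nat_lit 0) (nat_lit 120) <|
  L.cons (nat_lit 35218731828224) (nat_lit 0) (nat_lit 60) <| L.cons (nat_lit 35218731827232) (nat_lit 0) (nat_lit 60) <| L.cons (nat_lit 35185479385088) (nat_lit 60) (nat_lit 0) <| L.cons (nat_lit 35185445863425) (nat_lit 0) (nat_lit 120) <| L.cons (nat_lit 35185445863424) (nat_lit 0) (nat_lit 240) <|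
  L.cons (nat_lit 35185445830688) (nat_lit 0) (nat_lit 180) <| L.cons (nat_lit 35184372155392) (nat_lit 120) (nat_lit 0) <| L.cons (nat_lit 35184372154400) (nat_lit 60) (nat_lit 0) <| L.cons (nat_lit 35184372089856) (nat_lit 100) (nat_lit 0) <| L.cons (nat_lit 35184372088864) (nat_lit 0) (nat_lit 50) <|
  L.cons (nat_lit 1101659111425) (nat_lit 120) (nat_lit 0) <| L.cons (nat_lit 1100618925056) (nat_lit 0) (nat_lit 60) <| L.cons (nat_lit 1100586419200) (nat_lit 120) (nat_lit 0) <| L.cons (nat_lit 1100586418208) (nat_lit 0) (nat_lit 60) <| L.cons (nat_lit 1100585403392) (nat_lit 120) (nat_lit 0) <|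
  L.cons (nat_lit 1100585402400) (nat_lit 0) (nat_lit 120) <| L.cons (nat_lit 35433480193) (nat_lit 0) (nat_lit 75) <| L.cons (nat_lit 35433480192) (nat_lit 75) (nat_lit 0) <| L.cons (nat_lit 34359772160) (nat_lit 0) (nat_lit 75) <| L.cons (nat_lit 34359771168) (nat_lit 75) (nat_lit 0) <|
  L.cons (nat_lit 2147483649) (nat_lit 45) (nat_lit 0) <| L.cons (nat_lit 1107329024) (nat_lit 0) (nat_lit 75) <| L.cons (nat_lit 1107297280) (nat_lit 0) (nat_lit 150) <| L.cons (nat_lit 1107296288) (nat_lit 75) (nat_lit 0) <| L.cons (nat_lit 1074791424) (nat_lit 45) (nat_lit 0) <|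
  L.cons (nat_lit 1074790432) (nat_lit 0) (nat_lit 15) <| L.cons (nat_lit 1073807361) (nat_lit 45) (nat_lit 0) <| L.cons (nat_lit 1073775616) (nat_lit 90) (nat_lit 0) <| L.cons (nat_lit 1073774624) (nat_lit 0) (nat_lit 45) <| L.cons (nat_lit 1073741825) (nat_lit 0) (nat_lit 6) <|
  L.cons (nat_lit 1073741824) (nat_lit 24) (nat_lit 0) <| L.cons (nat_lit 98336) (nat_lit 0) (nat_lit 15) <| L.cons (nat_lit 33792) (nat_lit 0) (nat_lit 24) <| L.cons (nat_lit 32800) (nat_lit 6) (nat_lit 0) <|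
  L.nil

/-- data -/
def f16_1 : L :=
  L.cons (nat_lit 99328) (nat_lit 45) (nat_lit 0) <| L.cons (nat_lit 98336) (nat_lit 0) (nat_lit 15) <| L.cons (nat_lit 33792) (nat_lit 6) (nat_lit 0) <| L.cons (nat_lit 32800) (nat_lit 0) (nat_lit 18) <|
  L.nil

/-- data -/
def f16 : L :=
  L.cons (nat_lit 36028797018964000) (nat_lit 120) (nat_lit 0) <| L.cons (nat_lit 1125900980584449) (nat_lit 360) (nat_lit 0) <| L.cons (nat_lit 1125900980584448) (nat_lit 240) (nat_lit 0) <| L.cons (nat_lit 1125899907892224) (nat_lit 120) (nat_lit 0) <| L.cons (nat_lit 1125899906876416) (nat_lit 0) (nat_lit 120) <|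
  L.cons (nat_lit 1125899906875424) (nat_lit 0) (nat_lit 240) <| L.cons (nat_lit 35218731828224) (nat_lit 0) (nat_lit 120) <| L.cons (nat_lit 35218731827232) (nat_lit 0) (nat_lit 120) <| L.cons (nat_lit 35185479385089) (nat_lit 60) (nat_lit 0) <| L.cons (nat_lit 35185479385088) (nat_lit 120) (nat_lit 0) <|
  L.cons (nat_lit 35185446879232) (nat_lit 60) (nat_lit 0) <| L.cons (nat_lit 35185445863425) (nat_lit 0) (nat_lit 480) <| L.cons (nat_lit 35185445863424) (nat_lit 0) (nat_lit 480) <| L.cons (nat_lit 35185445831680) (nat_lit 0) (nat_lit 60) <| L.cons (nat_lit 35185445830688) (nat_lit 0) (nat_lit 420) <|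
  L.cons (nat_lit 35184373171200) (nat_lit 0) (nat_lit 120) <| L.cons (nat_lit 35184372155392) (nat_lit 180) (nat_lit 0) <| L.cons (nat_lit 35184372154400) (nat_lit 180) (nat_lit 0) <| L.cons (nat_lit 35184372089856) (nat_lit 50) (nat_lit 0) <| L.cons (nat_lit 35184372088864) (nat_lit 50) (nat_lit 0) <|
  L.cons (nat_lit 1134945107968) (nat_lit 60) (nat_lit 0) <| L.cons (nat_lit 1101659111425) (nat_lit 240) (nat_lit 0) <| L.cons (nat_lit 1101659111424) (nat_lit 60) (nat_lit 0) <| L.cons (nat_lit 1100618925056) (nat_lit 0) (nat_lit 60) <| L.cons (nat_lit 1100618924064) (nat_lit 60) (nat_lit 0) <|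
  L.cons (nat_lit 1100586419200) (nat_lit 180) (nat_lit 0) <| L.cons (nat_lit 1100586418208) (nat_lit 0) (nat_lit 60) <| L.cons (nat_lit 1100585435136) (nat_lit 0) (nat_lit 60) <| L.cons (nat_lit 1100585403392) (nat_lit 120) (nat_lit 0) <| L.cons (nat_lit 1100585402400) (nat_lit 0) (nat_lit 240) <|
  L.cons (nat_lit 1100585369600) (nat_lit 50) (nat_lit 0) <| L.cons (nat_lit 35433480193) (nat_lit 0) (nat_lit 75) <| L.cons (nat_lit 35433480192) (nat_lit 75) (nat_lit 0) <| L.cons (nat_lit 34360787968) (nat_lit 0) (nat_lit 75) <| L.cons (nat_lit 34359772160) (nat_lit 0) (nat_lit 150) <|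
  L.cons (nat_lit 2147483649) (nat_lit 90) (nat_lit 0) <| L.cons (nat_lit 1107329025) (nat_lit 0) (nat_lit 75) <| L.cons (nat_lit 1107297280) (nat_lit 0) (nat_lit 150) <| L.cons (nat_lit 1107296288) (nat_lit 75) (nat_lit 0) <| L.cons (nat_lit 1074823168) (nat_lit 0) (nat_lit 45) <|
  L.cons (nat_lit 1074791424) (nat_lit 90) (nat_lit 0) <| L.cons (nat_lit 1074790432) (nat_lit 0) (nat_lit 60) <| L.cons (nat_lit 1073807361) (nat_lit 90) (nat_lit 0) <| L.cons (nat_lit 1073807360) (nat_lit 0) (nat_lit 90) <| L.cons (nat_lit 1073775616) (nat_lit 135) (nat_lit 0) <|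
  L.cons (nat_lit 1073774624) (nat_lit 0) (nat_lit 135) <| L.cons (nat_lit 1073741825) (nat_lit 12) (nat_lit 0) <| L.cons (nat_lit 1073741824) (nat_lit 0) (nat_lit 12) <| L.cons (nat_lit 1115136) (nat_lit 45) (nat_lit 0) <| L.cons (nat_lit 1049600) (nat_lit 0) (nat_lit 6) <|
  f16_1

/-- data -/
def f17_1 : L :=
  L.cons (nat_lit 1100585402368) (nat_lit 0) (nat_lit 120) <| L.cons (nat_lit 1100585370624) (nat_lit 310) (nat_lit 0) <| L.cons (nat_lit 1100585369632) (nat_lit 0) (nat_lit 260) <| L.cons (nat_lit 35434528768) (nat_lit 75) (nat_lit 0) <| L.cons (nat_lit 35433512961) (nat_lit 0) (nat_lit 75) <|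
  L.cons (nat_lit 35433512960) (nat_lit 75) (nat_lit 0) <| L.cons (nat_lit 34360820736) (nat_lit 0) (nat_lit 75) <| L.cons (nat_lit 2181038081) (nat_lit 0) (nat_lit 225) <| L.cons (nat_lit 2148532225) (nat_lit 120) (nat_lit 0) <| L.cons (nat_lit 2148532224) (nat_lit 0) (nat_lit 30) <|
  L.cons (nat_lit 2147516417) (nat_lit 270) (nat_lit 0) <| L.cons (nat_lit 2147484672) (nat_lit 45) (nat_lit 0) <| L.cons (nat_lit 2147483680) (nat_lit 45) (nat_lit 0) <| L.cons (nat_lit 1108345856) (nat_lit 0) (nat_lit 225) <| L.cons (nat_lit 1108344864) (nat_lit 75) (nat_lit 0) <|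
  L.cons (nat_lit 1107330048) (nat_lit 0) (nat_lit 150) <| L.cons (nat_lit 1107329056) (nat_lit 75) (nat_lit 0) <| L.cons (nat_lit 1075840000) (nat_lit 105) (nat_lit 0) <| L.cons (nat_lit 1075839008) (nat_lit 0) (nat_lit 45) <| L.cons (nat_lit 1074855936) (nat_lit 0) (nat_lit 45) <|
  L.cons (nat_lit 1074824192) (nat_lit 270) (nat_lit 0) <| L.cons (nat_lit 1074823200) (nat_lit 0) (nat_lit 180) <| L.cons (nat_lit 1074790400) (nat_lit 6) (nat_lit 0) <| L.cons (nat_lit 1073840129) (nat_lit 30) (nat_lit 0) <| L.cons (nat_lit 1073840128) (nat_lit 0) (nat_lit 30) <|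
  L.cons (nat_lit 1073808384) (nat_lit 135) (nat_lit 0) <| L.cons (nat_lit 1073807392) (nat_lit 0) (nat_lit 135) <| L.cons (nat_lit 1073774593) (nat_lit 12) (nat_lit 0) <| L.cons (nat_lit 1073774592) (nat_lit 0) (nat_lit 12) <| L.cons (nat_lit 1073742848) (nat_lit 54) (nat_lit 0) <|
  L.cons (nat_lit 1073741856) (nat_lit 0) (nat_lit 54) <| L.cons (nat_lit 1147904) (nat_lit 15) (nat_lit 0) <| L.cons (nat_lit 1082368) (nat_lit 0) (nat_lit 6) <|
  L.nil

/-- data -/
def f17 : L :=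
  L.cons (nat_lit 36028798092705793) (nat_lit 0) (nat_lit 240) <| L.cons (nat_lit 36028798092705792) (nat_lit 0) (nat_lit 120) <| L.cons (nat_lit 36028797020013568) (nat_lit 0) (nat_lit 120) <| L.cons (nat_lit 1125900981633024) (nat_lit 0) (nat_lit 120) <| L.cons (nat_lit 1125900980617217) (nat_lit 360) (nat_lit 0) <|
  L.cons (nat_lit 1125900980617216) (nat_lit 240) (nat_lit 0) <| L.cons (nat_lit 1125900980585472) (nat_lit 120) (nat_lit 0) <| L.cons (nat_lit 1125900980584480) (nat_lit 480) (nat_lit 0) <| L.cons (nat_lit 1125899907924992) (nat_lit 120) (nat_lit 0) <| L.cons (nat_lit 36284957458433) (nat_lit 120) (nat_lit 0) <|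
  L.cons (nat_lit 36284957458432) (nat_lit 120) (nat_lit 0) <| L.cons (nat_lit 35219805569025) (nat_lit 180) (nat_lit 0) <| L.cons (nat_lit 35219805569024) (nat_lit 180) (nat_lit 0) <| L.cons (nat_lit 35218732876800) (nat_lit 60) (nat_lit 0) <| L.cons (nat_lit 35186519572481) (nat_lit 720) (nat_lit 0) <|
  L.cons (nat_lit 35186519572480) (nat_lit 360) (nat_lit 0) <| L.cons (nat_lit 35185479385120) (nat_lit 180) (nat_lit 0) <| L.cons (nat_lit 35185446912000) (nat_lit 120) (nat_lit 0) <| L.cons (nat_lit 35185446880256) (nat_lit 360) (nat_lit 0) <| L.cons (nat_lit 35185445896193) (nat_lit 0) (nat_lit 240) <|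
  L.cons (nat_lit 35185445896192) (nat_lit 0) (nat_lit 240) <| L.cons (nat_lit 35185445864448) (nat_lit 0) (nat_lit 120) <| L.cons (nat_lit 35185445863456) (nat_lit 0) (nat_lit 840) <| L.cons (nat_lit 35184373203968) (nat_lit 0) (nat_lit 60) <| L.cons (nat_lit 35184373138432) (nat_lit 50) (nat_lit 0) <|
  L.cons (nat_lit 1134945140737) (nat_lit 0) (nat_lit 180) <| L.cons (nat_lit 1134945140736) (nat_lit 0) (nat_lit 360) <| L.cons (nat_lit 1134945108992) (nat_lit 0) (nat_lit 60) <| L.cons (nat_lit 1134945108000) (nat_lit 0) (nat_lit 420) <| L.cons (nat_lit 1101692665857) (nat_lit 600) (nat_lit 0) <|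
  L.cons (nat_lit 1101692665856) (nat_lit 180) (nat_lit 0) <| L.cons (nat_lit 1101660160001) (nat_lit 0) (nat_lit 120) <| L.cons (nat_lit 1101660160000) (nat_lit 120) (nat_lit 0) <| L.cons (nat_lit 1101659144193) (nat_lit 0) (nat_lit 1140) <| L.cons (nat_lit 1101659144192) (nat_lit 0) (nat_lit 420) <|
  L.cons (nat_lit 1101659112448) (nat_lit 0) (nat_lit 120) <| L.cons (nat_lit 1101659111456) (nat_lit 0) (nat_lit 300) <| L.cons (nat_lit 1100619973632) (nat_lit 420) (nat_lit 0) <| L.cons (nat_lit 1100619972640) (nat_lit 0) (nat_lit 120) <| L.cons (nat_lit 1100618957824) (nat_lit 180) (nat_lit 0) <|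
  L.cons (nat_lit 1100618956832) (nat_lit 0) (nat_lit 360) <| L.cons (nat_lit 1100587467776) (nat_lit 0) (nat_lit 120) <| L.cons (nat_lit 1100587466784) (nat_lit 60) (nat_lit 0) <| L.cons (nat_lit 1100586451968) (nat_lit 0) (nat_lit 720) <| L.cons (nat_lit 1100586450976) (nat_lit 240) (nat_lit 0) <|
  L.cons (nat_lit 1100585467905) (nat_lit 60) (nat_lit 0) <| L.cons (nat_lit 1100585467904) (nat_lit 180) (nat_lit 0) <| L.cons (nat_lit 1100585436160) (nat_lit 0) (nat_lit 120) <| L.cons (nat_lit 1100585435168) (nat_lit 780) (nat_lit 0) <| L.cons (nat_lit 1100585402369) (nat_lit 120) (nat_lit 0) <|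
  f17_1

/-- data -/
def f18 : L :=
  L.cons (nat_lit 36028797018996736) (nat_lit 0) (nat_lit 180) <| L.cons (nat_lit 36028797018964000) (nat_lit 0) (nat_lit 180) <| L.cons (nat_lit 1125934266580993) (nat_lit 0) (nat_lit 90) <| L.cons (nat_lit 1125934266580992) (nat_lit 0) (nat_lit 90) <| L.cons (nat_lit 1125900980584449) (nat_lit 0) (nat_lit 270) <|
  L.cons (nat_lit 1125900980584448) (nat_lit 0) (nat_lit 180) <| L.cons (nat_lit 1125899940398080) (nat_lit 0) (nat_lit 90) <| L.cons (nat_lit 1125899940397088) (nat_lit 0) (nat_lit 90) <| L.cons (nat_lit 1125899907892224) (nat_lit 0) (nat_lit 90) <| L.cons (nat_lit 1125899906908161) (nat_lit 90) (nat_lit 0) <|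
  L.cons (nat_lit 1125899906908160) (nat_lit 180) (nat_lit 0) <| L.cons (nat_lit 1125899906876416) (nat_lit 180) (nat_lit 0) <| L.cons (nat_lit 1125899906875424) (nat_lit 360) (nat_lit 0) <| L.cons (nat_lit 1125899906842625) (nat_lit 0) (nat_lit 150) <| L.cons (nat_lit 1125899906842624) (nat_lit 300) (nat_lit 0) <|
  L.cons (nat_lit 35184372121600) (nat_lit 0) (nat_lit 300) <| L.cons (nat_lit 35184372089856) (nat_lit 0) (nat_lit 150) <| L.cons (nat_lit 35184372088864) (nat_lit 0) (nat_lit 150) <| L.cons (nat_lit 1100585369600) (nat_lit 0) (nat_lit 150) <| L.cons (nat_lit 1099511661568) (nat_lit 150) (nat_lit 0) <|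
  L.cons (nat_lit 68719476737) (nat_lit 0) (nat_lit 90) <| L.cons (nat_lit 68719476736) (nat_lit 45) (nat_lit 0) <| L.cons (nat_lit 35433480193) (nat_lit 45) (nat_lit 0) <| L.cons (nat_lit 35433480192) (nat_lit 0) (nat_lit 45) <| L.cons (nat_lit 34393293824) (nat_lit 0) (nat_lit 90) <|
  L.cons (nat_lit 34393292832) (nat_lit 90) (nat_lit 0) <| L.cons (nat_lit 34360787968) (nat_lit 45) (nat_lit 0) <| L.cons (nat_lit 34359803905) (nat_lit 135) (nat_lit 0) <| L.cons (nat_lit 34359803904) (nat_lit 0) (nat_lit 45) <| L.cons (nat_lit 34359772160) (nat_lit 180) (nat_lit 0) <|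
  L.cons (nat_lit 34359738369) (nat_lit 42) (nat_lit 0) <| L.cons (nat_lit 34359738368) (nat_lit 42) (nat_lit 0) <| L.cons (nat_lit 1140850688) (nat_lit 0) (nat_lit 45) <| L.cons (nat_lit 1107329025) (nat_lit 90) (nat_lit 0) <| L.cons (nat_lit 1107297280) (nat_lit 90) (nat_lit 0) <|
  L.cons (nat_lit 1107296288) (nat_lit 0) (nat_lit 45) <| L.cons (nat_lit 1073741825) (nat_lit 0) (nat_lit 54) <| L.cons (nat_lit 1073741824) (nat_lit 54) (nat_lit 0) <| L.cons (nat_lit 33620000) (nat_lit 0) (nat_lit 45) <| L.cons (nat_lit 33555456) (nat_lit 0) (nat_lit 168) <|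
  L.cons (nat_lit 33554464) (nat_lit 42) (nat_lit 0) <| L.cons (nat_lit 1049600) (nat_lit 27) (nat_lit 0) <| L.cons (nat_lit 65537) (nat_lit 0) (nat_lit 162) <| L.cons (nat_lit 65536) (nat_lit 216) (nat_lit 0) <| L.cons (nat_lit 33792) (nat_lit 0) (nat_lit 54) <|
  L.cons (nat_lit 32800) (nat_lit 162) (nat_lit 0) <| L.cons (nat_lit 1) (nat_lit 320) (nat_lit 0) <| L.cons (nat_lit 0) (nat_lit 0) (nat_lit 640) <|
  L.nil

/-- data -/
def f19_1 : L :=
  L.cons (nat_lit 66560) (nat_lit 0) (nat_lit 27) <| L.cons (nat_lit 65568) (nat_lit 81) (nat_lit 0) <| L.cons (nat_lit 1024) (nat_lit 0) (nat_lit 480) <| L.cons (nat_lit 32) (nat_lit 160) (nat_lit 0) <|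
  L.nil

/-- data -/
def f19 : L :=
  L.cons (nat_lit 36028798092705793) (nat_lit 360) (nat_lit 0) <| L.cons (nat_lit 36028798092705792) (nat_lit 180) (nat_lit 0) <| L.cons (nat_lit 36028797020013568) (nat_lit 180) (nat_lit 0) <| L.cons (nat_lit 36028797018996768) (nat_lit 0) (nat_lit 180) <| L.cons (nat_lit 1125934266582016) (nat_lit 0) (nat_lit 90) <|
  L.cons (nat_lit 1125934266581024) (nat_lit 0) (nat_lit 90) <| L.cons (nat_lit 1125901014138881) (nat_lit 90) (nat_lit 0) <| L.cons (nat_lit 1125901014138880) (nat_lit 90) (nat_lit 0) <| L.cons (nat_lit 1125900981633024) (nat_lit 90) (nat_lit 0) <| L.cons (nat_lit 1125900980617217) (nat_lit 0) (nat_lit 540) <|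
  L.cons (nat_lit 1125900980617216) (nat_lit 0) (nat_lit 360) <| L.cons (nat_lit 1125900980585472) (nat_lit 0) (nat_lit 90) <| L.cons (nat_lit 1125900980584480) (nat_lit 0) (nat_lit 360) <| L.cons (nat_lit 1125899907924992) (nat_lit 0) (nat_lit 180) <| L.cons (nat_lit 1125899906909184) (nat_lit 90) (nat_lit 0) <|
  L.cons (nat_lit 1125899906908192) (nat_lit 180) (nat_lit 0) <| L.cons (nat_lit 1125899906843648) (nat_lit 0) (nat_lit 150) <| L.cons (nat_lit 1125899906842656) (nat_lit 300) (nat_lit 0) <| L.cons (nat_lit 35184373138432) (nat_lit 0) (nat_lit 150) <| L.cons (nat_lit 35184372122624) (nat_lit 0) (nat_lit 150) <|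
  L.cons (nat_lit 35184372121632) (nat_lit 0) (nat_lit 150) <| L.cons (nat_lit 1100585402368) (nat_lit 0) (nat_lit 150) <| L.cons (nat_lit 1100585370624) (nat_lit 150) (nat_lit 0) <| L.cons (nat_lit 1100585369632) (nat_lit 0) (nat_lit 300) <| L.cons (nat_lit 68719476768) (nat_lit 0) (nat_lit 45) <|
  L.cons (nat_lit 35467034625) (nat_lit 0) (nat_lit 90) <| L.cons (nat_lit 35467034624) (nat_lit 90) (nat_lit 0) <| L.cons (nat_lit 35434528768) (nat_lit 0) (nat_lit 45) <| L.cons (nat_lit 35433512961) (nat_lit 90) (nat_lit 0) <| L.cons (nat_lit 35433512960) (nat_lit 0) (nat_lit 90) <|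
  L.cons (nat_lit 34360820736) (nat_lit 90) (nat_lit 0) <| L.cons (nat_lit 34359804928) (nat_lit 90) (nat_lit 0) <| L.cons (nat_lit 34359739392) (nat_lit 252) (nat_lit 0) <| L.cons (nat_lit 34359738400) (nat_lit 0) (nat_lit 168) <| L.cons (nat_lit 2181038081) (nat_lit 135) (nat_lit 0) <|
  L.cons (nat_lit 1140851712) (nat_lit 0) (nat_lit 90) <| L.cons (nat_lit 1140850720) (nat_lit 45) (nat_lit 0) <| L.cons (nat_lit 1108345856) (nat_lit 135) (nat_lit 0) <| L.cons (nat_lit 1108344864) (nat_lit 0) (nat_lit 45) <| L.cons (nat_lit 1107361793) (nat_lit 45) (nat_lit 0) <|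
  L.cons (nat_lit 1107330048) (nat_lit 180) (nat_lit 0) <| L.cons (nat_lit 1107329056) (nat_lit 0) (nat_lit 90) <| L.cons (nat_lit 1107296257) (nat_lit 0) (nat_lit 42) <| L.cons (nat_lit 1107296256) (nat_lit 168) (nat_lit 0) <| L.cons (nat_lit 1074790400) (nat_lit 0) (nat_lit 27) <|
  L.cons (nat_lit 1073774593) (nat_lit 0) (nat_lit 108) <| L.cons (nat_lit 1073774592) (nat_lit 108) (nat_lit 0) <| L.cons (nat_lit 1073742848) (nat_lit 0) (nat_lit 243) <| L.cons (nat_lit 1073741856) (nat_lit 243) (nat_lit 0) <| L.cons (nat_lit 1082368) (nat_lit 54) (nat_lit 0) <|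
  f19_1

/-- data -/
def f20 : L :=
  L.cons (nat_lit 36028831378702336) (nat_lit 0) (nat_lit 144) <| L.cons (nat_lit 36028798092705793) (nat_lit 0) (nat_lit 288) <| L.cons (nat_lit 36028798092705792) (nat_lit 0) (nat_lit 144) <| L.cons (nat_lit 36028797052518432) (nat_lit 0) (nat_lit 144) <| L.cons (nat_lit 36028797020013568) (nat_lit 0) (nat_lit 144) <|
  L.cons (nat_lit 36028797019029504) (nat_lit 144) (nat_lit 0) <| L.cons (nat_lit 36028797018996768) (nat_lit 288) (nat_lit 0) <| L.cons (nat_lit 36028797018963968) (nat_lit 0) (nat_lit 384) <| L.cons (nat_lit 1125899906875393) (nat_lit 360) (nat_lit 0) <| L.cons (nat_lit 1125899906875392) (nat_lit 0) (nat_lit 720) <|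
  L.cons (nat_lit 1125899906843648) (nat_lit 360) (nat_lit 0) <| L.cons (nat_lit 1125899906842656) (nat_lit 0) (nat_lit 720) <| L.cons (nat_lit 35218731827201) (nat_lit 0) (nat_lit 120) <| L.cons (nat_lit 35218731827200) (nat_lit 120) (nat_lit 0) <| L.cons (nat_lit 35184405644288) (nat_lit 0) (nat_lit 240) <|
  L.cons (nat_lit 35184405643296) (nat_lit 120) (nat_lit 0) <| L.cons (nat_lit 35184373138432) (nat_lit 120) (nat_lit 0) <| L.cons (nat_lit 35184372154368) (nat_lit 240) (nat_lit 0) <| L.cons (nat_lit 35184372122624) (nat_lit 240) (nat_lit 0) <| L.cons (nat_lit 35184372121632) (nat_lit 240) (nat_lit 0) <|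
  L.cons (nat_lit 35184372088833) (nat_lit 0) (nat_lit 776) <| L.cons (nat_lit 35184372088832) (nat_lit 1940) (nat_lit 0) <| L.cons (nat_lit 1133871367168) (nat_lit 120) (nat_lit 0) <| L.cons (nat_lit 1100585402368) (nat_lit 240) (nat_lit 0) <| L.cons (nat_lit 1100585370624) (nat_lit 0) (nat_lit 120) <|
  L.cons (nat_lit 1100585369632) (nat_lit 240) (nat_lit 0) <| L.cons (nat_lit 1099511694336) (nat_lit 0) (nat_lit 120) <| L.cons (nat_lit 1099511628800) (nat_lit 194) (nat_lit 0) <| L.cons (nat_lit 34359771137) (nat_lit 0) (nat_lit 147) <| L.cons (nat_lit 34359771136) (nat_lit 0) (nat_lit 147) <|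
  L.cons (nat_lit 34359739392) (nat_lit 0) (nat_lit 882) <| L.cons (nat_lit 34359738400) (nat_lit 588) (nat_lit 0) <| L.cons (nat_lit 1107296257) (nat_lit 147) (nat_lit 0) <| L.cons (nat_lit 1107296256) (nat_lit 0) (nat_lit 588) <| L.cons (nat_lit 1074790400) (nat_lit 21) (nat_lit 0) <|
  L.cons (nat_lit 1073774593) (nat_lit 126) (nat_lit 0) <| L.cons (nat_lit 1073774592) (nat_lit 0) (nat_lit 126) <| L.cons (nat_lit 1073742848) (nat_lit 189) (nat_lit 0) <| L.cons (nat_lit 1073741856) (nat_lit 0) (nat_lit 189) <| L.cons (nat_lit 33588224) (nat_lit 588) (nat_lit 0) <|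
  L.cons (nat_lit 33587232) (nat_lit 0) (nat_lit 147) <| L.cons (nat_lit 1082368) (nat_lit 0) (nat_lit 63) <| L.cons (nat_lit 98305) (nat_lit 126) (nat_lit 0) <| L.cons (nat_lit 98304) (nat_lit 0) (nat_lit 168) <| L.cons (nat_lit 66560) (nat_lit 63) (nat_lit 0) <|
  L.cons (nat_lit 65568) (nat_lit 0) (nat_lit 189) <| L.cons (nat_lit 32769) (nat_lit 0) (nat_lit 92) <| L.cons (nat_lit 32768) (nat_lit 184) (nat_lit 0) <| L.cons (nat_lit 1024) (nat_lit 138) (nat_lit 0) <| L.cons (nat_lit 32) (nat_lit 0) (nat_lit 46) <|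
  L.nil

/-- data -/
def f21 : L :=
  L.cons (nat_lit 1099511628800) (nat_lit 0) (nat_lit 2) <| L.cons (nat_lit 1099511627808) (nat_lit 4) (nat_lit 0) <| L.cons (nat_lit 34359771137) (nat_lit 0) (nat_lit 3) <| L.cons (nat_lit 34359771136) (nat_lit 3) (nat_lit 0) <| L.cons (nat_lit 1107296257) (nat_lit 0) (nat_lit 9) <|
  L.cons (nat_lit 1074790401) (nat_lit 4) (nat_lit 0) <| L.cons (nat_lit 1074790400) (nat_lit 0) (nat_lit 3) <| L.cons (nat_lit 1073774593) (nat_lit 18) (nat_lit 0) <| L.cons (nat_lit 1073742848) (nat_lit 3) (nat_lit 0) <| L.cons (nat_lit 1073741856) (nat_lit 3) (nat_lit 0) <|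
  L.cons (nat_lit 34604032) (nat_lit 0) (nat_lit 6) <| L.cons (nat_lit 33588224) (nat_lit 0) (nat_lit 6) <| L.cons (nat_lit 33587232) (nat_lit 3) (nat_lit 0) <| L.cons (nat_lit 2098176) (nat_lit 4) (nat_lit 0) <| L.cons (nat_lit 2097184) (nat_lit 0) (nat_lit 2) <|
  L.cons (nat_lit 1082368) (nat_lit 15) (nat_lit 0) <| L.cons (nat_lit 1081376) (nat_lit 0) (nat_lit 6) <| L.cons (nat_lit 98305) (nat_lit 2) (nat_lit 0) <| L.cons (nat_lit 98304) (nat_lit 0) (nat_lit 2) <| L.cons (nat_lit 66560) (nat_lit 9) (nat_lit 0) <|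
  L.cons (nat_lit 65568) (nat_lit 0) (nat_lit 9) <| L.cons (nat_lit 32769) (nat_lit 0) (nat_lit 4) <| L.cons (nat_lit 32768) (nat_lit 4) (nat_lit 0) <| L.cons (nat_lit 1024) (nat_lit 0) (nat_lit 18) <| L.cons (nat_lit 32) (nat_lit 18) (nat_lit 0) <|
  L.nil

/-- data -/
def f22_1 : L :=
  L.cons (nat_lit 33554464) (nat_lit 510) (nat_lit 0) <| L.cons (nat_lit 1049600) (nat_lit 0) (nat_lit 75) <| L.cons (nat_lit 1048608) (nat_lit 30) (nat_lit 0) <| L.cons (nat_lit 65537) (nat_lit 0) (nat_lit 30) <| L.cons (nat_lit 65536) (nat_lit 30) (nat_lit 0) <|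
  L.cons (nat_lit 33792) (nat_lit 0) (nat_lit 90) <| L.cons (nat_lit 32800) (nat_lit 90) (nat_lit 0) <| L.cons (nat_lit 1) (nat_lit 64) (nat_lit 0) <| L.cons (nat_lit 0) (nat_lit 0) (nat_lit 64) <|
  L.nil

/-- data -/
def f22 : L :=
  L.cons (nat_lit 1125899906842625) (nat_lit 270) (nat_lit 0) <| L.cons (nat_lit 1125899906842624) (nat_lit 180) (nat_lit 0) <| L.cons (nat_lit 35184405643265) (nat_lit 0) (nat_lit 180) <| L.cons (nat_lit 35184405643264) (nat_lit 0) (nat_lit 180) <| L.cons (nat_lit 35184372121601) (nat_lit 0) (nat_lit 360) <|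
  L.cons (nat_lit 35184372121600) (nat_lit 0) (nat_lit 360) <| L.cons (nat_lit 35184372089856) (nat_lit 0) (nat_lit 90) <| L.cons (nat_lit 35184372088864) (nat_lit 0) (nat_lit 630) <| L.cons (nat_lit 1100585369601) (nat_lit 360) (nat_lit 0) <| L.cons (nat_lit 1100585369600) (nat_lit 90) (nat_lit 0) <|
  L.cons (nat_lit 1099512677376) (nat_lit 360) (nat_lit 0) <| L.cons (nat_lit 1099512676384) (nat_lit 0) (nat_lit 180) <| L.cons (nat_lit 1099511661568) (nat_lit 90) (nat_lit 0) <| L.cons (nat_lit 1099511660576) (nat_lit 0) (nat_lit 180) <| L.cons (nat_lit 68719476737) (nat_lit 0) (nat_lit 180) <|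
  L.cons (nat_lit 68719476736) (nat_lit 0) (nat_lit 225) <| L.cons (nat_lit 35433480193) (nat_lit 0) (nat_lit 945) <| L.cons (nat_lit 35433480192) (nat_lit 0) (nat_lit 405) <| L.cons (nat_lit 34393325569) (nat_lit 270) (nat_lit 0) <| L.cons (nat_lit 34393325568) (nat_lit 540) (nat_lit 0) <|
  L.cons (nat_lit 34393293824) (nat_lit 90) (nat_lit 0) <| L.cons (nat_lit 34393292832) (nat_lit 360) (nat_lit 0) <| L.cons (nat_lit 34360787968) (nat_lit 0) (nat_lit 585) <| L.cons (nat_lit 34360786976) (nat_lit 180) (nat_lit 0) <| L.cons (nat_lit 34359803905) (nat_lit 225) (nat_lit 0) <|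
  L.cons (nat_lit 34359803904) (nat_lit 315) (nat_lit 0) <| L.cons (nat_lit 34359771168) (nat_lit 1080) (nat_lit 0) <| L.cons (nat_lit 34359738369) (nat_lit 30) (nat_lit 0) <| L.cons (nat_lit 34359738368) (nat_lit 0) (nat_lit 30) <| L.cons (nat_lit 1140850689) (nat_lit 0) (nat_lit 810) <|
  L.cons (nat_lit 1140850688) (nat_lit 0) (nat_lit 225) <| L.cons (nat_lit 1108344832) (nat_lit 0) (nat_lit 90) <| L.cons (nat_lit 1107329025) (nat_lit 1260) (nat_lit 0) <| L.cons (nat_lit 1107329024) (nat_lit 450) (nat_lit 0) <| L.cons (nat_lit 1107297280) (nat_lit 90) (nat_lit 0) <|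
  L.cons (nat_lit 1107296288) (nat_lit 225) (nat_lit 0) <| L.cons (nat_lit 1073741825) (nat_lit 0) (nat_lit 90) <| L.cons (nat_lit 68158464) (nat_lit 0) (nat_lit 540) <| L.cons (nat_lit 68157472) (nat_lit 180) (nat_lit 0) <| L.cons (nat_lit 67142656) (nat_lit 0) (nat_lit 270) <|
  L.cons (nat_lit 67141664) (nat_lit 540) (nat_lit 0) <| L.cons (nat_lit 34636800) (nat_lit 720) (nat_lit 0) <| L.cons (nat_lit 34635808) (nat_lit 0) (nat_lit 180) <| L.cons (nat_lit 33652737) (nat_lit 0) (nat_lit 90) <| L.cons (nat_lit 33652736) (nat_lit 0) (nat_lit 270) <|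
  L.cons (nat_lit 33620992) (nat_lit 180) (nat_lit 0) <| L.cons (nat_lit 33620000) (nat_lit 0) (nat_lit 1035) <| L.cons (nat_lit 33587201) (nat_lit 0) (nat_lit 180) <| L.cons (nat_lit 33587200) (nat_lit 180) (nat_lit 0) <| L.cons (nat_lit 33555456) (nat_lit 0) (nat_lit 480) <|
  f22_1

/-- data -/
def f23_2 : L :=
  L.cons (nat_lit 33554433) (nat_lit 0) (nat_lit 96) <| L.cons (nat_lit 33554432) (nat_lit 384) (nat_lit 0) <| L.cons (nat_lit 2098176) (nat_lit 45) (nat_lit 0) <| L.cons (nat_lit 2097184) (nat_lit 0) (nat_lit 15) <| L.cons (nat_lit 1114112) (nat_lit 0) (nat_lit 15) <|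
  L.cons (nat_lit 1082368) (nat_lit 180) (nat_lit 0) <| L.cons (nat_lit 1081376) (nat_lit 0) (nat_lit 120) <| L.cons (nat_lit 1048576) (nat_lit 0) (nat_lit 32) <| L.cons (nat_lit 98305) (nat_lit 60) (nat_lit 0) <| L.cons (nat_lit 98304) (nat_lit 0) (nat_lit 60) <|
  L.cons (nat_lit 66560) (nat_lit 180) (nat_lit 0) <| L.cons (nat_lit 65568) (nat_lit 0) (nat_lit 180) <| L.cons (nat_lit 32769) (nat_lit 0) (nat_lit 132) <| L.cons (nat_lit 32768) (nat_lit 132) (nat_lit 0) <| L.cons (nat_lit 1024) (nat_lit 0) (nat_lit 18) <|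
  L.cons (nat_lit 32) (nat_lit 18) (nat_lit 0) <|
  L.nil

/-- data -/
def f23_1 : L :=
  L.cons (nat_lit 35433512960) (nat_lit 810) (nat_lit 0) <| L.cons (nat_lit 34426880000) (nat_lit 135) (nat_lit 0) <| L.cons (nat_lit 34426848256) (nat_lit 135) (nat_lit 0) <| L.cons (nat_lit 34426847264) (nat_lit 0) (nat_lit 270) <| L.cons (nat_lit 34394342400) (nat_lit 405) (nat_lit 0) <|
  L.cons (nat_lit 34394341408) (nat_lit 0) (nat_lit 225) <| L.cons (nat_lit 34393358337) (nat_lit 0) (nat_lit 135) <| L.cons (nat_lit 34393358336) (nat_lit 0) (nat_lit 405) <| L.cons (nat_lit 34393292801) (nat_lit 90) (nat_lit 0) <| L.cons (nat_lit 34393292800) (nat_lit 0) (nat_lit 90) <|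
  L.cons (nat_lit 34361836544) (nat_lit 0) (nat_lit 135) <| L.cons (nat_lit 34361835552) (nat_lit 45) (nat_lit 0) <| L.cons (nat_lit 34360852480) (nat_lit 45) (nat_lit 0) <| L.cons (nat_lit 34360820736) (nat_lit 1080) (nat_lit 0) <| L.cons (nat_lit 34360819744) (nat_lit 0) (nat_lit 180) <|
  L.cons (nat_lit 34360786944) (nat_lit 30) (nat_lit 0) <| L.cons (nat_lit 34359836673) (nat_lit 0) (nat_lit 450) <| L.cons (nat_lit 34359836672) (nat_lit 0) (nat_lit 630) <| L.cons (nat_lit 34359803936) (nat_lit 0) (nat_lit 2160) <| L.cons (nat_lit 34359771137) (nat_lit 45) (nat_lit 0) <|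
  L.cons (nat_lit 34359771136) (nat_lit 0) (nat_lit 45) <| L.cons (nat_lit 1140883457) (nat_lit 810) (nat_lit 0) <| L.cons (nat_lit 1140883456) (nat_lit 135) (nat_lit 0) <| L.cons (nat_lit 1108377601) (nat_lit 270) (nat_lit 0) <| L.cons (nat_lit 1107361793) (nat_lit 0) (nat_lit 1170) <|
  L.cons (nat_lit 1107361792) (nat_lit 0) (nat_lit 360) <| L.cons (nat_lit 1107296257) (nat_lit 180) (nat_lit 0) <| L.cons (nat_lit 1074790401) (nat_lit 60) (nat_lit 0) <| L.cons (nat_lit 1074790400) (nat_lit 15) (nat_lit 0) <| L.cons (nat_lit 1073774593) (nat_lit 180) (nat_lit 0) <|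
  L.cons (nat_lit 100697088) (nat_lit 0) (nat_lit 270) <| L.cons (nat_lit 100696096) (nat_lit 135) (nat_lit 0) <| L.cons (nat_lit 68191232) (nat_lit 540) (nat_lit 0) <| L.cons (nat_lit 68190240) (nat_lit 0) (nat_lit 270) <| L.cons (nat_lit 67207168) (nat_lit 0) (nat_lit 45) <|
  L.cons (nat_lit 67175424) (nat_lit 540) (nat_lit 0) <| L.cons (nat_lit 67174432) (nat_lit 0) (nat_lit 810) <| L.cons (nat_lit 67141632) (nat_lit 0) (nat_lit 90) <| L.cons (nat_lit 35685376) (nat_lit 270) (nat_lit 0) <| L.cons (nat_lit 35684384) (nat_lit 0) (nat_lit 135) <|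
  L.cons (nat_lit 34669568) (nat_lit 0) (nat_lit 540) <| L.cons (nat_lit 34604032) (nat_lit 135) (nat_lit 0) <| L.cons (nat_lit 34603040) (nat_lit 0) (nat_lit 15) <| L.cons (nat_lit 33685505) (nat_lit 90) (nat_lit 0) <| L.cons (nat_lit 33685504) (nat_lit 360) (nat_lit 0) <|
  L.cons (nat_lit 33653760) (nat_lit 0) (nat_lit 360) <| L.cons (nat_lit 33652768) (nat_lit 1260) (nat_lit 0) <| L.cons (nat_lit 33619969) (nat_lit 135) (nat_lit 0) <| L.cons (nat_lit 33588224) (nat_lit 270) (nat_lit 0) <| L.cons (nat_lit 33587232) (nat_lit 0) (nat_lit 135) <|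
  f23_2

/-- data -/
def f23 : L :=
  L.cons (nat_lit 1125899940397057) (nat_lit 270) (nat_lit 0) <| L.cons (nat_lit 1125899940397056) (nat_lit 270) (nat_lit 0) <| L.cons (nat_lit 1125899907891200) (nat_lit 90) (nat_lit 0) <| L.cons (nat_lit 1125899906875393) (nat_lit 0) (nat_lit 810) <| L.cons (nat_lit 1125899906875392) (nat_lit 0) (nat_lit 540) <|
  L.cons (nat_lit 1125899906843648) (nat_lit 0) (nat_lit 90) <| L.cons (nat_lit 1125899906842656) (nat_lit 0) (nat_lit 360) <| L.cons (nat_lit 36283883716608) (nat_lit 0) (nat_lit 180) <| L.cons (nat_lit 35218731827201) (nat_lit 270) (nat_lit 0) <| L.cons (nat_lit 35218731827200) (nat_lit 270) (nat_lit 0) <|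
  L.cons (nat_lit 35185445830657) (nat_lit 0) (nat_lit 1080) <| L.cons (nat_lit 35185445830656) (nat_lit 0) (nat_lit 540) <| L.cons (nat_lit 35184439197696) (nat_lit 0) (nat_lit 90) <| L.cons (nat_lit 35184405676033) (nat_lit 0) (nat_lit 90) <| L.cons (nat_lit 35184405676032) (nat_lit 0) (nat_lit 180) <|
  L.cons (nat_lit 35184405643296) (nat_lit 0) (nat_lit 540) <| L.cons (nat_lit 35184373170176) (nat_lit 0) (nat_lit 90) <| L.cons (nat_lit 35184373138432) (nat_lit 0) (nat_lit 540) <| L.cons (nat_lit 35184372154369) (nat_lit 1080) (nat_lit 0) <| L.cons (nat_lit 35184372154368) (nat_lit 1080) (nat_lit 0) <|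
  L.cons (nat_lit 35184372122624) (nat_lit 360) (nat_lit 0) <| L.cons (nat_lit 35184372121632) (nat_lit 2520) (nat_lit 0) <| L.cons (nat_lit 2199023256576) (nat_lit 180) (nat_lit 0) <| L.cons (nat_lit 2199023255584) (nat_lit 0) (nat_lit 180) <| L.cons (nat_lit 1133871398912) (nat_lit 270) (nat_lit 0) <|
  L.cons (nat_lit 1133871367168) (nat_lit 0) (nat_lit 360) <| L.cons (nat_lit 1133871366176) (nat_lit 720) (nat_lit 0) <| L.cons (nat_lit 1100618924033) (nat_lit 0) (nat_lit 180) <| L.cons (nat_lit 1100585402369) (nat_lit 0) (nat_lit 360) <| L.cons (nat_lit 1100585402368) (nat_lit 0) (nat_lit 90) <|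
  L.cons (nat_lit 1099578737664) (nat_lit 90) (nat_lit 0) <| L.cons (nat_lit 1099546231808) (nat_lit 0) (nat_lit 180) <| L.cons (nat_lit 1099546230816) (nat_lit 90) (nat_lit 0) <| L.cons (nat_lit 1099545216000) (nat_lit 0) (nat_lit 180) <| L.cons (nat_lit 1099545215008) (nat_lit 180) (nat_lit 0) <|
  L.cons (nat_lit 1099512710144) (nat_lit 0) (nat_lit 540) <| L.cons (nat_lit 1099512709152) (nat_lit 360) (nat_lit 0) <| L.cons (nat_lit 1099511726080) (nat_lit 0) (nat_lit 90) <| L.cons (nat_lit 1099511660544) (nat_lit 0) (nat_lit 180) <| L.cons (nat_lit 1099511628800) (nat_lit 210) (nat_lit 0) <|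
  L.cons (nat_lit 1099511627808) (nat_lit 0) (nat_lit 420) <| L.cons (nat_lit 68753031169) (nat_lit 0) (nat_lit 135) <| L.cons (nat_lit 68753031168) (nat_lit 0) (nat_lit 270) <| L.cons (nat_lit 68720525312) (nat_lit 0) (nat_lit 45) <| L.cons (nat_lit 68719476768) (nat_lit 0) (nat_lit 810) <|
  L.cons (nat_lit 35467034625) (nat_lit 405) (nat_lit 0) <| L.cons (nat_lit 35467034624) (nat_lit 135) (nat_lit 0) <| L.cons (nat_lit 35434528769) (nat_lit 0) (nat_lit 180) <| L.cons (nat_lit 35434528768) (nat_lit 0) (nat_lit 45) <| L.cons (nat_lit 35433512961) (nat_lit 1890) (nat_lit 0) <|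
  f23_1

/-- data -/
def f24_2 : L :=
  L.cons (nat_lit 33620992) (nat_lit 270) (nat_lit 0) <| L.cons (nat_lit 33620000) (nat_lit 0) (nat_lit 135) <| L.cons (nat_lit 33587200) (nat_lit 0) (nat_lit 36) <| L.cons (nat_lit 33555456) (nat_lit 0) (nat_lit 576) <| L.cons (nat_lit 33554464) (nat_lit 480) (nat_lit 0) <|
  L.cons (nat_lit 1115136) (nat_lit 45) (nat_lit 0) <| L.cons (nat_lit 1114144) (nat_lit 0) (nat_lit 15) <| L.cons (nat_lit 1049600) (nat_lit 480) (nat_lit 0) <| L.cons (nat_lit 1048608) (nat_lit 0) (nat_lit 160) <| L.cons (nat_lit 131073) (nat_lit 15) (nat_lit 0) <|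
  L.cons (nat_lit 99328) (nat_lit 60) (nat_lit 0) <| L.cons (nat_lit 98336) (nat_lit 0) (nat_lit 30) <| L.cons (nat_lit 65537) (nat_lit 66) (nat_lit 0) <| L.cons (nat_lit 65536) (nat_lit 0) (nat_lit 264) <| L.cons (nat_lit 33792) (nat_lit 396) (nat_lit 0) <|
  L.cons (nat_lit 32800) (nat_lit 0) (nat_lit 594) <| L.cons (nat_lit 1) (nat_lit 64) (nat_lit 0) <| L.cons (nat_lit 0) (nat_lit 0) (nat_lit 512) <|
  L.nil

/-- data -/
def f24_1 : L :=
  L.cons (nat_lit 68719476736) (nat_lit 0) (nat_lit 360) <| L.cons (nat_lit 35467067393) (nat_lit 540) (nat_lit 0) <| L.cons (nat_lit 35467067392) (nat_lit 135) (nat_lit 0) <| L.cons (nat_lit 35433545729) (nat_lit 405) (nat_lit 0) <| L.cons (nat_lit 35433545728) (nat_lit 135) (nat_lit 0) <|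
  L.cons (nat_lit 35433480193) (nat_lit 0) (nat_lit 210) <| L.cons (nat_lit 35433480192) (nat_lit 0) (nat_lit 30) <| L.cons (nat_lit 34426881024) (nat_lit 0) (nat_lit 135) <| L.cons (nat_lit 34426880032) (nat_lit 135) (nat_lit 0) <| L.cons (nat_lit 34394375168) (nat_lit 405) (nat_lit 0) <|
  L.cons (nat_lit 34394374176) (nat_lit 0) (nat_lit 135) <| L.cons (nat_lit 34393391104) (nat_lit 0) (nat_lit 90) <| L.cons (nat_lit 34393359360) (nat_lit 135) (nat_lit 0) <| L.cons (nat_lit 34393358368) (nat_lit 0) (nat_lit 270) <| L.cons (nat_lit 34393325568) (nat_lit 0) (nat_lit 180) <|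
  L.cons (nat_lit 34393293824) (nat_lit 270) (nat_lit 0) <| L.cons (nat_lit 34393292832) (nat_lit 0) (nat_lit 180) <| L.cons (nat_lit 34360853504) (nat_lit 270) (nat_lit 0) <| L.cons (nat_lit 34360852512) (nat_lit 0) (nat_lit 90) <| L.cons (nat_lit 34360787968) (nat_lit 0) (nat_lit 180) <|
  L.cons (nat_lit 34360786976) (nat_lit 60) (nat_lit 0) <| L.cons (nat_lit 34359869441) (nat_lit 0) (nat_lit 45) <| L.cons (nat_lit 34359869440) (nat_lit 0) (nat_lit 135) <| L.cons (nat_lit 34359837696) (nat_lit 90) (nat_lit 0) <| L.cons (nat_lit 34359836704) (nat_lit 0) (nat_lit 450) <|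
  L.cons (nat_lit 34359803905) (nat_lit 45) (nat_lit 0) <| L.cons (nat_lit 34359803904) (nat_lit 0) (nat_lit 45) <| L.cons (nat_lit 34359772160) (nat_lit 135) (nat_lit 0) <| L.cons (nat_lit 34359771168) (nat_lit 0) (nat_lit 135) <| L.cons (nat_lit 34359738369) (nat_lit 0) (nat_lit 156) <|
  L.cons (nat_lit 34359738368) (nat_lit 780) (nat_lit 0) <| L.cons (nat_lit 1107394561) (nat_lit 0) (nat_lit 270) <| L.cons (nat_lit 1107394560) (nat_lit 0) (nat_lit 45) <| L.cons (nat_lit 1107329025) (nat_lit 180) (nat_lit 0) <| L.cons (nat_lit 1107329024) (nat_lit 0) (nat_lit 90) <|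
  L.cons (nat_lit 1073807361) (nat_lit 45) (nat_lit 0) <| L.cons (nat_lit 1073741825) (nat_lit 608) (nat_lit 0) <| L.cons (nat_lit 1073741824) (nat_lit 128) (nat_lit 0) <| L.cons (nat_lit 67208192) (nat_lit 90) (nat_lit 0) <| L.cons (nat_lit 67207200) (nat_lit 0) (nat_lit 45) <|
  L.cons (nat_lit 67142656) (nat_lit 0) (nat_lit 180) <| L.cons (nat_lit 67141664) (nat_lit 0) (nat_lit 90) <| L.cons (nat_lit 34702336) (nat_lit 0) (nat_lit 225) <| L.cons (nat_lit 34701344) (nat_lit 90) (nat_lit 0) <| L.cons (nat_lit 34636800) (nat_lit 270) (nat_lit 0) <|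
  L.cons (nat_lit 34635808) (nat_lit 0) (nat_lit 180) <| L.cons (nat_lit 33718272) (nat_lit 45) (nat_lit 0) <| L.cons (nat_lit 33686528) (nat_lit 0) (nat_lit 180) <| L.cons (nat_lit 33685536) (nat_lit 270) (nat_lit 0) <| L.cons (nat_lit 33652736) (nat_lit 75) (nat_lit 0) <|
  f24_2

/-- data -/
def f24 : L :=
  L.cons (nat_lit 1125934266580993) (nat_lit 270) (nat_lit 0) <| L.cons (nat_lit 1125900980584449) (nat_lit 90) (nat_lit 0) <| L.cons (nat_lit 1125900980584448) (nat_lit 90) (nat_lit 0) <| L.cons (nat_lit 1125899940429824) (nat_lit 270) (nat_lit 0) <| L.cons (nat_lit 1125899940398080) (nat_lit 270) (nat_lit 0) <|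
  L.cons (nat_lit 1125899906908161) (nat_lit 0) (nat_lit 270) <| L.cons (nat_lit 1125899906908160) (nat_lit 0) (nat_lit 270) <| L.cons (nat_lit 1125899906876416) (nat_lit 0) (nat_lit 270) <| L.cons (nat_lit 1125899906875424) (nat_lit 0) (nat_lit 270) <| L.cons (nat_lit 1125899906842625) (nat_lit 0) (nat_lit 180) <|
  L.cons (nat_lit 1125899906842624) (nat_lit 540) (nat_lit 0) <| L.cons (nat_lit 70368744177665) (nat_lit 0) (nat_lit 180) <| L.cons (nat_lit 36283883717632) (nat_lit 0) (nat_lit 180) <| L.cons (nat_lit 36283883716640) (nat_lit 180) (nat_lit 0) <| L.cons (nat_lit 35218765381632) (nat_lit 0) (nat_lit 180) <|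
  L.cons (nat_lit 35218731859969) (nat_lit 180) (nat_lit 0) <| L.cons (nat_lit 35218731859968) (nat_lit 180) (nat_lit 0) <| L.cons (nat_lit 35218731828224) (nat_lit 90) (nat_lit 0) <| L.cons (nat_lit 35218731827232) (nat_lit 90) (nat_lit 0) <| L.cons (nat_lit 35185479385089) (nat_lit 0) (nat_lit 180) <|
  L.cons (nat_lit 35185479385088) (nat_lit 0) (nat_lit 90) <| L.cons (nat_lit 35185445863425) (nat_lit 0) (nat_lit 450) <| L.cons (nat_lit 35185445863424) (nat_lit 0) (nat_lit 180) <| L.cons (nat_lit 35184439197728) (nat_lit 0) (nat_lit 90) <| L.cons (nat_lit 35184406692864) (nat_lit 0) (nat_lit 90) <|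
  L.cons (nat_lit 35184405708800) (nat_lit 0) (nat_lit 180) <| L.cons (nat_lit 35184405676064) (nat_lit 0) (nat_lit 90) <| L.cons (nat_lit 35184405643264) (nat_lit 60) (nat_lit 0) <| L.cons (nat_lit 35184373171200) (nat_lit 0) (nat_lit 270) <| L.cons (nat_lit 35184373170208) (nat_lit 90) (nat_lit 0) <|
  L.cons (nat_lit 35184372187137) (nat_lit 180) (nat_lit 0) <| L.cons (nat_lit 35184372187136) (nat_lit 360) (nat_lit 0) <| L.cons (nat_lit 35184372154400) (nat_lit 810) (nat_lit 0) <| L.cons (nat_lit 35184372121601) (nat_lit 0) (nat_lit 60) <| L.cons (nat_lit 35184372121600) (nat_lit 120) (nat_lit 0) <|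
  L.cons (nat_lit 35184372089856) (nat_lit 0) (nat_lit 120) <| L.cons (nat_lit 35184372088864) (nat_lit 150) (nat_lit 0) <| L.cons (nat_lit 1099511727104) (nat_lit 90) (nat_lit 0) <| L.cons (nat_lit 1099511726112) (nat_lit 0) (nat_lit 90) <| L.cons (nat_lit 1099511661568) (nat_lit 0) (nat_lit 540) <|
  L.cons (nat_lit 1099511660576) (nat_lit 540) (nat_lit 0) <| L.cons (nat_lit 103079215105) (nat_lit 0) (nat_lit 135) <| L.cons (nat_lit 103079215104) (nat_lit 0) (nat_lit 135) <| L.cons (nat_lit 69793218561) (nat_lit 0) (nat_lit 225) <| L.cons (nat_lit 69793218560) (nat_lit 0) (nat_lit 90) <|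
  L.cons (nat_lit 68753063936) (nat_lit 135) (nat_lit 0) <| L.cons (nat_lit 68753031200) (nat_lit 0) (nat_lit 135) <| L.cons (nat_lit 68720526336) (nat_lit 0) (nat_lit 135) <| L.cons (nat_lit 68720525344) (nat_lit 45) (nat_lit 0) <| L.cons (nat_lit 68719476737) (nat_lit 180) (nat_lit 0) <|
  f24_1

/-- data -/
def f25_2 : L :=
  L.cons (nat_lit 34635808) (nat_lit 90) (nat_lit 0) <| L.cons (nat_lit 33718272) (nat_lit 0) (nat_lit 45) <| L.cons (nat_lit 33686528) (nat_lit 270) (nat_lit 0) <| L.cons (nat_lit 33685536) (nat_lit 0) (nat_lit 360) <| L.cons (nat_lit 33652736) (nat_lit 0) (nat_lit 75) <|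
  L.cons (nat_lit 33620992) (nat_lit 0) (nat_lit 135) <| L.cons (nat_lit 33587200) (nat_lit 36) (nat_lit 0) <| L.cons (nat_lit 33555456) (nat_lit 480) (nat_lit 0) <| L.cons (nat_lit 33554464) (nat_lit 0) (nat_lit 384) <| L.cons (nat_lit 1049600) (nat_lit 0) (nat_lit 384) <|
  L.cons (nat_lit 1048608) (nat_lit 128) (nat_lit 0) <| L.cons (nat_lit 131073) (nat_lit 0) (nat_lit 15) <| L.cons (nat_lit 131072) (nat_lit 0) (nat_lit 15) <| L.cons (nat_lit 99328) (nat_lit 0) (nat_lit 30) <| L.cons (nat_lit 98336) (nat_lit 0) (nat_lit 30) <|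
  L.cons (nat_lit 65537) (nat_lit 0) (nat_lit 66) <| L.cons (nat_lit 65536) (nat_lit 198) (nat_lit 0) <| L.cons (nat_lit 33792) (nat_lit 0) (nat_lit 330) <| L.cons (nat_lit 32800) (nat_lit 462) (nat_lit 0) <| L.cons (nat_lit 1) (nat_lit 0) (nat_lit 64) <|
  L.cons (nat_lit 0) (nat_lit 448) (nat_lit 0) <|
  L.nil

/-- data -/
def f25_1 : L :=
  L.cons (nat_lit 69793218560) (nat_lit 135) (nat_lit 0) <| L.cons (nat_lit 68753063936) (nat_lit 0) (nat_lit 135) <| L.cons (nat_lit 68753032192) (nat_lit 0) (nat_lit 135) <| L.cons (nat_lit 68753031200) (nat_lit 270) (nat_lit 0) <| L.cons (nat_lit 68720526336) (nat_lit 270) (nat_lit 0) <|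
  L.cons (nat_lit 68720525344) (nat_lit 0) (nat_lit 90) <| L.cons (nat_lit 68719476737) (nat_lit 0) (nat_lit 180) <| L.cons (nat_lit 68719476736) (nat_lit 180) (nat_lit 0) <| L.cons (nat_lit 35467067393) (nat_lit 0) (nat_lit 810) <| L.cons (nat_lit 35467067392) (nat_lit 0) (nat_lit 135) <|
  L.cons (nat_lit 35433545729) (nat_lit 0) (nat_lit 585) <| L.cons (nat_lit 35433545728) (nat_lit 0) (nat_lit 180) <| L.cons (nat_lit 35433480193) (nat_lit 90) (nat_lit 0) <| L.cons (nat_lit 34426881024) (nat_lit 270) (nat_lit 0) <| L.cons (nat_lit 34426880032) (nat_lit 0) (nat_lit 135) <|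
  L.cons (nat_lit 34394375168) (nat_lit 0) (nat_lit 675) <| L.cons (nat_lit 34394374176) (nat_lit 270) (nat_lit 0) <| L.cons (nat_lit 34393391104) (nat_lit 90) (nat_lit 0) <| L.cons (nat_lit 34393359360) (nat_lit 0) (nat_lit 270) <| L.cons (nat_lit 34393358368) (nat_lit 405) (nat_lit 0) <|
  L.cons (nat_lit 34393325568) (nat_lit 180) (nat_lit 0) <| L.cons (nat_lit 34393293824) (nat_lit 0) (nat_lit 180) <| L.cons (nat_lit 34393292832) (nat_lit 90) (nat_lit 0) <| L.cons (nat_lit 34360853504) (nat_lit 0) (nat_lit 405) <| L.cons (nat_lit 34360852512) (nat_lit 135) (nat_lit 0) <|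
  L.cons (nat_lit 34360787968) (nat_lit 90) (nat_lit 0) <| L.cons (nat_lit 34360786976) (nat_lit 0) (nat_lit 30) <| L.cons (nat_lit 34359869441) (nat_lit 45) (nat_lit 0) <| L.cons (nat_lit 34359869440) (nat_lit 180) (nat_lit 0) <| L.cons (nat_lit 34359837696) (nat_lit 0) (nat_lit 180) <|
  L.cons (nat_lit 34359836704) (nat_lit 630) (nat_lit 0) <| L.cons (nat_lit 34359803905) (nat_lit 0) (nat_lit 45) <| L.cons (nat_lit 34359772160) (nat_lit 0) (nat_lit 90) <| L.cons (nat_lit 34359771168) (nat_lit 45) (nat_lit 0) <| L.cons (nat_lit 34359738369) (nat_lit 156) (nat_lit 0) <|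
  L.cons (nat_lit 34359738368) (nat_lit 0) (nat_lit 624) <| L.cons (nat_lit 1107394561) (nat_lit 360) (nat_lit 0) <| L.cons (nat_lit 1107394560) (nat_lit 45) (nat_lit 0) <| L.cons (nat_lit 1107329024) (nat_lit 90) (nat_lit 0) <| L.cons (nat_lit 1073807361) (nat_lit 15) (nat_lit 0) <|
  L.cons (nat_lit 1073807360) (nat_lit 15) (nat_lit 0) <| L.cons (nat_lit 1073741825) (nat_lit 0) (nat_lit 480) <| L.cons (nat_lit 1073741824) (nat_lit 0) (nat_lit 96) <| L.cons (nat_lit 67208192) (nat_lit 0) (nat_lit 135) <| L.cons (nat_lit 67207200) (nat_lit 45) (nat_lit 0) <|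
  L.cons (nat_lit 67142656) (nat_lit 90) (nat_lit 0) <| L.cons (nat_lit 67141664) (nat_lit 90) (nat_lit 0) <| L.cons (nat_lit 34702336) (nat_lit 315) (nat_lit 0) <| L.cons (nat_lit 34701344) (nat_lit 0) (nat_lit 135) <| L.cons (nat_lit 34636800) (nat_lit 0) (nat_lit 90) <|
  f25_2

/-- data -/
def f25 : L :=
  L.cons (nat_lit 1125934266580993) (nat_lit 0) (nat_lit 270) <| L.cons (nat_lit 1125934266580992) (nat_lit 0) (nat_lit 270) <| L.cons (nat_lit 1125900980584449) (nat_lit 0) (nat_lit 450) <| L.cons (nat_lit 1125900980584448) (nat_lit 0) (nat_lit 180) <| L.cons (nat_lit 1125899940429824) (nat_lit 0) (nat_lit 270) <|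
  L.cons (nat_lit 1125899940397088) (nat_lit 0) (nat_lit 270) <| L.cons (nat_lit 1125899907892224) (nat_lit 0) (nat_lit 270) <| L.cons (nat_lit 1125899907891232) (nat_lit 90) (nat_lit 0) <| L.cons (nat_lit 1125899906908161) (nat_lit 270) (nat_lit 0) <| L.cons (nat_lit 1125899906908160) (nat_lit 540) (nat_lit 0) <|
  L.cons (nat_lit 1125899906875424) (nat_lit 810) (nat_lit 0) <| L.cons (nat_lit 1125899906842625) (nat_lit 180) (nat_lit 0) <| L.cons (nat_lit 1125899906842624) (nat_lit 0) (nat_lit 360) <| L.cons (nat_lit 70368744177665) (nat_lit 180) (nat_lit 0) <| L.cons (nat_lit 70368744177664) (nat_lit 180) (nat_lit 0) <|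
  L.cons (nat_lit 35218765381632) (nat_lit 180) (nat_lit 0) <| L.cons (nat_lit 35218731859969) (nat_lit 0) (nat_lit 180) <| L.cons (nat_lit 35218731859968) (nat_lit 0) (nat_lit 360) <| L.cons (nat_lit 35218731827232) (nat_lit 0) (nat_lit 270) <| L.cons (nat_lit 35185479385089) (nat_lit 360) (nat_lit 0) <|
  L.cons (nat_lit 35185479385088) (nat_lit 90) (nat_lit 0) <| L.cons (nat_lit 35185445863425) (nat_lit 810) (nat_lit 0) <| L.cons (nat_lit 35185445863424) (nat_lit 270) (nat_lit 0) <| L.cons (nat_lit 35184439198720) (nat_lit 0) (nat_lit 90) <| L.cons (nat_lit 35184439197728) (nat_lit 90) (nat_lit 0) <|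
  L.cons (nat_lit 35184406692864) (nat_lit 270) (nat_lit 0) <| L.cons (nat_lit 35184406691872) (nat_lit 0) (nat_lit 90) <| L.cons (nat_lit 35184405708800) (nat_lit 180) (nat_lit 0) <| L.cons (nat_lit 35184405677056) (nat_lit 0) (nat_lit 90) <| L.cons (nat_lit 35184405676064) (nat_lit 180) (nat_lit 0) <|
  L.cons (nat_lit 35184405643264) (nat_lit 0) (nat_lit 60) <| L.cons (nat_lit 35184373171200) (nat_lit 540) (nat_lit 0) <| L.cons (nat_lit 35184373170208) (nat_lit 0) (nat_lit 180) <| L.cons (nat_lit 35184372187137) (nat_lit 0) (nat_lit 180) <| L.cons (nat_lit 35184372187136) (nat_lit 0) (nat_lit 540) <|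
  L.cons (nat_lit 35184372155392) (nat_lit 270) (nat_lit 0) <| L.cons (nat_lit 35184372154400) (nat_lit 0) (nat_lit 1350) <| L.cons (nat_lit 35184372121601) (nat_lit 60) (nat_lit 0) <| L.cons (nat_lit 35184372121600) (nat_lit 0) (nat_lit 60) <| L.cons (nat_lit 35184372089856) (nat_lit 90) (nat_lit 0) <|
  L.cons (nat_lit 35184372088864) (nat_lit 0) (nat_lit 90) <| L.cons (nat_lit 1133871399936) (nat_lit 270) (nat_lit 0) <| L.cons (nat_lit 1133871398944) (nat_lit 0) (nat_lit 270) <| L.cons (nat_lit 1099511727104) (nat_lit 0) (nat_lit 180) <| L.cons (nat_lit 1099511726112) (nat_lit 180) (nat_lit 0) <|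
  L.cons (nat_lit 1099511661568) (nat_lit 360) (nat_lit 0) <| L.cons (nat_lit 1099511660576) (nat_lit 0) (nat_lit 360) <| L.cons (nat_lit 103079215105) (nat_lit 135) (nat_lit 0) <| L.cons (nat_lit 103079215104) (nat_lit 270) (nat_lit 0) <| L.cons (nat_lit 69793218561) (nat_lit 405) (nat_lit 0) <|
  f25_1

/-- data -/
def f26_3 : L :=
  L.cons (nat_lit 33686528) (nat_lit 0) (nat_lit 360) <| L.cons (nat_lit 33685536) (nat_lit 900) (nat_lit 0) <| L.cons (nat_lit 33652737) (nat_lit 75) (nat_lit 0) <| L.cons (nat_lit 33652736) (nat_lit 75) (nat_lit 0) <| L.cons (nat_lit 33620992) (nat_lit 540) (nat_lit 0) <|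
  L.cons (nat_lit 33620000) (nat_lit 0) (nat_lit 270) <| L.cons (nat_lit 33587201) (nat_lit 0) (nat_lit 36) <| L.cons (nat_lit 33587200) (nat_lit 108) (nat_lit 0) <| L.cons (nat_lit 33555456) (nat_lit 384) (nat_lit 0) <| L.cons (nat_lit 33554464) (nat_lit 0) (nat_lit 192) <|
  L.cons (nat_lit 2130944) (nat_lit 90) (nat_lit 0) <| L.cons (nat_lit 2129952) (nat_lit 0) (nat_lit 30) <| L.cons (nat_lit 1146880) (nat_lit 0) (nat_lit 30) <| L.cons (nat_lit 1115136) (nat_lit 180) (nat_lit 0) <| L.cons (nat_lit 1114144) (nat_lit 0) (nat_lit 165) <|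
  L.cons (nat_lit 1081344) (nat_lit 0) (nat_lit 66) <| L.cons (nat_lit 1049600) (nat_lit 0) (nat_lit 126) <| L.cons (nat_lit 1048608) (nat_lit 28) (nat_lit 0) <| L.cons (nat_lit 131073) (nat_lit 45) (nat_lit 0) <| L.cons (nat_lit 131072) (nat_lit 0) (nat_lit 30) <|
  L.cons (nat_lit 99328) (nat_lit 150) (nat_lit 0) <| L.cons (nat_lit 98336) (nat_lit 0) (nat_lit 120) <| L.cons (nat_lit 65537) (nat_lit 0) (nat_lit 66) <| L.cons (nat_lit 65536) (nat_lit 0) (nat_lit 132) <| L.cons (nat_lit 33792) (nat_lit 0) (nat_lit 198) <|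
  L.cons (nat_lit 1) (nat_lit 0) (nat_lit 320) <| L.cons (nat_lit 0) (nat_lit 896) (nat_lit 0) <|
  L.nil

/-- data -/
def f26_2 : L :=
  L.cons (nat_lit 34393391105) (nat_lit 0) (nat_lit 90) <| L.cons (nat_lit 34393391104) (nat_lit 0) (nat_lit 360) <| L.cons (nat_lit 34393359360) (nat_lit 270) (nat_lit 0) <| L.cons (nat_lit 34393358368) (nat_lit 0) (nat_lit 945) <| L.cons (nat_lit 34393325569) (nat_lit 0) (nat_lit 180) <|
  L.cons (nat_lit 34393293824) (nat_lit 180) (nat_lit 0) <| L.cons (nat_lit 34393292832) (nat_lit 0) (nat_lit 90) <| L.cons (nat_lit 34361869312) (nat_lit 0) (nat_lit 270) <| L.cons (nat_lit 34361868320) (nat_lit 90) (nat_lit 0) <| L.cons (nat_lit 34360885248) (nat_lit 90) (nat_lit 0) <|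
  L.cons (nat_lit 34360853504) (nat_lit 675) (nat_lit 0) <| L.cons (nat_lit 34360852512) (nat_lit 90) (nat_lit 0) <| L.cons (nat_lit 34360819712) (nat_lit 0) (nat_lit 45) <| L.cons (nat_lit 34360787968) (nat_lit 0) (nat_lit 45) <| L.cons (nat_lit 34360786976) (nat_lit 0) (nat_lit 150) <|
  L.cons (nat_lit 34359869441) (nat_lit 0) (nat_lit 270) <| L.cons (nat_lit 34359869440) (nat_lit 0) (nat_lit 450) <| L.cons (nat_lit 34359837696) (nat_lit 90) (nat_lit 0) <| L.cons (nat_lit 34359836704) (nat_lit 0) (nat_lit 1530) <| L.cons (nat_lit 34359803905) (nat_lit 90) (nat_lit 0) <|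
  L.cons (nat_lit 34359803904) (nat_lit 0) (nat_lit 90) <| L.cons (nat_lit 34359772160) (nat_lit 135) (nat_lit 0) <| L.cons (nat_lit 34359771168) (nat_lit 0) (nat_lit 135) <| L.cons (nat_lit 34359738369) (nat_lit 312) (nat_lit 0) <| L.cons (nat_lit 34359738368) (nat_lit 0) (nat_lit 312) <|
  L.cons (nat_lit 1108410369) (nat_lit 270) (nat_lit 0) <| L.cons (nat_lit 1108344833) (nat_lit 180) (nat_lit 0) <| L.cons (nat_lit 1107394561) (nat_lit 0) (nat_lit 855) <| L.cons (nat_lit 1107394560) (nat_lit 0) (nat_lit 225) <| L.cons (nat_lit 1107329025) (nat_lit 450) (nat_lit 0) <|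
  L.cons (nat_lit 1107329024) (nat_lit 0) (nat_lit 90) <| L.cons (nat_lit 1074823169) (nat_lit 120) (nat_lit 0) <| L.cons (nat_lit 1074823168) (nat_lit 30) (nat_lit 0) <| L.cons (nat_lit 1073807361) (nat_lit 135) (nat_lit 0) <| L.cons (nat_lit 1073741825) (nat_lit 0) (nat_lit 96) <|
  L.cons (nat_lit 68224000) (nat_lit 0) (nat_lit 135) <| L.cons (nat_lit 68158464) (nat_lit 0) (nat_lit 90) <| L.cons (nat_lit 67208192) (nat_lit 180) (nat_lit 0) <| L.cons (nat_lit 67207200) (nat_lit 0) (nat_lit 180) <| L.cons (nat_lit 67142656) (nat_lit 0) (nat_lit 360) <|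
  L.cons (nat_lit 35718144) (nat_lit 270) (nat_lit 0) <| L.cons (nat_lit 35717152) (nat_lit 0) (nat_lit 135) <| L.cons (nat_lit 35652608) (nat_lit 180) (nat_lit 0) <| L.cons (nat_lit 35651616) (nat_lit 0) (nat_lit 90) <| L.cons (nat_lit 34702336) (nat_lit 0) (nat_lit 360) <|
  L.cons (nat_lit 34701344) (nat_lit 0) (nat_lit 45) <| L.cons (nat_lit 34636800) (nat_lit 630) (nat_lit 0) <| L.cons (nat_lit 34635808) (nat_lit 0) (nat_lit 360) <| L.cons (nat_lit 33718273) (nat_lit 45) (nat_lit 0) <| L.cons (nat_lit 33718272) (nat_lit 225) (nat_lit 0) <|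
  f26_3

/-- data -/
def f26_1 : L :=
  L.cons (nat_lit 35184372154400) (nat_lit 2700) (nat_lit 0) <| L.cons (nat_lit 35184372121601) (nat_lit 0) (nat_lit 60) <| L.cons (nat_lit 35184372121600) (nat_lit 120) (nat_lit 0) <| L.cons (nat_lit 35184372089856) (nat_lit 0) (nat_lit 30) <| L.cons (nat_lit 35184372088864) (nat_lit 60) (nat_lit 0) <|
  L.cons (nat_lit 1168231104512) (nat_lit 90) (nat_lit 0) <| L.cons (nat_lit 1133872415744) (nat_lit 270) (nat_lit 0) <| L.cons (nat_lit 1133872414752) (nat_lit 0) (nat_lit 270) <| L.cons (nat_lit 1133871431680) (nat_lit 180) (nat_lit 0) <| L.cons (nat_lit 1133871399936) (nat_lit 0) (nat_lit 270) <|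
  L.cons (nat_lit 1133871398944) (nat_lit 540) (nat_lit 0) <| L.cons (nat_lit 1133871366144) (nat_lit 0) (nat_lit 60) <| L.cons (nat_lit 1099512742912) (nat_lit 0) (nat_lit 270) <| L.cons (nat_lit 1099512741920) (nat_lit 270) (nat_lit 0) <| L.cons (nat_lit 1099512677376) (nat_lit 0) (nat_lit 180) <|
  L.cons (nat_lit 1099512676384) (nat_lit 180) (nat_lit 0) <| L.cons (nat_lit 1099511758848) (nat_lit 0) (nat_lit 90) <| L.cons (nat_lit 1099511727104) (nat_lit 180) (nat_lit 0) <| L.cons (nat_lit 1099511726112) (nat_lit 0) (nat_lit 270) <| L.cons (nat_lit 1099511693312) (nat_lit 0) (nat_lit 150) <|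
  L.cons (nat_lit 1099511661568) (nat_lit 0) (nat_lit 360) <| L.cons (nat_lit 1099511660576) (nat_lit 180) (nat_lit 0) <| L.cons (nat_lit 1099511627776) (nat_lit 64) (nat_lit 0) <| L.cons (nat_lit 103079215105) (nat_lit 0) (nat_lit 540) <| L.cons (nat_lit 103079215104) (nat_lit 0) (nat_lit 675) <|
  L.cons (nat_lit 69793218561) (nat_lit 0) (nat_lit 945) <| L.cons (nat_lit 69793218560) (nat_lit 0) (nat_lit 405) <| L.cons (nat_lit 68753063937) (nat_lit 135) (nat_lit 0) <| L.cons (nat_lit 68753063936) (nat_lit 405) (nat_lit 0) <| L.cons (nat_lit 68753032192) (nat_lit 135) (nat_lit 0) <|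
  L.cons (nat_lit 68753031200) (nat_lit 0) (nat_lit 675) <| L.cons (nat_lit 68720526336) (nat_lit 0) (nat_lit 675) <| L.cons (nat_lit 68720525344) (nat_lit 360) (nat_lit 0) <| L.cons (nat_lit 68719476737) (nat_lit 180) (nat_lit 0) <| L.cons (nat_lit 68719476736) (nat_lit 0) (nat_lit 180) <|
  L.cons (nat_lit 35468083201) (nat_lit 0) (nat_lit 270) <| L.cons (nat_lit 35467067393) (nat_lit 1755) (nat_lit 0) <| L.cons (nat_lit 35467067392) (nat_lit 540) (nat_lit 0) <| L.cons (nat_lit 35434561537) (nat_lit 0) (nat_lit 360) <| L.cons (nat_lit 35434561536) (nat_lit 0) (nat_lit 90) <|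
  L.cons (nat_lit 35433545729) (nat_lit 1350) (nat_lit 0) <| L.cons (nat_lit 35433545728) (nat_lit 540) (nat_lit 0) <| L.cons (nat_lit 35433480193) (nat_lit 0) (nat_lit 180) <| L.cons (nat_lit 34427896832) (nat_lit 135) (nat_lit 0) <| L.cons (nat_lit 34426881024) (nat_lit 0) (nat_lit 270) <|
  L.cons (nat_lit 34426880032) (nat_lit 405) (nat_lit 0) <| L.cons (nat_lit 34395390976) (nat_lit 0) (nat_lit 270) <| L.cons (nat_lit 34395389984) (nat_lit 135) (nat_lit 0) <| L.cons (nat_lit 34394375168) (nat_lit 1215) (nat_lit 0) <| L.cons (nat_lit 34394374176) (nat_lit 0) (nat_lit 405) <|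
  f26_2

/-- data -/
def f26 : L :=
  L.cons (nat_lit 1126999418470400) (nat_lit 0) (nat_lit 180) <| L.cons (nat_lit 1125934266580993) (nat_lit 810) (nat_lit 0) <| L.cons (nat_lit 1125934266580992) (nat_lit 540) (nat_lit 0) <| L.cons (nat_lit 1125900980584449) (nat_lit 720) (nat_lit 0) <| L.cons (nat_lit 1125900980584448) (nat_lit 450) (nat_lit 0) <|
  L.cons (nat_lit 1125899940429825) (nat_lit 270) (nat_lit 0) <| L.cons (nat_lit 1125899940429824) (nat_lit 540) (nat_lit 0) <| L.cons (nat_lit 1125899940398080) (nat_lit 270) (nat_lit 0) <| L.cons (nat_lit 1125899940397088) (nat_lit 540) (nat_lit 0) <| L.cons (nat_lit 1125899907923968) (nat_lit 270) (nat_lit 0) <|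
  L.cons (nat_lit 1125899907892224) (nat_lit 270) (nat_lit 0) <| L.cons (nat_lit 1125899907891232) (nat_lit 90) (nat_lit 0) <| L.cons (nat_lit 1125899906908161) (nat_lit 0) (nat_lit 1080) <| L.cons (nat_lit 1125899906908160) (nat_lit 0) (nat_lit 810) <| L.cons (nat_lit 1125899906876416) (nat_lit 0) (nat_lit 540) <|
  L.cons (nat_lit 1125899906875424) (nat_lit 0) (nat_lit 1350) <| L.cons (nat_lit 1125899906842624) (nat_lit 180) (nat_lit 0) <| L.cons (nat_lit 70368744177665) (nat_lit 0) (nat_lit 540) <| L.cons (nat_lit 70368744177664) (nat_lit 0) (nat_lit 360) <| L.cons (nat_lit 36283883716640) (nat_lit 0) (nat_lit 180) <|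
  L.cons (nat_lit 35218765381633) (nat_lit 0) (nat_lit 180) <| L.cons (nat_lit 35218765381632) (nat_lit 0) (nat_lit 360) <| L.cons (nat_lit 35218732875776) (nat_lit 0) (nat_lit 90) <| L.cons (nat_lit 35218731859969) (nat_lit 720) (nat_lit 0) <| L.cons (nat_lit 35218731859968) (nat_lit 720) (nat_lit 0) <|
  L.cons (nat_lit 35218731828224) (nat_lit 90) (nat_lit 0) <| L.cons (nat_lit 35218731827232) (nat_lit 630) (nat_lit 0) <| L.cons (nat_lit 35185479385089) (nat_lit 0) (nat_lit 630) <| L.cons (nat_lit 35185479385088) (nat_lit 0) (nat_lit 270) <| L.cons (nat_lit 35185446879233) (nat_lit 360) (nat_lit 0) <|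
  L.cons (nat_lit 35185446879232) (nat_lit 90) (nat_lit 0) <| L.cons (nat_lit 35185445863425) (nat_lit 0) (nat_lit 1530) <| L.cons (nat_lit 35185445863424) (nat_lit 0) (nat_lit 720) <| L.cons (nat_lit 35184439197728) (nat_lit 0) (nat_lit 180) <| L.cons (nat_lit 35184406692864) (nat_lit 0) (nat_lit 630) <|
  L.cons (nat_lit 35184406691872) (nat_lit 360) (nat_lit 0) <| L.cons (nat_lit 35184405708801) (nat_lit 0) (nat_lit 180) <| L.cons (nat_lit 35184405708800) (nat_lit 0) (nat_lit 540) <| L.cons (nat_lit 35184405676064) (nat_lit 0) (nat_lit 360) <| L.cons (nat_lit 35184405643265) (nat_lit 60) (nat_lit 0) <|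
  L.cons (nat_lit 35184405643264) (nat_lit 0) (nat_lit 60) <| L.cons (nat_lit 35184374187008) (nat_lit 270) (nat_lit 0) <| L.cons (nat_lit 35184374186016) (nat_lit 0) (nat_lit 90) <| L.cons (nat_lit 35184373202944) (nat_lit 0) (nat_lit 270) <| L.cons (nat_lit 35184373171200) (nat_lit 0) (nat_lit 540) <|
  L.cons (nat_lit 35184373170208) (nat_lit 0) (nat_lit 450) <| L.cons (nat_lit 35184373137408) (nat_lit 30) (nat_lit 0) <| L.cons (nat_lit 35184372187137) (nat_lit 900) (nat_lit 0) <| L.cons (nat_lit 35184372187136) (nat_lit 1080) (nat_lit 0) <| L.cons (nat_lit 35184372155392) (nat_lit 270) (nat_lit 0) <|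
  f26_1

/-- data -/
def f27_5 : L :=
  L.cons (nat_lit 1114112) (nat_lit 20) (nat_lit 0) <| L.cons (nat_lit 1082368) (nat_lit 0) (nat_lit 72) <| L.cons (nat_lit 1081376) (nat_lit 24) (nat_lit 0) <| L.cons (nat_lit 229377) (nat_lit 0) (nat_lit 3) <| L.cons (nat_lit 229376) (nat_lit 9) (nat_lit 0) <|
  L.cons (nat_lit 197632) (nat_lit 0) (nat_lit 26) <| L.cons (nat_lit 196640) (nat_lit 28) (nat_lit 0) <| L.cons (nat_lit 163841) (nat_lit 18) (nat_lit 0) <| L.cons (nat_lit 163840) (nat_lit 0) (nat_lit 42) <| L.cons (nat_lit 132096) (nat_lit 76) (nat_lit 0) <|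
  L.cons (nat_lit 131104) (nat_lit 0) (nat_lit 140) <| L.cons (nat_lit 98305) (nat_lit 60) (nat_lit 0) <| L.cons (nat_lit 98304) (nat_lit 60) (nat_lit 0) <| L.cons (nat_lit 66560) (nat_lit 0) (nat_lit 32) <| L.cons (nat_lit 65568) (nat_lit 184) (nat_lit 0) <|
  L.cons (nat_lit 32769) (nat_lit 24) (nat_lit 0) <| L.cons (nat_lit 32768) (nat_lit 0) (nat_lit 24) <|
  L.nil

/-- data -/
def f27_4 : L :=
  L.cons (nat_lit 68191232) (nat_lit 0) (nat_lit 18) <| L.cons (nat_lit 68190240) (nat_lit 18) (nat_lit 0) <| L.cons (nat_lit 67240960) (nat_lit 0) (nat_lit 9) <| L.cons (nat_lit 67239968) (nat_lit 9) (nat_lit 0) <| L.cons (nat_lit 67175424) (nat_lit 0) (nat_lit 18) <|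
  L.cons (nat_lit 67174432) (nat_lit 18) (nat_lit 0) <| L.cons (nat_lit 35782656) (nat_lit 3) (nat_lit 0) <| L.cons (nat_lit 35750912) (nat_lit 21) (nat_lit 0) <| L.cons (nat_lit 35749920) (nat_lit 0) (nat_lit 12) <| L.cons (nat_lit 35717120) (nat_lit 6) (nat_lit 0) <|
  L.cons (nat_lit 35685376) (nat_lit 18) (nat_lit 0) <| L.cons (nat_lit 34735104) (nat_lit 54) (nat_lit 0) <| L.cons (nat_lit 34734112) (nat_lit 0) (nat_lit 48) <| L.cons (nat_lit 34701312) (nat_lit 0) (nat_lit 6) <| L.cons (nat_lit 34669568) (nat_lit 36) (nat_lit 0) <|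
  L.cons (nat_lit 34668576) (nat_lit 0) (nat_lit 24) <| L.cons (nat_lit 34635776) (nat_lit 0) (nat_lit 12) <| L.cons (nat_lit 33751041) (nat_lit 0) (nat_lit 3) <| L.cons (nat_lit 33719296) (nat_lit 36) (nat_lit 0) <| L.cons (nat_lit 33718304) (nat_lit 0) (nat_lit 36) <|
  L.cons (nat_lit 33685505) (nat_lit 0) (nat_lit 12) <| L.cons (nat_lit 33685504) (nat_lit 0) (nat_lit 24) <| L.cons (nat_lit 33653760) (nat_lit 0) (nat_lit 54) <| L.cons (nat_lit 33652768) (nat_lit 36) (nat_lit 0) <| L.cons (nat_lit 33619969) (nat_lit 0) (nat_lit 12) <|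
  L.cons (nat_lit 33619968) (nat_lit 0) (nat_lit 48) <| L.cons (nat_lit 33588224) (nat_lit 36) (nat_lit 0) <| L.cons (nat_lit 33587232) (nat_lit 0) (nat_lit 72) <| L.cons (nat_lit 3245056) (nat_lit 0) (nat_lit 9) <| L.cons (nat_lit 3244064) (nat_lit 3) (nat_lit 0) <|
  L.cons (nat_lit 3179520) (nat_lit 6) (nat_lit 0) <| L.cons (nat_lit 3178528) (nat_lit 0) (nat_lit 2) <| L.cons (nat_lit 2260993) (nat_lit 0) (nat_lit 3) <| L.cons (nat_lit 2260992) (nat_lit 6) (nat_lit 0) <| L.cons (nat_lit 2229248) (nat_lit 0) (nat_lit 39) <|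
  L.cons (nat_lit 2228256) (nat_lit 24) (nat_lit 0) <| L.cons (nat_lit 2195457) (nat_lit 0) (nat_lit 8) <| L.cons (nat_lit 2163712) (nat_lit 18) (nat_lit 0) <| L.cons (nat_lit 2162720) (nat_lit 0) (nat_lit 24) <| L.cons (nat_lit 2129921) (nat_lit 0) (nat_lit 4) <|
  L.cons (nat_lit 2129920) (nat_lit 8) (nat_lit 0) <| L.cons (nat_lit 1245185) (nat_lit 0) (nat_lit 7) <| L.cons (nat_lit 1245184) (nat_lit 17) (nat_lit 0) <| L.cons (nat_lit 1213440) (nat_lit 0) (nat_lit 54) <| L.cons (nat_lit 1212448) (nat_lit 51) (nat_lit 0) <|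
  L.cons (nat_lit 1179649) (nat_lit 0) (nat_lit 16) <| L.cons (nat_lit 1179648) (nat_lit 0) (nat_lit 4) <| L.cons (nat_lit 1147904) (nat_lit 72) (nat_lit 0) <| L.cons (nat_lit 1146912) (nat_lit 0) (nat_lit 78) <| L.cons (nat_lit 1114113) (nat_lit 0) (nat_lit 4) <|
  f27_5

/-- data -/
def f27_3 : L :=
  L.cons (nat_lit 34393326592) (nat_lit 108) (nat_lit 0) <| L.cons (nat_lit 34393325600) (nat_lit 0) (nat_lit 54) <| L.cons (nat_lit 34362917888) (nat_lit 18) (nat_lit 0) <| L.cons (nat_lit 34362916896) (nat_lit 0) (nat_lit 6) <| L.cons (nat_lit 34361933825) (nat_lit 12) (nat_lit 0) <|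
  L.cons (nat_lit 34361933824) (nat_lit 0) (nat_lit 18) <| L.cons (nat_lit 34361902080) (nat_lit 81) (nat_lit 0) <| L.cons (nat_lit 34361901088) (nat_lit 0) (nat_lit 45) <| L.cons (nat_lit 34361868289) (nat_lit 12) (nat_lit 0) <| L.cons (nat_lit 34361868288) (nat_lit 0) (nat_lit 24) <|
  L.cons (nat_lit 34360918017) (nat_lit 24) (nat_lit 0) <| L.cons (nat_lit 34360918016) (nat_lit 0) (nat_lit 48) <| L.cons (nat_lit 34360886272) (nat_lit 108) (nat_lit 0) <| L.cons (nat_lit 34360885280) (nat_lit 0) (nat_lit 90) <| L.cons (nat_lit 34360852481) (nat_lit 12) (nat_lit 0) <|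
  L.cons (nat_lit 34360852480) (nat_lit 0) (nat_lit 60) <| L.cons (nat_lit 34360820736) (nat_lit 0) (nat_lit 54) <| L.cons (nat_lit 34360819744) (nat_lit 18) (nat_lit 0) <| L.cons (nat_lit 34359902208) (nat_lit 0) (nat_lit 18) <| L.cons (nat_lit 34359870464) (nat_lit 48) (nat_lit 0) <|
  L.cons (nat_lit 34359869472) (nat_lit 0) (nat_lit 33) <| L.cons (nat_lit 34359836673) (nat_lit 0) (nat_lit 108) <| L.cons (nat_lit 34359804928) (nat_lit 0) (nat_lit 120) <| L.cons (nat_lit 34359803936) (nat_lit 42) (nat_lit 0) <| L.cons (nat_lit 34359771137) (nat_lit 0) (nat_lit 72) <|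
  L.cons (nat_lit 34359771136) (nat_lit 72) (nat_lit 0) <| L.cons (nat_lit 1108443137) (nat_lit 12) (nat_lit 0) <| L.cons (nat_lit 1108443136) (nat_lit 3) (nat_lit 0) <| L.cons (nat_lit 1108377601) (nat_lit 24) (nat_lit 0) <| L.cons (nat_lit 1108377600) (nat_lit 6) (nat_lit 0) <|
  L.cons (nat_lit 1107427329) (nat_lit 12) (nat_lit 0) <| L.cons (nat_lit 1107427328) (nat_lit 3) (nat_lit 0) <| L.cons (nat_lit 1107361793) (nat_lit 24) (nat_lit 0) <| L.cons (nat_lit 1107361792) (nat_lit 6) (nat_lit 0) <| L.cons (nat_lit 1075937281) (nat_lit 0) (nat_lit 11) <|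
  L.cons (nat_lit 1075937280) (nat_lit 0) (nat_lit 2) <| L.cons (nat_lit 1075871745) (nat_lit 10) (nat_lit 0) <| L.cons (nat_lit 1075871744) (nat_lit 4) (nat_lit 0) <| L.cons (nat_lit 1074921473) (nat_lit 0) (nat_lit 33) <| L.cons (nat_lit 1074921472) (nat_lit 0) (nat_lit 6) <|
  L.cons (nat_lit 1074855937) (nat_lit 30) (nat_lit 0) <| L.cons (nat_lit 1074855936) (nat_lit 12) (nat_lit 0) <| L.cons (nat_lit 1073905665) (nat_lit 0) (nat_lit 21) <| L.cons (nat_lit 1073905664) (nat_lit 0) (nat_lit 3) <| L.cons (nat_lit 1073840129) (nat_lit 96) (nat_lit 0) <|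
  L.cons (nat_lit 1073840128) (nat_lit 24) (nat_lit 0) <| L.cons (nat_lit 1073774593) (nat_lit 0) (nat_lit 108) <| L.cons (nat_lit 1073774592) (nat_lit 0) (nat_lit 36) <| L.cons (nat_lit 68256768) (nat_lit 0) (nat_lit 9) <| L.cons (nat_lit 68255776) (nat_lit 9) (nat_lit 0) <|
  f27_4

/-- data -/
def f27_2 : L :=
  L.cons (nat_lit 1099512710144) (nat_lit 0) (nat_lit 36) <| L.cons (nat_lit 1099512709152) (nat_lit 12) (nat_lit 0) <| L.cons (nat_lit 1099511791617) (nat_lit 6) (nat_lit 0) <| L.cons (nat_lit 1099511759872) (nat_lit 12) (nat_lit 0) <| L.cons (nat_lit 1099511758880) (nat_lit 0) (nat_lit 6) <|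
  L.cons (nat_lit 1099511726081) (nat_lit 16) (nat_lit 0) <| L.cons (nat_lit 1099511726080) (nat_lit 32) (nat_lit 0) <| L.cons (nat_lit 1099511694336) (nat_lit 0) (nat_lit 24) <| L.cons (nat_lit 1099511693344) (nat_lit 84) (nat_lit 0) <| L.cons (nat_lit 1099511660545) (nat_lit 8) (nat_lit 0) <|
  L.cons (nat_lit 68754112512) (nat_lit 0) (nat_lit 27) <| L.cons (nat_lit 68753096705) (nat_lit 0) (nat_lit 27) <| L.cons (nat_lit 68753096704) (nat_lit 0) (nat_lit 27) <| L.cons (nat_lit 68721606657) (nat_lit 0) (nat_lit 9) <| L.cons (nat_lit 68721606656) (nat_lit 18) (nat_lit 0) <|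
  L.cons (nat_lit 68720590849) (nat_lit 0) (nat_lit 9) <| L.cons (nat_lit 68720590848) (nat_lit 45) (nat_lit 0) <| L.cons (nat_lit 68719575041) (nat_lit 27) (nat_lit 0) <| L.cons (nat_lit 68719575040) (nat_lit 27) (nat_lit 0) <| L.cons (nat_lit 68719543296) (nat_lit 9) (nat_lit 0) <|
  L.cons (nat_lit 68719542304) (nat_lit 9) (nat_lit 0) <| L.cons (nat_lit 68719509505) (nat_lit 54) (nat_lit 0) <| L.cons (nat_lit 68719509504) (nat_lit 0) (nat_lit 54) <| L.cons (nat_lit 35468115969) (nat_lit 0) (nat_lit 36) <| L.cons (nat_lit 35468115968) (nat_lit 0) (nat_lit 9) <|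
  L.cons (nat_lit 35467100161) (nat_lit 0) (nat_lit 36) <| L.cons (nat_lit 35467100160) (nat_lit 0) (nat_lit 9) <| L.cons (nat_lit 35435610113) (nat_lit 21) (nat_lit 0) <| L.cons (nat_lit 35435610112) (nat_lit 3) (nat_lit 0) <| L.cons (nat_lit 35434594305) (nat_lit 63) (nat_lit 0) <|
  L.cons (nat_lit 35434594304) (nat_lit 9) (nat_lit 0) <| L.cons (nat_lit 35433578497) (nat_lit 27) (nat_lit 0) <| L.cons (nat_lit 35433512961) (nat_lit 0) (nat_lit 54) <| L.cons (nat_lit 34427929600) (nat_lit 27) (nat_lit 0) <| L.cons (nat_lit 34427928608) (nat_lit 0) (nat_lit 27) <|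
  L.cons (nat_lit 34426913792) (nat_lit 27) (nat_lit 0) <| L.cons (nat_lit 34426912800) (nat_lit 0) (nat_lit 27) <| L.cons (nat_lit 34395455488) (nat_lit 0) (nat_lit 9) <| L.cons (nat_lit 34395423744) (nat_lit 0) (nat_lit 54) <| L.cons (nat_lit 34395422752) (nat_lit 27) (nat_lit 0) <|
  L.cons (nat_lit 34394439680) (nat_lit 9) (nat_lit 0) <| L.cons (nat_lit 34394407936) (nat_lit 0) (nat_lit 135) <| L.cons (nat_lit 34394406944) (nat_lit 117) (nat_lit 0) <| L.cons (nat_lit 34394374144) (nat_lit 36) (nat_lit 0) <| L.cons (nat_lit 34393423873) (nat_lit 18) (nat_lit 0) <|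
  L.cons (nat_lit 34393423872) (nat_lit 9) (nat_lit 0) <| L.cons (nat_lit 34393392128) (nat_lit 0) (nat_lit 81) <| L.cons (nat_lit 34393391136) (nat_lit 81) (nat_lit 0) <| L.cons (nat_lit 34393358337) (nat_lit 36) (nat_lit 0) <| L.cons (nat_lit 34393358336) (nat_lit 90) (nat_lit 0) <|
  f27_3

/-- data -/
def f27_1 : L :=
  L.cons (nat_lit 35184405741569) (nat_lit 0) (nat_lit 12) <| L.cons (nat_lit 35184405709824) (nat_lit 36) (nat_lit 0) <| L.cons (nat_lit 35184405708832) (nat_lit 0) (nat_lit 36) <| L.cons (nat_lit 35184405676033) (nat_lit 0) (nat_lit 24) <| L.cons (nat_lit 35184405676032) (nat_lit 0) (nat_lit 48) <|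
  L.cons (nat_lit 35184405644288) (nat_lit 0) (nat_lit 36) <| L.cons (nat_lit 35184375235584) (nat_lit 0) (nat_lit 6) <| L.cons (nat_lit 35184375234592) (nat_lit 2) (nat_lit 0) <| L.cons (nat_lit 35184374251521) (nat_lit 0) (nat_lit 6) <| L.cons (nat_lit 35184374219776) (nat_lit 0) (nat_lit 30) <|
  L.cons (nat_lit 35184374218784) (nat_lit 12) (nat_lit 0) <| L.cons (nat_lit 35184374185985) (nat_lit 0) (nat_lit 4) <| L.cons (nat_lit 35184374185984) (nat_lit 16) (nat_lit 0) <| L.cons (nat_lit 35184373235713) (nat_lit 0) (nat_lit 10) <| L.cons (nat_lit 35184373235712) (nat_lit 0) (nat_lit 4) <|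
  L.cons (nat_lit 35184373203968) (nat_lit 0) (nat_lit 36) <| L.cons (nat_lit 35184373202976) (nat_lit 18) (nat_lit 0) <| L.cons (nat_lit 35184373170177) (nat_lit 4) (nat_lit 0) <| L.cons (nat_lit 35184373170176) (nat_lit 40) (nat_lit 0) <| L.cons (nat_lit 35184372219905) (nat_lit 6) (nat_lit 0) <|
  L.cons (nat_lit 35184372219904) (nat_lit 0) (nat_lit 18) <| L.cons (nat_lit 35184372188160) (nat_lit 0) (nat_lit 14) <| L.cons (nat_lit 35184372187168) (nat_lit 0) (nat_lit 14) <| L.cons (nat_lit 35184372154369) (nat_lit 72) (nat_lit 0) <| L.cons (nat_lit 35184372154368) (nat_lit 72) (nat_lit 0) <|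
  L.cons (nat_lit 35184372122624) (nat_lit 44) (nat_lit 0) <| L.cons (nat_lit 35184372121632) (nat_lit 44) (nat_lit 0) <| L.cons (nat_lit 35184372088833) (nat_lit 24) (nat_lit 0) <| L.cons (nat_lit 35184372088832) (nat_lit 0) (nat_lit 72) <| L.cons (nat_lit 1168231137281) (nat_lit 18) (nat_lit 0) <|
  L.cons (nat_lit 1134945140737) (nat_lit 6) (nat_lit 0) <| L.cons (nat_lit 1134945140736) (nat_lit 6) (nat_lit 0) <| L.cons (nat_lit 1133904986112) (nat_lit 18) (nat_lit 0) <| L.cons (nat_lit 1133904954368) (nat_lit 18) (nat_lit 0) <| L.cons (nat_lit 1133871464449) (nat_lit 0) (nat_lit 24) <|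
  L.cons (nat_lit 1133871464448) (nat_lit 0) (nat_lit 12) <| L.cons (nat_lit 1133871432704) (nat_lit 0) (nat_lit 18) <| L.cons (nat_lit 1133871431712) (nat_lit 0) (nat_lit 18) <| L.cons (nat_lit 1133871398913) (nat_lit 0) (nat_lit 24) <| L.cons (nat_lit 1100585467905) (nat_lit 6) (nat_lit 0) <|
  L.cons (nat_lit 1100585402369) (nat_lit 0) (nat_lit 52) <| L.cons (nat_lit 1100585402368) (nat_lit 0) (nat_lit 16) <| L.cons (nat_lit 1099545313280) (nat_lit 0) (nat_lit 6) <| L.cons (nat_lit 1099545281536) (nat_lit 0) (nat_lit 12) <| L.cons (nat_lit 1099545280544) (nat_lit 6) (nat_lit 0) <|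
  L.cons (nat_lit 1099545247744) (nat_lit 0) (nat_lit 12) <| L.cons (nat_lit 1099545216000) (nat_lit 24) (nat_lit 0) <| L.cons (nat_lit 1099545215008) (nat_lit 0) (nat_lit 36) <| L.cons (nat_lit 1099512775680) (nat_lit 6) (nat_lit 0) <| L.cons (nat_lit 1099512774688) (nat_lit 0) (nat_lit 2) <|
  f27_2

/-- data -/
def f27 : L :=
  L.cons (nat_lit 70368777732097) (nat_lit 0) (nat_lit 12) <| L.cons (nat_lit 70368745226241) (nat_lit 8) (nat_lit 0) <| L.cons (nat_lit 70368745226240) (nat_lit 0) (nat_lit 4) <| L.cons (nat_lit 70368744210433) (nat_lit 24) (nat_lit 0) <| L.cons (nat_lit 70368744178688) (nat_lit 4) (nat_lit 0) <|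
  L.cons (nat_lit 70368744177696) (nat_lit 4) (nat_lit 0) <| L.cons (nat_lit 36318243454977) (nat_lit 0) (nat_lit 12) <| L.cons (nat_lit 36318243454976) (nat_lit 0) (nat_lit 12) <| L.cons (nat_lit 36284957458433) (nat_lit 0) (nat_lit 20) <| L.cons (nat_lit 36284957458432) (nat_lit 0) (nat_lit 8) <|
  L.cons (nat_lit 36283917303808) (nat_lit 0) (nat_lit 12) <| L.cons (nat_lit 36283917271072) (nat_lit 0) (nat_lit 12) <| L.cons (nat_lit 36283884766208) (nat_lit 0) (nat_lit 12) <| L.cons (nat_lit 36283884765216) (nat_lit 4) (nat_lit 0) <| L.cons (nat_lit 36283883782145) (nat_lit 12) (nat_lit 0) <|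
  L.cons (nat_lit 36283883782144) (nat_lit 24) (nat_lit 0) <| L.cons (nat_lit 36283883749408) (nat_lit 36) (nat_lit 0) <| L.cons (nat_lit 36283883716609) (nat_lit 8) (nat_lit 0) <| L.cons (nat_lit 36283883716608) (nat_lit 0) (nat_lit 16) <| L.cons (nat_lit 35218766430208) (nat_lit 18) (nat_lit 0) <|
  L.cons (nat_lit 35218765414401) (nat_lit 36) (nat_lit 0) <| L.cons (nat_lit 35218765414400) (nat_lit 18) (nat_lit 0) <| L.cons (nat_lit 35218733924353) (nat_lit 6) (nat_lit 0) <| L.cons (nat_lit 35218733924352) (nat_lit 0) (nat_lit 6) <| L.cons (nat_lit 35218732908545) (nat_lit 0) (nat_lit 6) <|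
  L.cons (nat_lit 35218732908544) (nat_lit 0) (nat_lit 6) <| L.cons (nat_lit 35218731892737) (nat_lit 0) (nat_lit 54) <| L.cons (nat_lit 35218731860992) (nat_lit 0) (nat_lit 12) <| L.cons (nat_lit 35218731860000) (nat_lit 0) (nat_lit 12) <| L.cons (nat_lit 35218731827201) (nat_lit 0) (nat_lit 36) <|
  L.cons (nat_lit 35185480433665) (nat_lit 24) (nat_lit 0) <| L.cons (nat_lit 35185480433664) (nat_lit 6) (nat_lit 0) <| L.cons (nat_lit 35185479417857) (nat_lit 24) (nat_lit 0) <| L.cons (nat_lit 35185479417856) (nat_lit 6) (nat_lit 0) <| L.cons (nat_lit 35185447927809) (nat_lit 0) (nat_lit 6) <|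
  L.cons (nat_lit 35185446912001) (nat_lit 0) (nat_lit 18) <| L.cons (nat_lit 35185445896193) (nat_lit 6) (nat_lit 0) <| L.cons (nat_lit 35185445896192) (nat_lit 6) (nat_lit 0) <| L.cons (nat_lit 35185445830657) (nat_lit 0) (nat_lit 12) <| L.cons (nat_lit 35185445830656) (nat_lit 0) (nat_lit 12) <|
  L.cons (nat_lit 35184440247296) (nat_lit 0) (nat_lit 18) <| L.cons (nat_lit 35184440246304) (nat_lit 18) (nat_lit 0) <| L.cons (nat_lit 35184439231488) (nat_lit 0) (nat_lit 18) <| L.cons (nat_lit 35184439230496) (nat_lit 18) (nat_lit 0) <| L.cons (nat_lit 35184407773184) (nat_lit 6) (nat_lit 0) <|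
  L.cons (nat_lit 35184407741440) (nat_lit 30) (nat_lit 0) <| L.cons (nat_lit 35184407740448) (nat_lit 0) (nat_lit 12) <| L.cons (nat_lit 35184406725632) (nat_lit 72) (nat_lit 0) <| L.cons (nat_lit 35184406724640) (nat_lit 0) (nat_lit 60) <| L.cons (nat_lit 35184406691840) (nat_lit 0) (nat_lit 12) <|
  f27_1

/-- data -/
def f28_6 : L :=
  L.cons (nat_lit 3179520) (nat_lit 6) (nat_lit 0) <| L.cons (nat_lit 3178528) (nat_lit 10) (nat_lit 0) <| L.cons (nat_lit 3145729) (nat_lit 4) (nat_lit 0) <| L.cons (nat_lit 3145728) (nat_lit 0) (nat_lit 12) <| L.cons (nat_lit 2260993) (nat_lit 36) (nat_lit 0) <|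
  L.cons (nat_lit 2229248) (nat_lit 33) (nat_lit 0) <| L.cons (nat_lit 2228256) (nat_lit 15) (nat_lit 0) <| L.cons (nat_lit 2195457) (nat_lit 12) (nat_lit 0) <| L.cons (nat_lit 2195456) (nat_lit 38) (nat_lit 0) <| L.cons (nat_lit 2163712) (nat_lit 30) (nat_lit 0) <|
  L.cons (nat_lit 2162720) (nat_lit 42) (nat_lit 0) <| L.cons (nat_lit 2129921) (nat_lit 24) (nat_lit 0) <| L.cons (nat_lit 2129920) (nat_lit 0) (nat_lit 84) <| L.cons (nat_lit 1245185) (nat_lit 50) (nat_lit 0) <| L.cons (nat_lit 1245184) (nat_lit 2) (nat_lit 0) <|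
  L.cons (nat_lit 1213440) (nat_lit 42) (nat_lit 0) <| L.cons (nat_lit 1212448) (nat_lit 30) (nat_lit 0) <| L.cons (nat_lit 1179649) (nat_lit 0) (nat_lit 58) <| L.cons (nat_lit 1179648) (nat_lit 110) (nat_lit 0) <| L.cons (nat_lit 1147904) (nat_lit 0) (nat_lit 8) <|
  L.cons (nat_lit 1146912) (nat_lit 40) (nat_lit 0) <| L.cons (nat_lit 1114113) (nat_lit 0) (nat_lit 72) <| L.cons (nat_lit 1114112) (nat_lit 0) (nat_lit 168) <| L.cons (nat_lit 1082368) (nat_lit 0) (nat_lit 40) <| L.cons (nat_lit 1081376) (nat_lit 0) (nat_lit 88) <|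
  L.cons (nat_lit 1048577) (nat_lit 0) (nat_lit 24) <| L.cons (nat_lit 1048576) (nat_lit 72) (nat_lit 0) <| L.cons (nat_lit 229377) (nat_lit 24) (nat_lit 0) <| L.cons (nat_lit 197632) (nat_lit 16) (nat_lit 0) <| L.cons (nat_lit 196640) (nat_lit 16) (nat_lit 0) <|
  L.cons (nat_lit 163841) (nat_lit 0) (nat_lit 72) <| L.cons (nat_lit 163840) (nat_lit 48) (nat_lit 0) <| L.cons (nat_lit 132096) (nat_lit 0) (nat_lit 56) <| L.cons (nat_lit 131104) (nat_lit 0) (nat_lit 56) <| L.cons (nat_lit 98305) (nat_lit 96) (nat_lit 0) <|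
  L.cons (nat_lit 98304) (nat_lit 0) (nat_lit 192) <| L.cons (nat_lit 66560) (nat_lit 48) (nat_lit 0) <| L.cons (nat_lit 65568) (nat_lit 48) (nat_lit 0) <| L.cons (nat_lit 32769) (nat_lit 0) (nat_lit 96) <| L.cons (nat_lit 32768) (nat_lit 192) (nat_lit 0) <|
  L.nil

/-- data -/
def f28_5 : L :=
  L.cons (nat_lit 68288512) (nat_lit 0) (nat_lit 9) <| L.cons (nat_lit 68256768) (nat_lit 0) (nat_lit 9) <| L.cons (nat_lit 68255776) (nat_lit 9) (nat_lit 0) <| L.cons (nat_lit 68222977) (nat_lit 18) (nat_lit 0) <| L.cons (nat_lit 68222976) (nat_lit 54) (nat_lit 0) <|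
  L.cons (nat_lit 68191232) (nat_lit 54) (nat_lit 0) <| L.cons (nat_lit 68190240) (nat_lit 18) (nat_lit 0) <| L.cons (nat_lit 67272705) (nat_lit 9) (nat_lit 0) <| L.cons (nat_lit 67272704) (nat_lit 0) (nat_lit 9) <| L.cons (nat_lit 67240960) (nat_lit 0) (nat_lit 9) <|
  L.cons (nat_lit 67239968) (nat_lit 9) (nat_lit 0) <| L.cons (nat_lit 67207169) (nat_lit 18) (nat_lit 0) <| L.cons (nat_lit 67207168) (nat_lit 54) (nat_lit 0) <| L.cons (nat_lit 67175424) (nat_lit 54) (nat_lit 0) <| L.cons (nat_lit 67174432) (nat_lit 18) (nat_lit 0) <|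
  L.cons (nat_lit 36798464) (nat_lit 0) (nat_lit 9) <| L.cons (nat_lit 36766720) (nat_lit 0) (nat_lit 9) <| L.cons (nat_lit 36732928) (nat_lit 0) (nat_lit 6) <| L.cons (nat_lit 36701184) (nat_lit 0) (nat_lit 6) <| L.cons (nat_lit 35782657) (nat_lit 0) (nat_lit 9) <|
  L.cons (nat_lit 35782656) (nat_lit 0) (nat_lit 15) <| L.cons (nat_lit 35750912) (nat_lit 0) (nat_lit 24) <| L.cons (nat_lit 35749920) (nat_lit 0) (nat_lit 3) <| L.cons (nat_lit 35717121) (nat_lit 6) (nat_lit 0) <| L.cons (nat_lit 35717120) (nat_lit 0) (nat_lit 18) <|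
  L.cons (nat_lit 35685376) (nat_lit 0) (nat_lit 36) <| L.cons (nat_lit 35684384) (nat_lit 18) (nat_lit 0) <| L.cons (nat_lit 34766849) (nat_lit 0) (nat_lit 27) <| L.cons (nat_lit 34735104) (nat_lit 0) (nat_lit 18) <| L.cons (nat_lit 34734112) (nat_lit 0) (nat_lit 21) <|
  L.cons (nat_lit 34701313) (nat_lit 0) (nat_lit 30) <| L.cons (nat_lit 34701312) (nat_lit 0) (nat_lit 96) <| L.cons (nat_lit 34669568) (nat_lit 0) (nat_lit 90) <| L.cons (nat_lit 34668576) (nat_lit 0) (nat_lit 42) <| L.cons (nat_lit 34635776) (nat_lit 96) (nat_lit 0) <|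
  L.cons (nat_lit 34604032) (nat_lit 36) (nat_lit 0) <| L.cons (nat_lit 33751041) (nat_lit 0) (nat_lit 21) <| L.cons (nat_lit 33751040) (nat_lit 9) (nat_lit 0) <| L.cons (nat_lit 33718304) (nat_lit 0) (nat_lit 18) <| L.cons (nat_lit 33685505) (nat_lit 0) (nat_lit 48) <|
  L.cons (nat_lit 33685504) (nat_lit 0) (nat_lit 96) <| L.cons (nat_lit 33653760) (nat_lit 0) (nat_lit 72) <| L.cons (nat_lit 33619969) (nat_lit 0) (nat_lit 12) <| L.cons (nat_lit 33619968) (nat_lit 60) (nat_lit 0) <| L.cons (nat_lit 33587232) (nat_lit 0) (nat_lit 72) <|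
  L.cons (nat_lit 3276801) (nat_lit 9) (nat_lit 0) <| L.cons (nat_lit 3245056) (nat_lit 9) (nat_lit 0) <| L.cons (nat_lit 3244064) (nat_lit 3) (nat_lit 0) <| L.cons (nat_lit 3211265) (nat_lit 12) (nat_lit 0) <| L.cons (nat_lit 3211264) (nat_lit 0) (nat_lit 6) <|
  f28_6

/-- data -/
def f28_4 : L :=
  L.cons (nat_lit 34361902080) (nat_lit 0) (nat_lit 45) <| L.cons (nat_lit 34361901088) (nat_lit 0) (nat_lit 9) <| L.cons (nat_lit 34360918017) (nat_lit 0) (nat_lit 102) <| L.cons (nat_lit 34360918016) (nat_lit 0) (nat_lit 30) <| L.cons (nat_lit 34360886272) (nat_lit 0) (nat_lit 69) <|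
  L.cons (nat_lit 34360885280) (nat_lit 0) (nat_lit 51) <| L.cons (nat_lit 34360852481) (nat_lit 144) (nat_lit 0) <| L.cons (nat_lit 34360852480) (nat_lit 0) (nat_lit 54) <| L.cons (nat_lit 34360820736) (nat_lit 66) (nat_lit 0) <| L.cons (nat_lit 34360819744) (nat_lit 30) (nat_lit 0) <|
  L.cons (nat_lit 34360786945) (nat_lit 72) (nat_lit 0) <| L.cons (nat_lit 34360786944) (nat_lit 0) (nat_lit 108) <| L.cons (nat_lit 34359902209) (nat_lit 0) (nat_lit 54) <| L.cons (nat_lit 34359902208) (nat_lit 0) (nat_lit 18) <| L.cons (nat_lit 34359870464) (nat_lit 0) (nat_lit 24) <|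
  L.cons (nat_lit 34359869472) (nat_lit 0) (nat_lit 24) <| L.cons (nat_lit 34359836673) (nat_lit 108) (nat_lit 0) <| L.cons (nat_lit 34359804928) (nat_lit 36) (nat_lit 0) <| L.cons (nat_lit 34359803936) (nat_lit 36) (nat_lit 0) <| L.cons (nat_lit 34359771137) (nat_lit 0) (nat_lit 144) <|
  L.cons (nat_lit 34359771136) (nat_lit 72) (nat_lit 0) <| L.cons (nat_lit 1108443137) (nat_lit 3) (nat_lit 0) <| L.cons (nat_lit 1108443136) (nat_lit 3) (nat_lit 0) <| L.cons (nat_lit 1108377601) (nat_lit 30) (nat_lit 0) <| L.cons (nat_lit 1108377600) (nat_lit 30) (nat_lit 0) <|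
  L.cons (nat_lit 1107427329) (nat_lit 3) (nat_lit 0) <| L.cons (nat_lit 1107427328) (nat_lit 3) (nat_lit 0) <| L.cons (nat_lit 1107361793) (nat_lit 30) (nat_lit 0) <| L.cons (nat_lit 1107361792) (nat_lit 30) (nat_lit 0) <| L.cons (nat_lit 1076953089) (nat_lit 0) (nat_lit 3) <|
  L.cons (nat_lit 1076953088) (nat_lit 0) (nat_lit 3) <| L.cons (nat_lit 1076887553) (nat_lit 0) (nat_lit 2) <| L.cons (nat_lit 1076887552) (nat_lit 0) (nat_lit 2) <| L.cons (nat_lit 1075937281) (nat_lit 0) (nat_lit 14) <| L.cons (nat_lit 1075937280) (nat_lit 0) (nat_lit 14) <|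
  L.cons (nat_lit 1075871745) (nat_lit 0) (nat_lit 8) <| L.cons (nat_lit 1075871744) (nat_lit 0) (nat_lit 8) <| L.cons (nat_lit 1074921473) (nat_lit 0) (nat_lit 24) <| L.cons (nat_lit 1074921472) (nat_lit 0) (nat_lit 24) <| L.cons (nat_lit 1074855937) (nat_lit 6) (nat_lit 0) <|
  L.cons (nat_lit 1074855936) (nat_lit 6) (nat_lit 0) <| L.cons (nat_lit 1074790401) (nat_lit 12) (nat_lit 0) <| L.cons (nat_lit 1074790400) (nat_lit 12) (nat_lit 0) <| L.cons (nat_lit 1073905665) (nat_lit 0) (nat_lit 12) <| L.cons (nat_lit 1073905664) (nat_lit 0) (nat_lit 12) <|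
  L.cons (nat_lit 1073840129) (nat_lit 48) (nat_lit 0) <| L.cons (nat_lit 1073840128) (nat_lit 48) (nat_lit 0) <| L.cons (nat_lit 1073774593) (nat_lit 0) (nat_lit 48) <| L.cons (nat_lit 1073774592) (nat_lit 0) (nat_lit 48) <| L.cons (nat_lit 68288513) (nat_lit 9) (nat_lit 0) <|
  f28_5

/-- data -/
def f28_3 : L :=
  L.cons (nat_lit 68720525313) (nat_lit 0) (nat_lit 54) <| L.cons (nat_lit 68719575041) (nat_lit 27) (nat_lit 0) <| L.cons (nat_lit 68719575040) (nat_lit 27) (nat_lit 0) <| L.cons (nat_lit 68719509505) (nat_lit 0) (nat_lit 54) <| L.cons (nat_lit 68719509504) (nat_lit 0) (nat_lit 54) <|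
  L.cons (nat_lit 35468115969) (nat_lit 0) (nat_lit 18) <| L.cons (nat_lit 35468115968) (nat_lit 0) (nat_lit 18) <| L.cons (nat_lit 35467100161) (nat_lit 0) (nat_lit 18) <| L.cons (nat_lit 35467100160) (nat_lit 0) (nat_lit 18) <| L.cons (nat_lit 35436625921) (nat_lit 3) (nat_lit 0) <|
  L.cons (nat_lit 35436625920) (nat_lit 3) (nat_lit 0) <| L.cons (nat_lit 35435610113) (nat_lit 21) (nat_lit 0) <| L.cons (nat_lit 35435610112) (nat_lit 21) (nat_lit 0) <| L.cons (nat_lit 35434594305) (nat_lit 45) (nat_lit 0) <| L.cons (nat_lit 35434594304) (nat_lit 45) (nat_lit 0) <|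
  L.cons (nat_lit 35434528769) (nat_lit 0) (nat_lit 18) <| L.cons (nat_lit 35434528768) (nat_lit 0) (nat_lit 18) <| L.cons (nat_lit 35433578497) (nat_lit 18) (nat_lit 0) <| L.cons (nat_lit 35433578496) (nat_lit 18) (nat_lit 0) <| L.cons (nat_lit 35433512961) (nat_lit 0) (nat_lit 36) <|
  L.cons (nat_lit 35433512960) (nat_lit 0) (nat_lit 36) <| L.cons (nat_lit 34427961345) (nat_lit 0) (nat_lit 27) <| L.cons (nat_lit 34427928608) (nat_lit 0) (nat_lit 27) <| L.cons (nat_lit 34426945537) (nat_lit 0) (nat_lit 27) <| L.cons (nat_lit 34426912800) (nat_lit 0) (nat_lit 27) <|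
  L.cons (nat_lit 34396471296) (nat_lit 9) (nat_lit 0) <| L.cons (nat_lit 34396439552) (nat_lit 9) (nat_lit 0) <| L.cons (nat_lit 34395455489) (nat_lit 18) (nat_lit 0) <| L.cons (nat_lit 34395423744) (nat_lit 27) (nat_lit 0) <| L.cons (nat_lit 34394439681) (nat_lit 72) (nat_lit 0) <|
  L.cons (nat_lit 34394439680) (nat_lit 9) (nat_lit 0) <| L.cons (nat_lit 34394407936) (nat_lit 54) (nat_lit 0) <| L.cons (nat_lit 34394406944) (nat_lit 63) (nat_lit 0) <| L.cons (nat_lit 34394374144) (nat_lit 36) (nat_lit 0) <| L.cons (nat_lit 34394342400) (nat_lit 0) (nat_lit 54) <|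
  L.cons (nat_lit 34393423873) (nat_lit 72) (nat_lit 0) <| L.cons (nat_lit 34393423872) (nat_lit 9) (nat_lit 0) <| L.cons (nat_lit 34393392128) (nat_lit 27) (nat_lit 0) <| L.cons (nat_lit 34393391136) (nat_lit 54) (nat_lit 0) <| L.cons (nat_lit 34393358337) (nat_lit 36) (nat_lit 0) <|
  L.cons (nat_lit 34393358336) (nat_lit 90) (nat_lit 0) <| L.cons (nat_lit 34393325600) (nat_lit 0) (nat_lit 54) <| L.cons (nat_lit 34362949633) (nat_lit 0) (nat_lit 18) <| L.cons (nat_lit 34362949632) (nat_lit 9) (nat_lit 0) <| L.cons (nat_lit 34362917888) (nat_lit 0) (nat_lit 9) <|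
  L.cons (nat_lit 34362916896) (nat_lit 3) (nat_lit 0) <| L.cons (nat_lit 34362884097) (nat_lit 0) (nat_lit 12) <| L.cons (nat_lit 34362884096) (nat_lit 18) (nat_lit 0) <| L.cons (nat_lit 34361933825) (nat_lit 0) (nat_lit 72) <| L.cons (nat_lit 34361933824) (nat_lit 6) (nat_lit 0) <|
  f28_4

/-- data -/
def f28_2 : L :=
  L.cons (nat_lit 1100586483713) (nat_lit 6) (nat_lit 0) <| L.cons (nat_lit 1100586483712) (nat_lit 6) (nat_lit 0) <| L.cons (nat_lit 1100586418177) (nat_lit 4) (nat_lit 0) <| L.cons (nat_lit 1100586418176) (nat_lit 4) (nat_lit 0) <| L.cons (nat_lit 1100585467905) (nat_lit 6) (nat_lit 0) <|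
  L.cons (nat_lit 1100585467904) (nat_lit 6) (nat_lit 0) <| L.cons (nat_lit 1100585402369) (nat_lit 0) (nat_lit 36) <| L.cons (nat_lit 1100585402368) (nat_lit 0) (nat_lit 36) <| L.cons (nat_lit 1099546329088) (nat_lit 12) (nat_lit 0) <| L.cons (nat_lit 1099546297344) (nat_lit 18) (nat_lit 0) <|
  L.cons (nat_lit 1099546231808) (nat_lit 12) (nat_lit 0) <| L.cons (nat_lit 1099545313281) (nat_lit 6) (nat_lit 0) <| L.cons (nat_lit 1099545281536) (nat_lit 6) (nat_lit 0) <| L.cons (nat_lit 1099545280544) (nat_lit 6) (nat_lit 0) <| L.cons (nat_lit 1099545247745) (nat_lit 0) (nat_lit 36) <|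
  L.cons (nat_lit 1099545247744) (nat_lit 0) (nat_lit 48) <| L.cons (nat_lit 1099545216000) (nat_lit 0) (nat_lit 36) <| L.cons (nat_lit 1099545215008) (nat_lit 0) (nat_lit 36) <| L.cons (nat_lit 1099513823232) (nat_lit 6) (nat_lit 0) <| L.cons (nat_lit 1099513757696) (nat_lit 0) (nat_lit 4) <|
  L.cons (nat_lit 1099512807425) (nat_lit 0) (nat_lit 18) <| L.cons (nat_lit 1099512807424) (nat_lit 6) (nat_lit 0) <| L.cons (nat_lit 1099512775680) (nat_lit 0) (nat_lit 18) <| L.cons (nat_lit 1099512774688) (nat_lit 0) (nat_lit 14) <| L.cons (nat_lit 1099512741889) (nat_lit 0) (nat_lit 24) <|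
  L.cons (nat_lit 1099512741888) (nat_lit 0) (nat_lit 24) <| L.cons (nat_lit 1099512710144) (nat_lit 0) (nat_lit 12) <| L.cons (nat_lit 1099512709152) (nat_lit 0) (nat_lit 36) <| L.cons (nat_lit 1099512676353) (nat_lit 0) (nat_lit 8) <| L.cons (nat_lit 1099512676352) (nat_lit 24) (nat_lit 0) <|
  L.cons (nat_lit 1099511791617) (nat_lit 0) (nat_lit 18) <| L.cons (nat_lit 1099511791616) (nat_lit 6) (nat_lit 0) <| L.cons (nat_lit 1099511759872) (nat_lit 0) (nat_lit 12) <| L.cons (nat_lit 1099511758880) (nat_lit 0) (nat_lit 12) <| L.cons (nat_lit 1099511726081) (nat_lit 112) (nat_lit 0) <|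
  L.cons (nat_lit 1099511726080) (nat_lit 0) (nat_lit 16) <| L.cons (nat_lit 1099511694336) (nat_lit 72) (nat_lit 0) <| L.cons (nat_lit 1099511693344) (nat_lit 72) (nat_lit 0) <| L.cons (nat_lit 1099511660545) (nat_lit 0) (nat_lit 24) <| L.cons (nat_lit 1099511660544) (nat_lit 72) (nat_lit 0) <|
  L.cons (nat_lit 68754112512) (nat_lit 0) (nat_lit 27) <| L.cons (nat_lit 68753096705) (nat_lit 0) (nat_lit 27) <| L.cons (nat_lit 68753096704) (nat_lit 0) (nat_lit 27) <| L.cons (nat_lit 68722622465) (nat_lit 9) (nat_lit 0) <| L.cons (nat_lit 68721606657) (nat_lit 27) (nat_lit 0) <|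
  L.cons (nat_lit 68721606656) (nat_lit 27) (nat_lit 0) <| L.cons (nat_lit 68720590849) (nat_lit 27) (nat_lit 0) <| L.cons (nat_lit 68720590848) (nat_lit 54) (nat_lit 0) <| L.cons (nat_lit 68720559104) (nat_lit 0) (nat_lit 9) <| L.cons (nat_lit 68720558112) (nat_lit 0) (nat_lit 9) <|
  f28_3

/-- data -/
def f28_1 : L :=
  L.cons (nat_lit 35184406757377) (nat_lit 0) (nat_lit 54) <| L.cons (nat_lit 35184406757376) (nat_lit 0) (nat_lit 18) <| L.cons (nat_lit 35184406725632) (nat_lit 0) (nat_lit 54) <| L.cons (nat_lit 35184406724640) (nat_lit 0) (nat_lit 42) <| L.cons (nat_lit 35184406691841) (nat_lit 24) (nat_lit 0) <|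
  L.cons (nat_lit 35184406691840) (nat_lit 0) (nat_lit 12) <| L.cons (nat_lit 35184405741569) (nat_lit 0) (nat_lit 66) <| L.cons (nat_lit 35184405741568) (nat_lit 0) (nat_lit 18) <| L.cons (nat_lit 35184405709824) (nat_lit 0) (nat_lit 36) <| L.cons (nat_lit 35184405708832) (nat_lit 0) (nat_lit 36) <|
  L.cons (nat_lit 35184405676033) (nat_lit 36) (nat_lit 0) <| L.cons (nat_lit 35184405676032) (nat_lit 0) (nat_lit 12) <| L.cons (nat_lit 35184375267328) (nat_lit 0) (nat_lit 6) <| L.cons (nat_lit 35184375234592) (nat_lit 0) (nat_lit 4) <| L.cons (nat_lit 35184374251521) (nat_lit 6) (nat_lit 0) <|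
  L.cons (nat_lit 35184374251520) (nat_lit 0) (nat_lit 6) <| L.cons (nat_lit 35184374219776) (nat_lit 12) (nat_lit 0) <| L.cons (nat_lit 35184374185985) (nat_lit 0) (nat_lit 12) <| L.cons (nat_lit 35184374185984) (nat_lit 8) (nat_lit 0) <| L.cons (nat_lit 35184373235713) (nat_lit 26) (nat_lit 0) <|
  L.cons (nat_lit 35184373235712) (nat_lit 14) (nat_lit 0) <| L.cons (nat_lit 35184373203968) (nat_lit 30) (nat_lit 0) <| L.cons (nat_lit 35184373202976) (nat_lit 30) (nat_lit 0) <| L.cons (nat_lit 35184373170177) (nat_lit 0) (nat_lit 52) <| L.cons (nat_lit 35184373170176) (nat_lit 20) (nat_lit 0) <|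
  L.cons (nat_lit 35184373138432) (nat_lit 0) (nat_lit 4) <| L.cons (nat_lit 35184373137440) (nat_lit 0) (nat_lit 4) <| L.cons (nat_lit 35184372219905) (nat_lit 24) (nat_lit 0) <| L.cons (nat_lit 35184372188160) (nat_lit 4) (nat_lit 0) <| L.cons (nat_lit 35184372187168) (nat_lit 4) (nat_lit 0) <|
  L.cons (nat_lit 35184372154369) (nat_lit 0) (nat_lit 48) <| L.cons (nat_lit 35184372122624) (nat_lit 0) (nat_lit 8) <| L.cons (nat_lit 35184372121632) (nat_lit 0) (nat_lit 8) <| L.cons (nat_lit 2199023353856) (nat_lit 0) (nat_lit 4) <| L.cons (nat_lit 2199023288320) (nat_lit 24) (nat_lit 0) <|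
  L.cons (nat_lit 1168232153089) (nat_lit 0) (nat_lit 18) <| L.cons (nat_lit 1134946156545) (nat_lit 0) (nat_lit 6) <| L.cons (nat_lit 1134946156544) (nat_lit 0) (nat_lit 6) <| L.cons (nat_lit 1133905970176) (nat_lit 0) (nat_lit 18) <| L.cons (nat_lit 1133904986112) (nat_lit 18) (nat_lit 0) <|
  L.cons (nat_lit 1133873496064) (nat_lit 0) (nat_lit 12) <| L.cons (nat_lit 1133872480257) (nat_lit 36) (nat_lit 0) <| L.cons (nat_lit 1133872480256) (nat_lit 0) (nat_lit 18) <| L.cons (nat_lit 1133872448512) (nat_lit 18) (nat_lit 0) <| L.cons (nat_lit 1133872447520) (nat_lit 18) (nat_lit 0) <|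
  L.cons (nat_lit 1133872414721) (nat_lit 24) (nat_lit 0) <| L.cons (nat_lit 1133872414720) (nat_lit 0) (nat_lit 36) <| L.cons (nat_lit 1133871464449) (nat_lit 12) (nat_lit 0) <| L.cons (nat_lit 1133871464448) (nat_lit 0) (nat_lit 12) <| L.cons (nat_lit 1133871398913) (nat_lit 0) (nat_lit 72) <|
  f28_2

/-- data -/
def f28 : L :=
  L.cons (nat_lit 37383395344384) (nat_lit 8) (nat_lit 0) <| L.cons (nat_lit 36318243454977) (nat_lit 0) (nat_lit 24) <| L.cons (nat_lit 36318243454976) (nat_lit 0) (nat_lit 12) <| L.cons (nat_lit 36284957458433) (nat_lit 0) (nat_lit 12) <| L.cons (nat_lit 36284957458432) (nat_lit 0) (nat_lit 12) <|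
  L.cons (nat_lit 36283918319616) (nat_lit 0) (nat_lit 12) <| L.cons (nat_lit 36283917303809) (nat_lit 0) (nat_lit 12) <| L.cons (nat_lit 36283917303808) (nat_lit 0) (nat_lit 24) <| L.cons (nat_lit 36283917272064) (nat_lit 0) (nat_lit 12) <| L.cons (nat_lit 36283917271072) (nat_lit 0) (nat_lit 12) <|
  L.cons (nat_lit 36283885813760) (nat_lit 4) (nat_lit 0) <| L.cons (nat_lit 36283884765216) (nat_lit 0) (nat_lit 8) <| L.cons (nat_lit 36283883782145) (nat_lit 36) (nat_lit 0) <| L.cons (nat_lit 36283883782144) (nat_lit 12) (nat_lit 0) <| L.cons (nat_lit 36283883750400) (nat_lit 24) (nat_lit 0) <|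
  L.cons (nat_lit 36283883749408) (nat_lit 24) (nat_lit 0) <| L.cons (nat_lit 36283883716609) (nat_lit 0) (nat_lit 8) <| L.cons (nat_lit 36283883716608) (nat_lit 8) (nat_lit 0) <| L.cons (nat_lit 35218766430209) (nat_lit 18) (nat_lit 0) <| L.cons (nat_lit 35218766430208) (nat_lit 18) (nat_lit 0) <|
  L.cons (nat_lit 35218765414401) (nat_lit 54) (nat_lit 0) <| L.cons (nat_lit 35218765414400) (nat_lit 18) (nat_lit 0) <| L.cons (nat_lit 35218733924352) (nat_lit 0) (nat_lit 12) <| L.cons (nat_lit 35218732908545) (nat_lit 0) (nat_lit 12) <| L.cons (nat_lit 35218732908544) (nat_lit 0) (nat_lit 12) <|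
  L.cons (nat_lit 35218732876800) (nat_lit 6) (nat_lit 0) <| L.cons (nat_lit 35218732875808) (nat_lit 6) (nat_lit 0) <| L.cons (nat_lit 35218731892737) (nat_lit 0) (nat_lit 36) <| L.cons (nat_lit 35218731860992) (nat_lit 0) (nat_lit 6) <| L.cons (nat_lit 35218731860000) (nat_lit 0) (nat_lit 6) <|
  L.cons (nat_lit 35185480433665) (nat_lit 18) (nat_lit 0) <| L.cons (nat_lit 35185480433664) (nat_lit 18) (nat_lit 0) <| L.cons (nat_lit 35185479417857) (nat_lit 18) (nat_lit 0) <| L.cons (nat_lit 35185479417856) (nat_lit 18) (nat_lit 0) <| L.cons (nat_lit 35185447927809) (nat_lit 0) (nat_lit 6) <|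
  L.cons (nat_lit 35185447927808) (nat_lit 0) (nat_lit 6) <| L.cons (nat_lit 35185446912001) (nat_lit 0) (nat_lit 18) <| L.cons (nat_lit 35185446912000) (nat_lit 0) (nat_lit 18) <| L.cons (nat_lit 35184440279041) (nat_lit 18) (nat_lit 0) <| L.cons (nat_lit 35184440279040) (nat_lit 18) (nat_lit 0) <|
  L.cons (nat_lit 35184440247296) (nat_lit 18) (nat_lit 0) <| L.cons (nat_lit 35184440246304) (nat_lit 18) (nat_lit 0) <| L.cons (nat_lit 35184439263233) (nat_lit 18) (nat_lit 0) <| L.cons (nat_lit 35184439263232) (nat_lit 18) (nat_lit 0) <| L.cons (nat_lit 35184439231488) (nat_lit 18) (nat_lit 0) <|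
  L.cons (nat_lit 35184439230496) (nat_lit 18) (nat_lit 0) <| L.cons (nat_lit 35184407773185) (nat_lit 0) (nat_lit 6) <| L.cons (nat_lit 35184407773184) (nat_lit 12) (nat_lit 0) <| L.cons (nat_lit 35184407741440) (nat_lit 0) (nat_lit 6) <| L.cons (nat_lit 35184407740448) (nat_lit 6) (nat_lit 0) <|
  f28_1

/-- data -/
def f30_4 : L :=
  L.cons (nat_lit 1074790401) (nat_lit 0) (nat_lit 264) <| L.cons (nat_lit 1074790400) (nat_lit 54) (nat_lit 0) <| L.cons (nat_lit 1073840129) (nat_lit 0) (nat_lit 810) <| L.cons (nat_lit 1073808384) (nat_lit 0) (nat_lit 135) <| L.cons (nat_lit 1073807392) (nat_lit 0) (nat_lit 135) <|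
  L.cons (nat_lit 1073774593) (nat_lit 0) (nat_lit 432) <| L.cons (nat_lit 1073742848) (nat_lit 0) (nat_lit 90) <| L.cons (nat_lit 1073741856) (nat_lit 0) (nat_lit 90) <| L.cons (nat_lit 34669568) (nat_lit 540) (nat_lit 0) <| L.cons (nat_lit 34668576) (nat_lit 0) (nat_lit 90) <|
  L.cons (nat_lit 34604032) (nat_lit 468) (nat_lit 0) <| L.cons (nat_lit 34603040) (nat_lit 0) (nat_lit 168) <| L.cons (nat_lit 33685505) (nat_lit 30) (nat_lit 0) <| L.cons (nat_lit 33685504) (nat_lit 30) (nat_lit 0) <| L.cons (nat_lit 33653760) (nat_lit 570) (nat_lit 0) <|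
  L.cons (nat_lit 33652768) (nat_lit 0) (nat_lit 285) <| L.cons (nat_lit 33619969) (nat_lit 168) (nat_lit 0) <| L.cons (nat_lit 33619968) (nat_lit 0) (nat_lit 504) <| L.cons (nat_lit 33588224) (nat_lit 0) (nat_lit 372) <| L.cons (nat_lit 33587232) (nat_lit 186) (nat_lit 0) <|
  L.cons (nat_lit 2163712) (nat_lit 0) (nat_lit 180) <| L.cons (nat_lit 2162720) (nat_lit 90) (nat_lit 0) <| L.cons (nat_lit 2098176) (nat_lit 0) (nat_lit 228) <| L.cons (nat_lit 2097184) (nat_lit 96) (nat_lit 0) <| L.cons (nat_lit 1147904) (nat_lit 0) (nat_lit 675) <|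
  L.cons (nat_lit 1146912) (nat_lit 270) (nat_lit 0) <| L.cons (nat_lit 1114112) (nat_lit 108) (nat_lit 0) <| L.cons (nat_lit 1082368) (nat_lit 0) (nat_lit 450) <| L.cons (nat_lit 1081376) (nat_lit 432) (nat_lit 0) <| L.cons (nat_lit 163841) (nat_lit 0) (nat_lit 90) <|
  L.cons (nat_lit 163840) (nat_lit 90) (nat_lit 0) <| L.cons (nat_lit 132096) (nat_lit 0) (nat_lit 405) <| L.cons (nat_lit 131104) (nat_lit 405) (nat_lit 0) <| L.cons (nat_lit 98305) (nat_lit 0) (nat_lit 24) <| L.cons (nat_lit 98304) (nat_lit 240) (nat_lit 0) <|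
  L.cons (nat_lit 66560) (nat_lit 0) (nat_lit 108) <| L.cons (nat_lit 65568) (nat_lit 432) (nat_lit 0) <| L.cons (nat_lit 32769) (nat_lit 0) (nat_lit 24) <| L.cons (nat_lit 32768) (nat_lit 24) (nat_lit 0) <| L.cons (nat_lit 1024) (nat_lit 0) (nat_lit 108) <|
  L.cons (nat_lit 32) (nat_lit 108) (nat_lit 0) <|
  L.nil

/-- data -/
def f30_3 : L :=
  L.cons (nat_lit 1099545216000) (nat_lit 0) (nat_lit 600) <| L.cons (nat_lit 1099545215008) (nat_lit 600) (nat_lit 0) <| L.cons (nat_lit 1099513791488) (nat_lit 360) (nat_lit 0) <| L.cons (nat_lit 1099513790496) (nat_lit 0) (nat_lit 180) <| L.cons (nat_lit 1099513725952) (nat_lit 240) (nat_lit 0) <|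
  L.cons (nat_lit 1099513724960) (nat_lit 0) (nat_lit 120) <| L.cons (nat_lit 1099512775680) (nat_lit 1860) (nat_lit 0) <| L.cons (nat_lit 1099512774688) (nat_lit 0) (nat_lit 600) <| L.cons (nat_lit 1099512710144) (nat_lit 1800) (nat_lit 0) <| L.cons (nat_lit 1099512709152) (nat_lit 0) (nat_lit 720) <|
  L.cons (nat_lit 1099511791617) (nat_lit 0) (nat_lit 180) <| L.cons (nat_lit 1099511791616) (nat_lit 0) (nat_lit 480) <| L.cons (nat_lit 1099511759872) (nat_lit 120) (nat_lit 0) <| L.cons (nat_lit 1099511758880) (nat_lit 0) (nat_lit 1980) <| L.cons (nat_lit 1099511726081) (nat_lit 0) (nat_lit 480) <|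
  L.cons (nat_lit 1099511726080) (nat_lit 100) (nat_lit 0) <| L.cons (nat_lit 1099511694336) (nat_lit 0) (nat_lit 210) <| L.cons (nat_lit 1099511693344) (nat_lit 0) (nat_lit 1020) <| L.cons (nat_lit 1099511660545) (nat_lit 0) (nat_lit 240) <| L.cons (nat_lit 1099511660544) (nat_lit 128) (nat_lit 0) <|
  L.cons (nat_lit 1099511628800) (nat_lit 0) (nat_lit 620) <| L.cons (nat_lit 1099511627808) (nat_lit 520) (nat_lit 0) <| L.cons (nat_lit 68719509505) (nat_lit 0) (nat_lit 225) <| L.cons (nat_lit 68719509504) (nat_lit 225) (nat_lit 0) <| L.cons (nat_lit 35467034625) (nat_lit 0) (nat_lit 675) <|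
  L.cons (nat_lit 35434528769) (nat_lit 60) (nat_lit 0) <| L.cons (nat_lit 35434528768) (nat_lit 0) (nat_lit 165) <| L.cons (nat_lit 35433512961) (nat_lit 630) (nat_lit 0) <| L.cons (nat_lit 35433481216) (nat_lit 135) (nat_lit 0) <| L.cons (nat_lit 35433480224) (nat_lit 135) (nat_lit 0) <|
  L.cons (nat_lit 34394342400) (nat_lit 0) (nat_lit 450) <| L.cons (nat_lit 34393326592) (nat_lit 0) (nat_lit 450) <| L.cons (nat_lit 34393325600) (nat_lit 225) (nat_lit 0) <| L.cons (nat_lit 34361836544) (nat_lit 90) (nat_lit 0) <| L.cons (nat_lit 34361835552) (nat_lit 0) (nat_lit 60) <|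
  L.cons (nat_lit 34360852480) (nat_lit 90) (nat_lit 0) <| L.cons (nat_lit 34360820736) (nat_lit 405) (nat_lit 0) <| L.cons (nat_lit 34360819744) (nat_lit 30) (nat_lit 0) <| L.cons (nat_lit 34359836673) (nat_lit 195) (nat_lit 0) <| L.cons (nat_lit 34359836672) (nat_lit 0) (nat_lit 195) <|
  L.cons (nat_lit 34359804928) (nat_lit 135) (nat_lit 0) <| L.cons (nat_lit 34359803936) (nat_lit 0) (nat_lit 135) <| L.cons (nat_lit 34359771137) (nat_lit 186) (nat_lit 0) <| L.cons (nat_lit 34359771136) (nat_lit 0) (nat_lit 186) <| L.cons (nat_lit 34359739392) (nat_lit 162) (nat_lit 0) <|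
  L.cons (nat_lit 34359738400) (nat_lit 0) (nat_lit 162) <| L.cons (nat_lit 1107361793) (nat_lit 675) (nat_lit 0) <| L.cons (nat_lit 1107296257) (nat_lit 450) (nat_lit 0) <| L.cons (nat_lit 1074855937) (nat_lit 0) (nat_lit 180) <| L.cons (nat_lit 1074855936) (nat_lit 135) (nat_lit 0) <|
  f30_4

/-- data -/
def f30_2 : L :=
  L.cons (nat_lit 1168231137281) (nat_lit 0) (nat_lit 540) <| L.cons (nat_lit 1168231137280) (nat_lit 0) (nat_lit 900) <| L.cons (nat_lit 1168231105536) (nat_lit 0) (nat_lit 180) <| L.cons (nat_lit 1168231104544) (nat_lit 0) (nat_lit 1260) <| L.cons (nat_lit 1134978662401) (nat_lit 1800) (nat_lit 0) <|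
  L.cons (nat_lit 1134978662400) (nat_lit 540) (nat_lit 0) <| L.cons (nat_lit 1134946156545) (nat_lit 0) (nat_lit 360) <| L.cons (nat_lit 1134946156544) (nat_lit 360) (nat_lit 0) <| L.cons (nat_lit 1134945140737) (nat_lit 0) (nat_lit 2700) <| L.cons (nat_lit 1134945140736) (nat_lit 0) (nat_lit 1080) <|
  L.cons (nat_lit 1134945108992) (nat_lit 0) (nat_lit 360) <| L.cons (nat_lit 1134945108000) (nat_lit 0) (nat_lit 900) <| L.cons (nat_lit 1133905970176) (nat_lit 1260) (nat_lit 0) <| L.cons (nat_lit 1133905969184) (nat_lit 0) (nat_lit 360) <| L.cons (nat_lit 1133904954368) (nat_lit 360) (nat_lit 0) <|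
  L.cons (nat_lit 1133904953376) (nat_lit 0) (nat_lit 900) <| L.cons (nat_lit 1133873464320) (nat_lit 0) (nat_lit 360) <| L.cons (nat_lit 1133873463328) (nat_lit 180) (nat_lit 0) <| L.cons (nat_lit 1133872448512) (nat_lit 0) (nat_lit 1620) <| L.cons (nat_lit 1133872447520) (nat_lit 540) (nat_lit 0) <|
  L.cons (nat_lit 1133871464449) (nat_lit 720) (nat_lit 0) <| L.cons (nat_lit 1133871464448) (nat_lit 1380) (nat_lit 0) <| L.cons (nat_lit 1133871432704) (nat_lit 180) (nat_lit 0) <| L.cons (nat_lit 1133871431712) (nat_lit 2880) (nat_lit 0) <| L.cons (nat_lit 1133871398913) (nat_lit 720) (nat_lit 0) <|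
  L.cons (nat_lit 1133871398912) (nat_lit 240) (nat_lit 0) <| L.cons (nat_lit 1133871367168) (nat_lit 1050) (nat_lit 0) <| L.cons (nat_lit 1133871366176) (nat_lit 60) (nat_lit 0) <| L.cons (nat_lit 1100618989569) (nat_lit 0) (nat_lit 1800) <| L.cons (nat_lit 1100618989568) (nat_lit 0) (nat_lit 540) <|
  L.cons (nat_lit 1100618924033) (nat_lit 0) (nat_lit 1200) <| L.cons (nat_lit 1100618924032) (nat_lit 0) (nat_lit 360) <| L.cons (nat_lit 1100586483713) (nat_lit 360) (nat_lit 0) <| L.cons (nat_lit 1100586483712) (nat_lit 0) (nat_lit 360) <| L.cons (nat_lit 1100586418177) (nat_lit 240) (nat_lit 0) <|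
  L.cons (nat_lit 1100586418176) (nat_lit 0) (nat_lit 240) <| L.cons (nat_lit 1100585467905) (nat_lit 3060) (nat_lit 0) <| L.cons (nat_lit 1100585467904) (nat_lit 1200) (nat_lit 0) <| L.cons (nat_lit 1100585436160) (nat_lit 360) (nat_lit 0) <| L.cons (nat_lit 1100585435168) (nat_lit 900) (nat_lit 0) <|
  L.cons (nat_lit 1100585402369) (nat_lit 2520) (nat_lit 0) <| L.cons (nat_lit 1100585402368) (nat_lit 720) (nat_lit 0) <| L.cons (nat_lit 1100585370624) (nat_lit 240) (nat_lit 0) <| L.cons (nat_lit 1100585369632) (nat_lit 600) (nat_lit 0) <| L.cons (nat_lit 1099546297344) (nat_lit 0) (nat_lit 1260) <|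
  L.cons (nat_lit 1099546296352) (nat_lit 360) (nat_lit 0) <| L.cons (nat_lit 1099546231808) (nat_lit 0) (nat_lit 840) <| L.cons (nat_lit 1099546230816) (nat_lit 240) (nat_lit 0) <| L.cons (nat_lit 1099545281536) (nat_lit 0) (nat_lit 420) <| L.cons (nat_lit 1099545280544) (nat_lit 1020) (nat_lit 0) <|
  f30_3

/-- data -/
def f30_1 : L :=
  L.cons (nat_lit 36284957458433) (nat_lit 0) (nat_lit 240) <| L.cons (nat_lit 36284957458432) (nat_lit 0) (nat_lit 120) <| L.cons (nat_lit 36283917271072) (nat_lit 0) (nat_lit 120) <| L.cons (nat_lit 36283884766208) (nat_lit 0) (nat_lit 120) <| L.cons (nat_lit 36283883782145) (nat_lit 0) (nat_lit 360) <|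
  L.cons (nat_lit 36283883782144) (nat_lit 0) (nat_lit 360) <| L.cons (nat_lit 36283883749408) (nat_lit 240) (nat_lit 0) <| L.cons (nat_lit 36283883716609) (nat_lit 0) (nat_lit 240) <| L.cons (nat_lit 36283883716608) (nat_lit 0) (nat_lit 240) <| L.cons (nat_lit 35219805569025) (nat_lit 1440) (nat_lit 0) <|
  L.cons (nat_lit 35219805569024) (nat_lit 720) (nat_lit 0) <| L.cons (nat_lit 35218732876800) (nat_lit 720) (nat_lit 0) <| L.cons (nat_lit 35218731892737) (nat_lit 0) (nat_lit 1260) <| L.cons (nat_lit 35218731892736) (nat_lit 0) (nat_lit 1260) <| L.cons (nat_lit 35218731860992) (nat_lit 0) (nat_lit 360) <|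
  L.cons (nat_lit 35218731860000) (nat_lit 0) (nat_lit 2520) <| L.cons (nat_lit 35218731827201) (nat_lit 0) (nat_lit 360) <| L.cons (nat_lit 35218731827200) (nat_lit 0) (nat_lit 360) <| L.cons (nat_lit 35185446912001) (nat_lit 0) (nat_lit 480) <| L.cons (nat_lit 35185446912000) (nat_lit 0) (nat_lit 120) <|
  L.cons (nat_lit 35185445896193) (nat_lit 0) (nat_lit 1140) <| L.cons (nat_lit 35185445896192) (nat_lit 0) (nat_lit 600) <| L.cons (nat_lit 35185445830657) (nat_lit 0) (nat_lit 1380) <| L.cons (nat_lit 35185445830656) (nat_lit 0) (nat_lit 720) <| L.cons (nat_lit 35184406725632) (nat_lit 360) (nat_lit 0) <|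
  L.cons (nat_lit 35184406724640) (nat_lit 0) (nat_lit 360) <| L.cons (nat_lit 35184405741569) (nat_lit 120) (nat_lit 0) <| L.cons (nat_lit 35184405741568) (nat_lit 360) (nat_lit 0) <| L.cons (nat_lit 35184405708832) (nat_lit 180) (nat_lit 0) <| L.cons (nat_lit 35184405676033) (nat_lit 0) (nat_lit 120) <|
  L.cons (nat_lit 35184405676032) (nat_lit 120) (nat_lit 0) <| L.cons (nat_lit 35184405643296) (nat_lit 0) (nat_lit 360) <| L.cons (nat_lit 35184374219776) (nat_lit 0) (nat_lit 360) <| L.cons (nat_lit 35184374218784) (nat_lit 120) (nat_lit 0) <| L.cons (nat_lit 35184373235712) (nat_lit 120) (nat_lit 0) <|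
  L.cons (nat_lit 35184373203968) (nat_lit 0) (nat_lit 900) <| L.cons (nat_lit 35184373202976) (nat_lit 660) (nat_lit 0) <| L.cons (nat_lit 35184373170176) (nat_lit 0) (nat_lit 180) <| L.cons (nat_lit 35184373138432) (nat_lit 0) (nat_lit 660) <| L.cons (nat_lit 35184373137440) (nat_lit 0) (nat_lit 60) <|
  L.cons (nat_lit 35184372219905) (nat_lit 420) (nat_lit 0) <| L.cons (nat_lit 35184372219904) (nat_lit 360) (nat_lit 0) <| L.cons (nat_lit 35184372188160) (nat_lit 240) (nat_lit 0) <| L.cons (nat_lit 35184372187168) (nat_lit 1320) (nat_lit 0) <| L.cons (nat_lit 35184372154369) (nat_lit 660) (nat_lit 0) <|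
  L.cons (nat_lit 35184372154368) (nat_lit 120) (nat_lit 0) <| L.cons (nat_lit 35184372122624) (nat_lit 420) (nat_lit 0) <| L.cons (nat_lit 35184372121632) (nat_lit 1320) (nat_lit 0) <| L.cons (nat_lit 35184372088833) (nat_lit 0) (nat_lit 336) <| L.cons (nat_lit 35184372088832) (nat_lit 672) (nat_lit 0) <|
  f30_2

/-- data -/
def f30 : L :=
  L.cons (nat_lit 36029896530591744) (nat_lit 0) (nat_lit 240) <| L.cons (nat_lit 36028798092705793) (nat_lit 360) (nat_lit 0) <| L.cons (nat_lit 36028798092705792) (nat_lit 360) (nat_lit 0) <| L.cons (nat_lit 36028797052551169) (nat_lit 360) (nat_lit 0) <| L.cons (nat_lit 36028797052551168) (nat_lit 360) (nat_lit 0) <|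
  L.cons (nat_lit 36028797052519424) (nat_lit 360) (nat_lit 0) <| L.cons (nat_lit 36028797052518432) (nat_lit 360) (nat_lit 0) <| L.cons (nat_lit 36028797020045312) (nat_lit 360) (nat_lit 0) <| L.cons (nat_lit 36028797020012576) (nat_lit 240) (nat_lit 0) <| L.cons (nat_lit 36028797019029505) (nat_lit 0) (nat_lit 360) <|
  L.cons (nat_lit 36028797018997760) (nat_lit 0) (nat_lit 720) <| L.cons (nat_lit 36028797018996768) (nat_lit 0) (nat_lit 720) <| L.cons (nat_lit 36028797018963969) (nat_lit 720) (nat_lit 0) <| L.cons (nat_lit 1161084278931457) (nat_lit 0) (nat_lit 480) <| L.cons (nat_lit 1161084278931456) (nat_lit 0) (nat_lit 240) <|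
  L.cons (nat_lit 1126999418503168) (nat_lit 240) (nat_lit 0) <| L.cons (nat_lit 1125934266613761) (nat_lit 1080) (nat_lit 0) <| L.cons (nat_lit 1125934266613760) (nat_lit 720) (nat_lit 0) <| L.cons (nat_lit 1125934266582016) (nat_lit 360) (nat_lit 0) <| L.cons (nat_lit 1125934266581024) (nat_lit 1440) (nat_lit 0) <|
  L.cons (nat_lit 1125900981633025) (nat_lit 480) (nat_lit 0) <| L.cons (nat_lit 1125900981633024) (nat_lit 120) (nat_lit 0) <| L.cons (nat_lit 1125900980617217) (nat_lit 0) (nat_lit 960) <| L.cons (nat_lit 1125900980617216) (nat_lit 0) (nat_lit 600) <| L.cons (nat_lit 1125899941446656) (nat_lit 0) (nat_lit 360) <|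
  L.cons (nat_lit 1125899941445664) (nat_lit 360) (nat_lit 0) <| L.cons (nat_lit 1125899940462593) (nat_lit 0) (nat_lit 360) <| L.cons (nat_lit 1125899940462592) (nat_lit 0) (nat_lit 720) <| L.cons (nat_lit 1125899940430848) (nat_lit 0) (nat_lit 360) <| L.cons (nat_lit 1125899940429856) (nat_lit 0) (nat_lit 720) <|
  L.cons (nat_lit 1125899908940800) (nat_lit 360) (nat_lit 0) <| L.cons (nat_lit 1125899908939808) (nat_lit 0) (nat_lit 120) <| L.cons (nat_lit 1125899907956736) (nat_lit 0) (nat_lit 360) <| L.cons (nat_lit 1125899907924000) (nat_lit 0) (nat_lit 840) <| L.cons (nat_lit 1125899906940929) (nat_lit 0) (nat_lit 120) <|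
  L.cons (nat_lit 1125899906909184) (nat_lit 360) (nat_lit 0) <| L.cons (nat_lit 1125899906908192) (nat_lit 360) (nat_lit 0) <| L.cons (nat_lit 1125899906875393) (nat_lit 0) (nat_lit 720) <| L.cons (nat_lit 1125899906875392) (nat_lit 0) (nat_lit 480) <| L.cons (nat_lit 1125899906843648) (nat_lit 0) (nat_lit 240) <|
  L.cons (nat_lit 1125899906842656) (nat_lit 0) (nat_lit 960) <| L.cons (nat_lit 70368777732097) (nat_lit 0) (nat_lit 120) <| L.cons (nat_lit 70368777732096) (nat_lit 0) (nat_lit 120) <| L.cons (nat_lit 70368745226240) (nat_lit 0) (nat_lit 120) <| L.cons (nat_lit 70368744210433) (nat_lit 720) (nat_lit 0) <|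
  L.cons (nat_lit 70368744210432) (nat_lit 480) (nat_lit 0) <| L.cons (nat_lit 70368744178688) (nat_lit 120) (nat_lit 0) <| L.cons (nat_lit 70368744177696) (nat_lit 480) (nat_lit 0) <| L.cons (nat_lit 36318243454977) (nat_lit 360) (nat_lit 0) <| L.cons (nat_lit 36318243454976) (nat_lit 360) (nat_lit 0) <|
  f30_1

/-- data -/
def f31_6 : L :=
  L.cons (nat_lit 1179648) (nat_lit 90) (nat_lit 0) <| L.cons (nat_lit 1147904) (nat_lit 0) (nat_lit 1080) <| L.cons (nat_lit 1146912) (nat_lit 675) (nat_lit 0) <| L.cons (nat_lit 1114113) (nat_lit 180) (nat_lit 0) <| L.cons (nat_lit 1114112) (nat_lit 0) (nat_lit 72) <|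
  L.cons (nat_lit 1082368) (nat_lit 2484) (nat_lit 0) <| L.cons (nat_lit 1081376) (nat_lit 0) (nat_lit 1422) <| L.cons (nat_lit 163841) (nat_lit 0) (nat_lit 90) <| L.cons (nat_lit 163840) (nat_lit 90) (nat_lit 0) <| L.cons (nat_lit 132096) (nat_lit 0) (nat_lit 405) <|
  L.cons (nat_lit 131104) (nat_lit 405) (nat_lit 0) <| L.cons (nat_lit 98305) (nat_lit 216) (nat_lit 0) <| L.cons (nat_lit 66560) (nat_lit 972) (nat_lit 0) <| L.cons (nat_lit 65568) (nat_lit 0) (nat_lit 648) <| L.cons (nat_lit 32769) (nat_lit 72) (nat_lit 0) <|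
  L.cons (nat_lit 32768) (nat_lit 0) (nat_lit 72) <| L.cons (nat_lit 1024) (nat_lit 324) (nat_lit 0) <| L.cons (nat_lit 32) (nat_lit 0) (nat_lit 324) <|
  L.nil

/-- data -/
def f31_5 : L :=
  L.cons (nat_lit 34360820736) (nat_lit 0) (nat_lit 270) <| L.cons (nat_lit 34360819744) (nat_lit 300) (nat_lit 0) <| L.cons (nat_lit 34359836673) (nat_lit 105) (nat_lit 0) <| L.cons (nat_lit 34359836672) (nat_lit 0) (nat_lit 105) <| L.cons (nat_lit 34359804928) (nat_lit 0) (nat_lit 270) <|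
  L.cons (nat_lit 34359803936) (nat_lit 270) (nat_lit 0) <| L.cons (nat_lit 34359771137) (nat_lit 0) (nat_lit 450) <| L.cons (nat_lit 34359771136) (nat_lit 450) (nat_lit 0) <| L.cons (nat_lit 1108377601) (nat_lit 585) (nat_lit 0) <| L.cons (nat_lit 1107361793) (nat_lit 675) (nat_lit 0) <|
  L.cons (nat_lit 1107296257) (nat_lit 0) (nat_lit 1350) <| L.cons (nat_lit 1075871745) (nat_lit 0) (nat_lit 180) <| L.cons (nat_lit 1075871744) (nat_lit 135) (nat_lit 0) <| L.cons (nat_lit 1074855937) (nat_lit 0) (nat_lit 990) <| L.cons (nat_lit 1074855936) (nat_lit 135) (nat_lit 0) <|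
  L.cons (nat_lit 1074824192) (nat_lit 0) (nat_lit 135) <| L.cons (nat_lit 1074823200) (nat_lit 0) (nat_lit 135) <| L.cons (nat_lit 1074790401) (nat_lit 1008) (nat_lit 0) <| L.cons (nat_lit 1074790400) (nat_lit 0) (nat_lit 162) <| L.cons (nat_lit 1073840129) (nat_lit 0) (nat_lit 810) <|
  L.cons (nat_lit 1073808384) (nat_lit 0) (nat_lit 135) <| L.cons (nat_lit 1073807392) (nat_lit 0) (nat_lit 135) <| L.cons (nat_lit 1073774593) (nat_lit 1728) (nat_lit 0) <| L.cons (nat_lit 1073742848) (nat_lit 270) (nat_lit 0) <| L.cons (nat_lit 1073741856) (nat_lit 270) (nat_lit 0) <|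
  L.cons (nat_lit 35685376) (nat_lit 450) (nat_lit 0) <| L.cons (nat_lit 35684384) (nat_lit 0) (nat_lit 60) <| L.cons (nat_lit 34701313) (nat_lit 30) (nat_lit 0) <| L.cons (nat_lit 34669568) (nat_lit 990) (nat_lit 0) <| L.cons (nat_lit 34668576) (nat_lit 0) (nat_lit 315) <|
  L.cons (nat_lit 34635777) (nat_lit 168) (nat_lit 0) <| L.cons (nat_lit 34635776) (nat_lit 0) (nat_lit 672) <| L.cons (nat_lit 34604032) (nat_lit 0) (nat_lit 2412) <| L.cons (nat_lit 34603040) (nat_lit 1008) (nat_lit 0) <| L.cons (nat_lit 33685505) (nat_lit 30) (nat_lit 0) <|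
  L.cons (nat_lit 33685504) (nat_lit 30) (nat_lit 0) <| L.cons (nat_lit 33653760) (nat_lit 570) (nat_lit 0) <| L.cons (nat_lit 33652768) (nat_lit 0) (nat_lit 285) <| L.cons (nat_lit 33619969) (nat_lit 168) (nat_lit 0) <| L.cons (nat_lit 33619968) (nat_lit 0) (nat_lit 504) <|
  L.cons (nat_lit 33588224) (nat_lit 0) (nat_lit 1572) <| L.cons (nat_lit 33587232) (nat_lit 786) (nat_lit 0) <| L.cons (nat_lit 3179520) (nat_lit 0) (nat_lit 180) <| L.cons (nat_lit 3178528) (nat_lit 90) (nat_lit 0) <| L.cons (nat_lit 2163712) (nat_lit 0) (nat_lit 855) <|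
  L.cons (nat_lit 2162720) (nat_lit 360) (nat_lit 0) <| L.cons (nat_lit 2129920) (nat_lit 36) (nat_lit 0) <| L.cons (nat_lit 2098176) (nat_lit 900) (nat_lit 0) <| L.cons (nat_lit 2097184) (nat_lit 0) (nat_lit 288) <| L.cons (nat_lit 1179649) (nat_lit 0) (nat_lit 90) <|
  f31_6

/-- data -/
def f31_4 : L :=
  L.cons (nat_lit 1100585436160) (nat_lit 360) (nat_lit 0) <| L.cons (nat_lit 1100585435168) (nat_lit 900) (nat_lit 0) <| L.cons (nat_lit 1100585402369) (nat_lit 0) (nat_lit 6060) <| L.cons (nat_lit 1100585402368) (nat_lit 0) (nat_lit 2640) <| L.cons (nat_lit 1100585370624) (nat_lit 0) (nat_lit 630) <|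
  L.cons (nat_lit 1100585369632) (nat_lit 0) (nat_lit 1710) <| L.cons (nat_lit 1099579819008) (nat_lit 0) (nat_lit 180) <| L.cons (nat_lit 1099547313152) (nat_lit 0) (nat_lit 900) <| L.cons (nat_lit 1099547312160) (nat_lit 180) (nat_lit 0) <| L.cons (nat_lit 1099546297344) (nat_lit 0) (nat_lit 1440) <|
  L.cons (nat_lit 1099546296352) (nat_lit 1080) (nat_lit 0) <| L.cons (nat_lit 1099546231808) (nat_lit 1860) (nat_lit 0) <| L.cons (nat_lit 1099546230816) (nat_lit 0) (nat_lit 840) <| L.cons (nat_lit 1099545281536) (nat_lit 0) (nat_lit 420) <| L.cons (nat_lit 1099545280544) (nat_lit 1020) (nat_lit 0) <|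
  L.cons (nat_lit 1099545216000) (nat_lit 540) (nat_lit 0) <| L.cons (nat_lit 1099545215008) (nat_lit 0) (nat_lit 2130) <| L.cons (nat_lit 1099514807296) (nat_lit 360) (nat_lit 0) <| L.cons (nat_lit 1099514806304) (nat_lit 0) (nat_lit 180) <| L.cons (nat_lit 1099513791488) (nat_lit 2160) (nat_lit 0) <|
  L.cons (nat_lit 1099513790496) (nat_lit 0) (nat_lit 780) <| L.cons (nat_lit 1099513725952) (nat_lit 0) (nat_lit 60) <| L.cons (nat_lit 1099513724960) (nat_lit 0) (nat_lit 40) <| L.cons (nat_lit 1099512807425) (nat_lit 0) (nat_lit 180) <| L.cons (nat_lit 1099512807424) (nat_lit 0) (nat_lit 420) <|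
  L.cons (nat_lit 1099512775680) (nat_lit 1980) (nat_lit 0) <| L.cons (nat_lit 1099512774688) (nat_lit 0) (nat_lit 2460) <| L.cons (nat_lit 1099512741889) (nat_lit 0) (nat_lit 360) <| L.cons (nat_lit 1099512741888) (nat_lit 600) (nat_lit 0) <| L.cons (nat_lit 1099512710144) (nat_lit 0) (nat_lit 3900) <|
  L.cons (nat_lit 1099512709152) (nat_lit 1680) (nat_lit 0) <| L.cons (nat_lit 1099511791617) (nat_lit 0) (nat_lit 180) <| L.cons (nat_lit 1099511791616) (nat_lit 0) (nat_lit 480) <| L.cons (nat_lit 1099511759872) (nat_lit 120) (nat_lit 0) <| L.cons (nat_lit 1099511758880) (nat_lit 0) (nat_lit 1980) <|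
  L.cons (nat_lit 1099511726081) (nat_lit 60) (nat_lit 0) <| L.cons (nat_lit 1099511726080) (nat_lit 1480) (nat_lit 0) <| L.cons (nat_lit 1099511694336) (nat_lit 0) (nat_lit 900) <| L.cons (nat_lit 1099511693344) (nat_lit 4950) (nat_lit 0) <| L.cons (nat_lit 1099511660545) (nat_lit 744) (nat_lit 0) <|
  L.cons (nat_lit 1099511660544) (nat_lit 0) (nat_lit 856) <| L.cons (nat_lit 1099511628800) (nat_lit 1968) (nat_lit 0) <| L.cons (nat_lit 1099511627808) (nat_lit 0) (nat_lit 1668) <| L.cons (nat_lit 35434528769) (nat_lit 0) (nat_lit 90) <| L.cons (nat_lit 35433512961) (nat_lit 0) (nat_lit 180) <|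
  L.cons (nat_lit 34361868288) (nat_lit 30) (nat_lit 0) <| L.cons (nat_lit 34361836544) (nat_lit 0) (nat_lit 90) <| L.cons (nat_lit 34361835552) (nat_lit 90) (nat_lit 0) <| L.cons (nat_lit 34360852481) (nat_lit 135) (nat_lit 0) <| L.cons (nat_lit 34360852480) (nat_lit 0) (nat_lit 45) <|
  f31_5

/-- data -/
def f31_3 : L :=
  L.cons (nat_lit 2199056842784) (nat_lit 0) (nat_lit 720) <| L.cons (nat_lit 2199025353728) (nat_lit 0) (nat_lit 240) <| L.cons (nat_lit 2199025352736) (nat_lit 120) (nat_lit 0) <| L.cons (nat_lit 2199024337920) (nat_lit 0) (nat_lit 1440) <| L.cons (nat_lit 2199024336928) (nat_lit 480) (nat_lit 0) <|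
  L.cons (nat_lit 2199023353857) (nat_lit 120) (nat_lit 0) <| L.cons (nat_lit 2199023353856) (nat_lit 360) (nat_lit 0) <| L.cons (nat_lit 2199023322112) (nat_lit 0) (nat_lit 240) <| L.cons (nat_lit 2199023321120) (nat_lit 1560) (nat_lit 0) <| L.cons (nat_lit 2199023288321) (nat_lit 240) (nat_lit 0) <|
  L.cons (nat_lit 2199023288320) (nat_lit 0) (nat_lit 240) <| L.cons (nat_lit 2199023256576) (nat_lit 620) (nat_lit 0) <| L.cons (nat_lit 2199023255584) (nat_lit 0) (nat_lit 520) <| L.cons (nat_lit 1168231137280) (nat_lit 180) (nat_lit 0) <| L.cons (nat_lit 1134946156545) (nat_lit 120) (nat_lit 0) <|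
  L.cons (nat_lit 1134946156544) (nat_lit 120) (nat_lit 0) <| L.cons (nat_lit 1134945140737) (nat_lit 720) (nat_lit 0) <| L.cons (nat_lit 1134945140736) (nat_lit 180) (nat_lit 0) <| L.cons (nat_lit 1133905970176) (nat_lit 180) (nat_lit 0) <| L.cons (nat_lit 1133904954368) (nat_lit 0) (nat_lit 180) <|
  L.cons (nat_lit 1133904953376) (nat_lit 180) (nat_lit 0) <| L.cons (nat_lit 1133873463328) (nat_lit 60) (nat_lit 0) <| L.cons (nat_lit 1133872480257) (nat_lit 540) (nat_lit 0) <| L.cons (nat_lit 1133872480256) (nat_lit 720) (nat_lit 0) <| L.cons (nat_lit 1133872448512) (nat_lit 720) (nat_lit 0) <|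
  L.cons (nat_lit 1133872447520) (nat_lit 720) (nat_lit 0) <| L.cons (nat_lit 1133871464449) (nat_lit 540) (nat_lit 0) <| L.cons (nat_lit 1133871464448) (nat_lit 840) (nat_lit 0) <| L.cons (nat_lit 1133871432704) (nat_lit 540) (nat_lit 0) <| L.cons (nat_lit 1133871431712) (nat_lit 540) (nat_lit 0) <|
  L.cons (nat_lit 1133871398913) (nat_lit 0) (nat_lit 1230) <| L.cons (nat_lit 1133871398912) (nat_lit 0) (nat_lit 2130) <| L.cons (nat_lit 1133871367168) (nat_lit 0) (nat_lit 360) <| L.cons (nat_lit 1133871366176) (nat_lit 0) (nat_lit 2520) <| L.cons (nat_lit 1100620005377) (nat_lit 0) (nat_lit 1440) <|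
  L.cons (nat_lit 1100620005376) (nat_lit 0) (nat_lit 540) <| L.cons (nat_lit 1100618989569) (nat_lit 0) (nat_lit 1800) <| L.cons (nat_lit 1100618989568) (nat_lit 0) (nat_lit 540) <| L.cons (nat_lit 1100618924033) (nat_lit 3150) (nat_lit 0) <| L.cons (nat_lit 1100618924032) (nat_lit 1080) (nat_lit 0) <|
  L.cons (nat_lit 1100587499521) (nat_lit 360) (nat_lit 0) <| L.cons (nat_lit 1100587499520) (nat_lit 0) (nat_lit 360) <| L.cons (nat_lit 1100586483713) (nat_lit 3300) (nat_lit 0) <| L.cons (nat_lit 1100586483712) (nat_lit 780) (nat_lit 0) <| L.cons (nat_lit 1100586451968) (nat_lit 360) (nat_lit 0) <|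
  L.cons (nat_lit 1100586450976) (nat_lit 900) (nat_lit 0) <| L.cons (nat_lit 1100586418177) (nat_lit 0) (nat_lit 200) <| L.cons (nat_lit 1100586418176) (nat_lit 490) (nat_lit 0) <| L.cons (nat_lit 1100585467905) (nat_lit 3060) (nat_lit 0) <| L.cons (nat_lit 1100585467904) (nat_lit 1200) (nat_lit 0) <|
  f31_4

/-- data -/
def f31_2 : L :=
  L.cons (nat_lit 35184440246304) (nat_lit 0) (nat_lit 180) <| L.cons (nat_lit 35184407740448) (nat_lit 0) (nat_lit 120) <| L.cons (nat_lit 35184406757377) (nat_lit 180) (nat_lit 0) <| L.cons (nat_lit 35184406757376) (nat_lit 360) (nat_lit 0) <| L.cons (nat_lit 35184406725632) (nat_lit 360) (nat_lit 0) <|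
  L.cons (nat_lit 35184406724640) (nat_lit 180) (nat_lit 0) <| L.cons (nat_lit 35184405741569) (nat_lit 120) (nat_lit 0) <| L.cons (nat_lit 35184405741568) (nat_lit 360) (nat_lit 0) <| L.cons (nat_lit 35184405708832) (nat_lit 180) (nat_lit 0) <| L.cons (nat_lit 35184405676033) (nat_lit 0) (nat_lit 120) <|
  L.cons (nat_lit 35184405676032) (nat_lit 120) (nat_lit 0) <| L.cons (nat_lit 35184405643296) (nat_lit 1080) (nat_lit 0) <| L.cons (nat_lit 35184375235584) (nat_lit 0) (nat_lit 180) <| L.cons (nat_lit 35184375234592) (nat_lit 60) (nat_lit 0) <| L.cons (nat_lit 35184374251520) (nat_lit 60) (nat_lit 0) <|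
  L.cons (nat_lit 35184374219776) (nat_lit 0) (nat_lit 900) <| L.cons (nat_lit 35184374218784) (nat_lit 480) (nat_lit 0) <| L.cons (nat_lit 35184374185984) (nat_lit 0) (nat_lit 20) <| L.cons (nat_lit 35184373235713) (nat_lit 240) (nat_lit 0) <| L.cons (nat_lit 35184373235712) (nat_lit 360) (nat_lit 0) <|
  L.cons (nat_lit 35184373203968) (nat_lit 0) (nat_lit 780) <| L.cons (nat_lit 35184373202976) (nat_lit 1500) (nat_lit 0) <| L.cons (nat_lit 35184373170176) (nat_lit 0) (nat_lit 180) <| L.cons (nat_lit 35184373138432) (nat_lit 2280) (nat_lit 0) <| L.cons (nat_lit 35184373137440) (nat_lit 0) (nat_lit 600) <|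
  L.cons (nat_lit 35184372219905) (nat_lit 420) (nat_lit 0) <| L.cons (nat_lit 35184372219904) (nat_lit 360) (nat_lit 0) <| L.cons (nat_lit 35184372188160) (nat_lit 240) (nat_lit 0) <| L.cons (nat_lit 35184372187168) (nat_lit 1320) (nat_lit 0) <| L.cons (nat_lit 35184372154369) (nat_lit 0) (nat_lit 1260) <|
  L.cons (nat_lit 35184372154368) (nat_lit 0) (nat_lit 1800) <| L.cons (nat_lit 35184372122624) (nat_lit 0) (nat_lit 540) <| L.cons (nat_lit 35184372121632) (nat_lit 0) (nat_lit 5400) <| L.cons (nat_lit 35184372088833) (nat_lit 0) (nat_lit 336) <| L.cons (nat_lit 35184372088832) (nat_lit 672) (nat_lit 0) <|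
  L.cons (nat_lit 2233383026689) (nat_lit 0) (nat_lit 360) <| L.cons (nat_lit 2233383026688) (nat_lit 0) (nat_lit 720) <| L.cons (nat_lit 2233382994944) (nat_lit 0) (nat_lit 120) <| L.cons (nat_lit 2233382993952) (nat_lit 0) (nat_lit 840) <| L.cons (nat_lit 2200130551809) (nat_lit 1200) (nat_lit 0) <|
  L.cons (nat_lit 2200130551808) (nat_lit 360) (nat_lit 0) <| L.cons (nat_lit 2200098045953) (nat_lit 0) (nat_lit 240) <| L.cons (nat_lit 2200098045952) (nat_lit 240) (nat_lit 0) <| L.cons (nat_lit 2200097030145) (nat_lit 0) (nat_lit 2280) <| L.cons (nat_lit 2200097030144) (nat_lit 0) (nat_lit 840) <|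
  L.cons (nat_lit 2200096998400) (nat_lit 0) (nat_lit 240) <| L.cons (nat_lit 2200096997408) (nat_lit 0) (nat_lit 600) <| L.cons (nat_lit 2199057859584) (nat_lit 840) (nat_lit 0) <| L.cons (nat_lit 2199057858592) (nat_lit 0) (nat_lit 240) <| L.cons (nat_lit 2199056843776) (nat_lit 360) (nat_lit 0) <|
  f31_3

/-- data -/
def f31_1 : L :=
  L.cons (nat_lit 70368777732096) (nat_lit 0) (nat_lit 120) <| L.cons (nat_lit 70368745226241) (nat_lit 240) (nat_lit 0) <| L.cons (nat_lit 70368745226240) (nat_lit 120) (nat_lit 0) <| L.cons (nat_lit 70368744210433) (nat_lit 720) (nat_lit 0) <| L.cons (nat_lit 70368744210432) (nat_lit 480) (nat_lit 0) <|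
  L.cons (nat_lit 70368744178688) (nat_lit 120) (nat_lit 0) <| L.cons (nat_lit 70368744177696) (nat_lit 480) (nat_lit 0) <| L.cons (nat_lit 37383395344385) (nat_lit 240) (nat_lit 0) <| L.cons (nat_lit 37383395344384) (nat_lit 240) (nat_lit 0) <| L.cons (nat_lit 36318243454977) (nat_lit 360) (nat_lit 0) <|
  L.cons (nat_lit 36318243454976) (nat_lit 360) (nat_lit 0) <| L.cons (nat_lit 36284957458433) (nat_lit 1200) (nat_lit 0) <| L.cons (nat_lit 36284957458432) (nat_lit 600) (nat_lit 0) <| L.cons (nat_lit 36283917271072) (nat_lit 240) (nat_lit 0) <| L.cons (nat_lit 36283884797953) (nat_lit 0) (nat_lit 360) <|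
  L.cons (nat_lit 36283884797952) (nat_lit 0) (nat_lit 120) <| L.cons (nat_lit 36283884766208) (nat_lit 480) (nat_lit 0) <| L.cons (nat_lit 36283884765216) (nat_lit 240) (nat_lit 0) <| L.cons (nat_lit 36283883782145) (nat_lit 0) (nat_lit 840) <| L.cons (nat_lit 36283883782144) (nat_lit 0) (nat_lit 840) <|
  L.cons (nat_lit 36283883750400) (nat_lit 0) (nat_lit 240) <| L.cons (nat_lit 36283883749408) (nat_lit 0) (nat_lit 1440) <| L.cons (nat_lit 36283883716609) (nat_lit 720) (nat_lit 0) <| L.cons (nat_lit 36283883716608) (nat_lit 720) (nat_lit 0) <| L.cons (nat_lit 35253091565569) (nat_lit 0) (nat_lit 540) <|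
  L.cons (nat_lit 35253091565568) (nat_lit 0) (nat_lit 540) <| L.cons (nat_lit 35219805569025) (nat_lit 0) (nat_lit 720) <| L.cons (nat_lit 35219805569024) (nat_lit 0) (nat_lit 360) <| L.cons (nat_lit 35218766430209) (nat_lit 0) (nat_lit 180) <| L.cons (nat_lit 35218766430208) (nat_lit 0) (nat_lit 180) <|
  L.cons (nat_lit 35218765381664) (nat_lit 0) (nat_lit 540) <| L.cons (nat_lit 35218733924352) (nat_lit 0) (nat_lit 60) <| L.cons (nat_lit 35218732908545) (nat_lit 0) (nat_lit 540) <| L.cons (nat_lit 35218732908544) (nat_lit 0) (nat_lit 540) <| L.cons (nat_lit 35218732876800) (nat_lit 0) (nat_lit 540) <|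
  L.cons (nat_lit 35218732875808) (nat_lit 0) (nat_lit 360) <| L.cons (nat_lit 35218731892737) (nat_lit 0) (nat_lit 540) <| L.cons (nat_lit 35218731892736) (nat_lit 0) (nat_lit 540) <| L.cons (nat_lit 35218731827201) (nat_lit 1080) (nat_lit 0) <| L.cons (nat_lit 35218731827200) (nat_lit 1080) (nat_lit 0) <|
  L.cons (nat_lit 35185480433665) (nat_lit 0) (nat_lit 300) <| L.cons (nat_lit 35185480433664) (nat_lit 0) (nat_lit 120) <| L.cons (nat_lit 35185447927809) (nat_lit 0) (nat_lit 240) <| L.cons (nat_lit 35185447927808) (nat_lit 0) (nat_lit 60) <| L.cons (nat_lit 35185446912001) (nat_lit 0) (nat_lit 1200) <|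
  L.cons (nat_lit 35185446912000) (nat_lit 0) (nat_lit 480) <| L.cons (nat_lit 35185445896193) (nat_lit 0) (nat_lit 1140) <| L.cons (nat_lit 35185445896192) (nat_lit 0) (nat_lit 600) <| L.cons (nat_lit 35185445830657) (nat_lit 4380) (nat_lit 0) <| L.cons (nat_lit 35185445830656) (nat_lit 2160) (nat_lit 0) <|
  f31_2

/-- data -/
def f31 : L :=
  L.cons (nat_lit 36029896530591745) (nat_lit 0) (nat_lit 480) <| L.cons (nat_lit 36029896530591744) (nat_lit 0) (nat_lit 480) <| L.cons (nat_lit 36028831378702337) (nat_lit 720) (nat_lit 0) <| L.cons (nat_lit 36028831378702336) (nat_lit 360) (nat_lit 0) <| L.cons (nat_lit 36028798092705793) (nat_lit 360) (nat_lit 0) <|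
  L.cons (nat_lit 36028798092705792) (nat_lit 360) (nat_lit 0) <| L.cons (nat_lit 36028797053566977) (nat_lit 360) (nat_lit 0) <| L.cons (nat_lit 36028797052551169) (nat_lit 360) (nat_lit 0) <| L.cons (nat_lit 36028797052551168) (nat_lit 360) (nat_lit 0) <| L.cons (nat_lit 36028797052519424) (nat_lit 360) (nat_lit 0) <|
  L.cons (nat_lit 36028797052518432) (nat_lit 360) (nat_lit 0) <| L.cons (nat_lit 36028797021061120) (nat_lit 120) (nat_lit 0) <| L.cons (nat_lit 36028797020045312) (nat_lit 360) (nat_lit 0) <| L.cons (nat_lit 36028797020012576) (nat_lit 0) (nat_lit 120) <| L.cons (nat_lit 36028797019029505) (nat_lit 0) (nat_lit 360) <|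
  L.cons (nat_lit 36028797018997760) (nat_lit 0) (nat_lit 720) <| L.cons (nat_lit 36028797018996768) (nat_lit 0) (nat_lit 720) <| L.cons (nat_lit 36028797018963969) (nat_lit 0) (nat_lit 1200) <| L.cons (nat_lit 36028797018963968) (nat_lit 0) (nat_lit 960) <| L.cons (nat_lit 1161084278931457) (nat_lit 0) (nat_lit 480) <|
  L.cons (nat_lit 1161084278931456) (nat_lit 0) (nat_lit 240) <| L.cons (nat_lit 1126999418503169) (nat_lit 720) (nat_lit 0) <| L.cons (nat_lit 1126999418503168) (nat_lit 720) (nat_lit 0) <| L.cons (nat_lit 1126999418471424) (nat_lit 240) (nat_lit 0) <| L.cons (nat_lit 1126999418470432) (nat_lit 960) (nat_lit 0) <|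
  L.cons (nat_lit 1125900981633025) (nat_lit 0) (nat_lit 360) <| L.cons (nat_lit 1125900981633024) (nat_lit 0) (nat_lit 360) <| L.cons (nat_lit 1125900980617217) (nat_lit 0) (nat_lit 960) <| L.cons (nat_lit 1125900980617216) (nat_lit 0) (nat_lit 600) <| L.cons (nat_lit 1125899941478401) (nat_lit 0) (nat_lit 360) <|
  L.cons (nat_lit 1125899941478400) (nat_lit 0) (nat_lit 360) <| L.cons (nat_lit 1125899941446656) (nat_lit 0) (nat_lit 360) <| L.cons (nat_lit 1125899941445664) (nat_lit 0) (nat_lit 360) <| L.cons (nat_lit 1125899940462593) (nat_lit 0) (nat_lit 360) <| L.cons (nat_lit 1125899940462592) (nat_lit 0) (nat_lit 720) <|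
  L.cons (nat_lit 1125899940430848) (nat_lit 0) (nat_lit 360) <| L.cons (nat_lit 1125899940429856) (nat_lit 0) (nat_lit 720) <| L.cons (nat_lit 1125899908972544) (nat_lit 0) (nat_lit 120) <| L.cons (nat_lit 1125899908939808) (nat_lit 0) (nat_lit 240) <| L.cons (nat_lit 1125899907956736) (nat_lit 0) (nat_lit 360) <|
  L.cons (nat_lit 1125899907924992) (nat_lit 120) (nat_lit 0) <| L.cons (nat_lit 1125899907924000) (nat_lit 0) (nat_lit 360) <| L.cons (nat_lit 1125899906940929) (nat_lit 0) (nat_lit 120) <| L.cons (nat_lit 1125899906909184) (nat_lit 360) (nat_lit 0) <| L.cons (nat_lit 1125899906908192) (nat_lit 360) (nat_lit 0) <|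
  L.cons (nat_lit 1125899906875393) (nat_lit 2160) (nat_lit 0) <| L.cons (nat_lit 1125899906875392) (nat_lit 1440) (nat_lit 0) <| L.cons (nat_lit 1125899906843648) (nat_lit 720) (nat_lit 0) <| L.cons (nat_lit 1125899906842656) (nat_lit 2880) (nat_lit 0) <| L.cons (nat_lit 70368777732097) (nat_lit 0) (nat_lit 120) <|
  f31_1

/-- data -/
def f32_3 : L :=
  L.cons (nat_lit 131104) (nat_lit 3) (nat_lit 0) <| L.cons (nat_lit 99360) (nat_lit 8) (nat_lit 0) <| L.cons (nat_lit 98368) (nat_lit 0) (nat_lit 16) <| L.cons (nat_lit 98306) (nat_lit 0) (nat_lit 16) <| L.cons (nat_lit 98304) (nat_lit 0) (nat_lit 8) <|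
  L.cons (nat_lit 66561) (nat_lit 0) (nat_lit 12) <| L.cons (nat_lit 66560) (nat_lit 24) (nat_lit 0) <| L.cons (nat_lit 65569) (nat_lit 0) (nat_lit 12) <| L.cons (nat_lit 65568) (nat_lit 0) (nat_lit 36) <| L.cons (nat_lit 33824) (nat_lit 4) (nat_lit 0) <|
  L.cons (nat_lit 32832) (nat_lit 0) (nat_lit 8) <| L.cons (nat_lit 32770) (nat_lit 4) (nat_lit 0) <| L.cons (nat_lit 32769) (nat_lit 0) (nat_lit 12) <| L.cons (nat_lit 32768) (nat_lit 4) (nat_lit 0) <| L.cons (nat_lit 32) (nat_lit 0) (nat_lit 4) <|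
  L.nil

/-- data -/
def f32_2 : L :=
  L.cons (nat_lit 34668576) (nat_lit 0) (nat_lit 9) <| L.cons (nat_lit 34604033) (nat_lit 0) (nat_lit 6) <| L.cons (nat_lit 34604032) (nat_lit 6) (nat_lit 0) <| L.cons (nat_lit 34603041) (nat_lit 6) (nat_lit 0) <| L.cons (nat_lit 34603040) (nat_lit 0) (nat_lit 6) <|
  L.cons (nat_lit 33685506) (nat_lit 3) (nat_lit 0) <| L.cons (nat_lit 33653761) (nat_lit 3) (nat_lit 0) <| L.cons (nat_lit 33653760) (nat_lit 3) (nat_lit 0) <| L.cons (nat_lit 33652769) (nat_lit 3) (nat_lit 0) <| L.cons (nat_lit 33652768) (nat_lit 0) (nat_lit 6) <|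
  L.cons (nat_lit 33621024) (nat_lit 0) (nat_lit 9) <| L.cons (nat_lit 33620032) (nat_lit 9) (nat_lit 0) <| L.cons (nat_lit 33619970) (nat_lit 6) (nat_lit 0) <| L.cons (nat_lit 33588225) (nat_lit 6) (nat_lit 0) <| L.cons (nat_lit 33588224) (nat_lit 0) (nat_lit 18) <|
  L.cons (nat_lit 33587233) (nat_lit 6) (nat_lit 0) <| L.cons (nat_lit 33587232) (nat_lit 12) (nat_lit 0) <| L.cons (nat_lit 33555488) (nat_lit 0) (nat_lit 6) <| L.cons (nat_lit 33554496) (nat_lit 6) (nat_lit 0) <| L.cons (nat_lit 2163713) (nat_lit 9) (nat_lit 0) <|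
  L.cons (nat_lit 2163712) (nat_lit 0) (nat_lit 9) <| L.cons (nat_lit 2162721) (nat_lit 0) (nat_lit 3) <| L.cons (nat_lit 2162720) (nat_lit 3) (nat_lit 0) <| L.cons (nat_lit 2098177) (nat_lit 6) (nat_lit 0) <| L.cons (nat_lit 2098176) (nat_lit 0) (nat_lit 6) <|
  L.cons (nat_lit 2097185) (nat_lit 0) (nat_lit 2) <| L.cons (nat_lit 2097184) (nat_lit 2) (nat_lit 0) <| L.cons (nat_lit 1179649) (nat_lit 0) (nat_lit 6) <| L.cons (nat_lit 1179648) (nat_lit 6) (nat_lit 0) <| L.cons (nat_lit 1147905) (nat_lit 9) (nat_lit 0) <|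
  L.cons (nat_lit 1147904) (nat_lit 0) (nat_lit 12) <| L.cons (nat_lit 1146913) (nat_lit 0) (nat_lit 16) <| L.cons (nat_lit 1146912) (nat_lit 17) (nat_lit 0) <| L.cons (nat_lit 1115168) (nat_lit 9) (nat_lit 0) <| L.cons (nat_lit 1114176) (nat_lit 0) (nat_lit 3) <|
  L.cons (nat_lit 1114113) (nat_lit 0) (nat_lit 6) <| L.cons (nat_lit 1114112) (nat_lit 6) (nat_lit 0) <| L.cons (nat_lit 1082369) (nat_lit 6) (nat_lit 0) <| L.cons (nat_lit 1082368) (nat_lit 12) (nat_lit 0) <| L.cons (nat_lit 1081377) (nat_lit 0) (nat_lit 8) <|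
  L.cons (nat_lit 1081376) (nat_lit 2) (nat_lit 0) <| L.cons (nat_lit 1049632) (nat_lit 6) (nat_lit 0) <| L.cons (nat_lit 1048640) (nat_lit 0) (nat_lit 2) <| L.cons (nat_lit 1048577) (nat_lit 0) (nat_lit 4) <| L.cons (nat_lit 1048576) (nat_lit 4) (nat_lit 0) <|
  L.cons (nat_lit 163842) (nat_lit 0) (nat_lit 9) <| L.cons (nat_lit 163841) (nat_lit 3) (nat_lit 0) <| L.cons (nat_lit 163840) (nat_lit 3) (nat_lit 0) <| L.cons (nat_lit 132097) (nat_lit 0) (nat_lit 6) <| L.cons (nat_lit 131105) (nat_lit 0) (nat_lit 6) <|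
  f32_3

/-- data -/
def f32_1 : L :=
  L.cons (nat_lit 34393326593) (nat_lit 0) (nat_lit 9) <| L.cons (nat_lit 34393325601) (nat_lit 0) (nat_lit 9) <| L.cons (nat_lit 34393325600) (nat_lit 9) (nat_lit 0) <| L.cons (nat_lit 34393293856) (nat_lit 9) (nat_lit 0) <| L.cons (nat_lit 34393292864) (nat_lit 0) (nat_lit 9) <|
  L.cons (nat_lit 34361836545) (nat_lit 0) (nat_lit 9) <| L.cons (nat_lit 34361836544) (nat_lit 9) (nat_lit 0) <| L.cons (nat_lit 34361835553) (nat_lit 3) (nat_lit 0) <| L.cons (nat_lit 34361835552) (nat_lit 0) (nat_lit 3) <| L.cons (nat_lit 34360852481) (nat_lit 9) (nat_lit 0) <|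
  L.cons (nat_lit 34360852480) (nat_lit 0) (nat_lit 9) <| L.cons (nat_lit 34360820737) (nat_lit 0) (nat_lit 9) <| L.cons (nat_lit 34360820736) (nat_lit 9) (nat_lit 0) <| L.cons (nat_lit 34360819745) (nat_lit 12) (nat_lit 0) <| L.cons (nat_lit 34360819744) (nat_lit 0) (nat_lit 12) <|
  L.cons (nat_lit 34360788000) (nat_lit 0) (nat_lit 9) <| L.cons (nat_lit 34360787008) (nat_lit 3) (nat_lit 0) <| L.cons (nat_lit 34360786945) (nat_lit 12) (nat_lit 0) <| L.cons (nat_lit 34360786944) (nat_lit 0) (nat_lit 12) <| L.cons (nat_lit 34359836674) (nat_lit 33) (nat_lit 0) <|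
  L.cons (nat_lit 34359836673) (nat_lit 0) (nat_lit 9) <| L.cons (nat_lit 34359836672) (nat_lit 0) (nat_lit 6) <| L.cons (nat_lit 34359804929) (nat_lit 18) (nat_lit 0) <| L.cons (nat_lit 34359804928) (nat_lit 0) (nat_lit 9) <| L.cons (nat_lit 34359803937) (nat_lit 18) (nat_lit 0) <|
  L.cons (nat_lit 34359772192) (nat_lit 0) (nat_lit 6) <| L.cons (nat_lit 34359771200) (nat_lit 12) (nat_lit 0) <| L.cons (nat_lit 34359771138) (nat_lit 6) (nat_lit 0) <| L.cons (nat_lit 34359771137) (nat_lit 18) (nat_lit 0) <| L.cons (nat_lit 34359771136) (nat_lit 0) (nat_lit 12) <|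
  L.cons (nat_lit 34359738400) (nat_lit 12) (nat_lit 0) <| L.cons (nat_lit 1074855938) (nat_lit 12) (nat_lit 0) <| L.cons (nat_lit 1074855937) (nat_lit 0) (nat_lit 9) <| L.cons (nat_lit 1074855936) (nat_lit 0) (nat_lit 3) <| L.cons (nat_lit 1074790402) (nat_lit 8) (nat_lit 0) <|
  L.cons (nat_lit 1074790401) (nat_lit 0) (nat_lit 6) <| L.cons (nat_lit 1074790400) (nat_lit 0) (nat_lit 2) <| L.cons (nat_lit 1073840130) (nat_lit 3) (nat_lit 0) <| L.cons (nat_lit 1073840129) (nat_lit 0) (nat_lit 3) <| L.cons (nat_lit 1073840128) (nat_lit 0) (nat_lit 3) <|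
  L.cons (nat_lit 1073807393) (nat_lit 12) (nat_lit 0) <| L.cons (nat_lit 1073807392) (nat_lit 3) (nat_lit 0) <| L.cons (nat_lit 1073774594) (nat_lit 6) (nat_lit 0) <| L.cons (nat_lit 1073774593) (nat_lit 26) (nat_lit 0) <| L.cons (nat_lit 1073774592) (nat_lit 2) (nat_lit 0) <|
  L.cons (nat_lit 1073741857) (nat_lit 8) (nat_lit 0) <| L.cons (nat_lit 1073741856) (nat_lit 2) (nat_lit 0) <| L.cons (nat_lit 34669569) (nat_lit 0) (nat_lit 9) <| L.cons (nat_lit 34669568) (nat_lit 9) (nat_lit 0) <| L.cons (nat_lit 34668577) (nat_lit 9) (nat_lit 0) <|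
  f32_2

/-- data -/
def f32 : L :=
  L.cons (nat_lit 36283883716609) (nat_lit 0) (nat_lit 4) <| L.cons (nat_lit 36283883716608) (nat_lit 4) (nat_lit 0) <| L.cons (nat_lit 35218731827202) (nat_lit 12) (nat_lit 0) <| L.cons (nat_lit 35185445830658) (nat_lit 6) (nat_lit 0) <| L.cons (nat_lit 35185445830657) (nat_lit 10) (nat_lit 0) <|
  L.cons (nat_lit 35185445830656) (nat_lit 0) (nat_lit 2) <| L.cons (nat_lit 35184405676034) (nat_lit 6) (nat_lit 0) <| L.cons (nat_lit 35184405644289) (nat_lit 6) (nat_lit 0) <| L.cons (nat_lit 35184405644288) (nat_lit 0) (nat_lit 6) <| L.cons (nat_lit 35184405643297) (nat_lit 6) (nat_lit 0) <|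
  L.cons (nat_lit 35184373170177) (nat_lit 6) (nat_lit 0) <| L.cons (nat_lit 35184373170176) (nat_lit 0) (nat_lit 6) <| L.cons (nat_lit 35184373138432) (nat_lit 6) (nat_lit 0) <| L.cons (nat_lit 35184373137441) (nat_lit 4) (nat_lit 0) <| L.cons (nat_lit 35184373137440) (nat_lit 0) (nat_lit 6) <|
  L.cons (nat_lit 35184372154370) (nat_lit 0) (nat_lit 18) <| L.cons (nat_lit 35184372154369) (nat_lit 6) (nat_lit 0) <| L.cons (nat_lit 35184372154368) (nat_lit 0) (nat_lit 6) <| L.cons (nat_lit 35184372122625) (nat_lit 0) (nat_lit 12) <| L.cons (nat_lit 35184372122624) (nat_lit 12) (nat_lit 0) <|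
  L.cons (nat_lit 35184372121633) (nat_lit 0) (nat_lit 12) <| L.cons (nat_lit 35184372089888) (nat_lit 0) (nat_lit 2) <| L.cons (nat_lit 35184372088896) (nat_lit 4) (nat_lit 0) <| L.cons (nat_lit 35184372088834) (nat_lit 4) (nat_lit 0) <| L.cons (nat_lit 35184372088833) (nat_lit 0) (nat_lit 12) <|
  L.cons (nat_lit 35184372088832) (nat_lit 12) (nat_lit 0) <| L.cons (nat_lit 1133871398913) (nat_lit 6) (nat_lit 0) <| L.cons (nat_lit 1133871398912) (nat_lit 0) (nat_lit 6) <| L.cons (nat_lit 1099511726081) (nat_lit 0) (nat_lit 2) <| L.cons (nat_lit 1099511726080) (nat_lit 2) (nat_lit 0) <|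
  L.cons (nat_lit 1099511660545) (nat_lit 0) (nat_lit 4) <| L.cons (nat_lit 1099511660544) (nat_lit 4) (nat_lit 0) <| L.cons (nat_lit 68720525313) (nat_lit 0) (nat_lit 9) <| L.cons (nat_lit 68720525312) (nat_lit 9) (nat_lit 0) <| L.cons (nat_lit 68719509506) (nat_lit 0) (nat_lit 18) <|
  L.cons (nat_lit 68719509504) (nat_lit 9) (nat_lit 0) <| L.cons (nat_lit 68719476768) (nat_lit 0) (nat_lit 9) <| L.cons (nat_lit 35434528770) (nat_lit 0) (nat_lit 12) <| L.cons (nat_lit 35434528769) (nat_lit 9) (nat_lit 0) <| L.cons (nat_lit 35434528768) (nat_lit 3) (nat_lit 0) <|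
  L.cons (nat_lit 35433512962) (nat_lit 0) (nat_lit 9) <| L.cons (nat_lit 35433512961) (nat_lit 0) (nat_lit 3) <| L.cons (nat_lit 35433512960) (nat_lit 6) (nat_lit 0) <| L.cons (nat_lit 35433480225) (nat_lit 0) (nat_lit 12) <| L.cons (nat_lit 35433480224) (nat_lit 0) (nat_lit 3) <|
  L.cons (nat_lit 34394342401) (nat_lit 9) (nat_lit 0) <| L.cons (nat_lit 34394342400) (nat_lit 0) (nat_lit 9) <| L.cons (nat_lit 34394341409) (nat_lit 0) (nat_lit 9) <| L.cons (nat_lit 34394341408) (nat_lit 9) (nat_lit 0) <| L.cons (nat_lit 34393358338) (nat_lit 0) (nat_lit 9) <|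
  f32_1

/-- data -/
def f33_5 : L :=
  L.cons (nat_lit 66561) (nat_lit 0) (nat_lit 24) <| L.cons (nat_lit 66560) (nat_lit 24) (nat_lit 0) <| L.cons (nat_lit 65569) (nat_lit 0) (nat_lit 12) <| L.cons (nat_lit 33824) (nat_lit 12) (nat_lit 0) <| L.cons (nat_lit 32832) (nat_lit 12) (nat_lit 0) <|
  L.cons (nat_lit 32770) (nat_lit 8) (nat_lit 0) <| L.cons (nat_lit 32769) (nat_lit 0) (nat_lit 16) <| L.cons (nat_lit 32768) (nat_lit 8) (nat_lit 0) <| L.cons (nat_lit 33) (nat_lit 0) (nat_lit 24) <| L.cons (nat_lit 32) (nat_lit 48) (nat_lit 0) <|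
  L.nil

/-- data -/
def f33_4 : L :=
  L.cons (nat_lit 3145792) (nat_lit 0) (nat_lit 1) <| L.cons (nat_lit 3145730) (nat_lit 2) (nat_lit 0) <| L.cons (nat_lit 3145729) (nat_lit 0) (nat_lit 10) <| L.cons (nat_lit 3145728) (nat_lit 10) (nat_lit 0) <| L.cons (nat_lit 2195458) (nat_lit 7) (nat_lit 0) <|
  L.cons (nat_lit 2195457) (nat_lit 0) (nat_lit 8) <| L.cons (nat_lit 2195456) (nat_lit 9) (nat_lit 0) <| L.cons (nat_lit 2163713) (nat_lit 9) (nat_lit 0) <| L.cons (nat_lit 2163712) (nat_lit 0) (nat_lit 39) <| L.cons (nat_lit 2162721) (nat_lit 0) (nat_lit 6) <|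
  L.cons (nat_lit 2162720) (nat_lit 30) (nat_lit 0) <| L.cons (nat_lit 2131968) (nat_lit 0) (nat_lit 6) <| L.cons (nat_lit 2130976) (nat_lit 9) (nat_lit 0) <| L.cons (nat_lit 2129984) (nat_lit 0) (nat_lit 6) <| L.cons (nat_lit 2129922) (nat_lit 2) (nat_lit 0) <|
  L.cons (nat_lit 2129921) (nat_lit 0) (nat_lit 20) <| L.cons (nat_lit 2129920) (nat_lit 22) (nat_lit 0) <| L.cons (nat_lit 2098177) (nat_lit 2) (nat_lit 0) <| L.cons (nat_lit 2098176) (nat_lit 16) (nat_lit 0) <| L.cons (nat_lit 2097185) (nat_lit 2) (nat_lit 0) <|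
  L.cons (nat_lit 2097184) (nat_lit 0) (nat_lit 14) <| L.cons (nat_lit 1179650) (nat_lit 15) (nat_lit 0) <| L.cons (nat_lit 1147905) (nat_lit 8) (nat_lit 0) <| L.cons (nat_lit 1147904) (nat_lit 0) (nat_lit 16) <| L.cons (nat_lit 1146913) (nat_lit 17) (nat_lit 0) <|
  L.cons (nat_lit 1146912) (nat_lit 8) (nat_lit 0) <| L.cons (nat_lit 1115168) (nat_lit 21) (nat_lit 0) <| L.cons (nat_lit 1114176) (nat_lit 0) (nat_lit 9) <| L.cons (nat_lit 1114114) (nat_lit 0) (nat_lit 48) <| L.cons (nat_lit 1114113) (nat_lit 24) (nat_lit 0) <|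
  L.cons (nat_lit 1114112) (nat_lit 24) (nat_lit 0) <| L.cons (nat_lit 1082369) (nat_lit 0) (nat_lit 20) <| L.cons (nat_lit 1082368) (nat_lit 40) (nat_lit 0) <| L.cons (nat_lit 1081377) (nat_lit 0) (nat_lit 22) <| L.cons (nat_lit 1081376) (nat_lit 0) (nat_lit 28) <|
  L.cons (nat_lit 1049632) (nat_lit 0) (nat_lit 6) <| L.cons (nat_lit 1048578) (nat_lit 0) (nat_lit 12) <| L.cons (nat_lit 1048577) (nat_lit 48) (nat_lit 0) <| L.cons (nat_lit 1048576) (nat_lit 0) (nat_lit 48) <| L.cons (nat_lit 163842) (nat_lit 18) (nat_lit 0) <|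
  L.cons (nat_lit 163841) (nat_lit 0) (nat_lit 12) <| L.cons (nat_lit 163840) (nat_lit 0) (nat_lit 6) <| L.cons (nat_lit 132097) (nat_lit 12) (nat_lit 0) <| L.cons (nat_lit 132096) (nat_lit 0) (nat_lit 12) <| L.cons (nat_lit 131104) (nat_lit 0) (nat_lit 12) <|
  L.cons (nat_lit 99360) (nat_lit 0) (nat_lit 8) <| L.cons (nat_lit 98368) (nat_lit 0) (nat_lit 8) <| L.cons (nat_lit 98306) (nat_lit 0) (nat_lit 40) <| L.cons (nat_lit 98305) (nat_lit 32) (nat_lit 0) <| L.cons (nat_lit 98304) (nat_lit 8) (nat_lit 0) <|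
  f33_5

/-- data -/
def f33_3 : L :=
  L.cons (nat_lit 36700193) (nat_lit 6) (nat_lit 0) <| L.cons (nat_lit 36700192) (nat_lit 0) (nat_lit 9) <| L.cons (nat_lit 35685377) (nat_lit 0) (nat_lit 33) <| L.cons (nat_lit 35685376) (nat_lit 48) (nat_lit 0) <| L.cons (nat_lit 35684385) (nat_lit 30) (nat_lit 0) <|
  L.cons (nat_lit 35684384) (nat_lit 0) (nat_lit 42) <| L.cons (nat_lit 35653632) (nat_lit 3) (nat_lit 0) <| L.cons (nat_lit 35652640) (nat_lit 0) (nat_lit 12) <| L.cons (nat_lit 35651648) (nat_lit 6) (nat_lit 0) <| L.cons (nat_lit 35651585) (nat_lit 6) (nat_lit 0) <|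
  L.cons (nat_lit 35651584) (nat_lit 0) (nat_lit 6) <| L.cons (nat_lit 34701314) (nat_lit 0) (nat_lit 3) <| L.cons (nat_lit 34669569) (nat_lit 0) (nat_lit 18) <| L.cons (nat_lit 34669568) (nat_lit 27) (nat_lit 0) <| L.cons (nat_lit 34668577) (nat_lit 18) (nat_lit 0) <|
  L.cons (nat_lit 34668576) (nat_lit 0) (nat_lit 27) <| L.cons (nat_lit 34636832) (nat_lit 0) (nat_lit 39) <| L.cons (nat_lit 34635840) (nat_lit 30) (nat_lit 0) <| L.cons (nat_lit 34635778) (nat_lit 18) (nat_lit 0) <| L.cons (nat_lit 34635776) (nat_lit 0) (nat_lit 24) <|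
  L.cons (nat_lit 34604033) (nat_lit 18) (nat_lit 0) <| L.cons (nat_lit 34604032) (nat_lit 0) (nat_lit 36) <| L.cons (nat_lit 34603040) (nat_lit 24) (nat_lit 0) <| L.cons (nat_lit 33685506) (nat_lit 0) (nat_lit 6) <| L.cons (nat_lit 33685504) (nat_lit 6) (nat_lit 0) <|
  L.cons (nat_lit 33653761) (nat_lit 0) (nat_lit 6) <| L.cons (nat_lit 33653760) (nat_lit 6) (nat_lit 0) <| L.cons (nat_lit 33652769) (nat_lit 27) (nat_lit 0) <| L.cons (nat_lit 33652768) (nat_lit 24) (nat_lit 0) <| L.cons (nat_lit 33621024) (nat_lit 9) (nat_lit 0) <|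
  L.cons (nat_lit 33620032) (nat_lit 45) (nat_lit 0) <| L.cons (nat_lit 33619970) (nat_lit 12) (nat_lit 0) <| L.cons (nat_lit 33619968) (nat_lit 0) (nat_lit 12) <| L.cons (nat_lit 33588225) (nat_lit 12) (nat_lit 0) <| L.cons (nat_lit 33588224) (nat_lit 0) (nat_lit 12) <|
  L.cons (nat_lit 33587233) (nat_lit 6) (nat_lit 0) <| L.cons (nat_lit 33554496) (nat_lit 0) (nat_lit 18) <| L.cons (nat_lit 4195329) (nat_lit 3) (nat_lit 0) <| L.cons (nat_lit 4195328) (nat_lit 0) (nat_lit 6) <| L.cons (nat_lit 4194337) (nat_lit 0) (nat_lit 1) <|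
  L.cons (nat_lit 4194336) (nat_lit 2) (nat_lit 0) <| L.cons (nat_lit 3211266) (nat_lit 3) (nat_lit 0) <| L.cons (nat_lit 3211265) (nat_lit 0) (nat_lit 3) <| L.cons (nat_lit 3211264) (nat_lit 3) (nat_lit 0) <| L.cons (nat_lit 3179521) (nat_lit 15) (nat_lit 0) <|
  L.cons (nat_lit 3179520) (nat_lit 0) (nat_lit 27) <| L.cons (nat_lit 3178529) (nat_lit 0) (nat_lit 6) <| L.cons (nat_lit 3178528) (nat_lit 15) (nat_lit 0) <| L.cons (nat_lit 3147776) (nat_lit 1) (nat_lit 0) <| L.cons (nat_lit 3146784) (nat_lit 3) (nat_lit 0) <|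
  f33_4

/-- data -/
def f33_2 : L :=
  L.cons (nat_lit 34359738400) (nat_lit 0) (nat_lit 18) <| L.cons (nat_lit 1109393410) (nat_lit 0) (nat_lit 12) <| L.cons (nat_lit 1109393409) (nat_lit 9) (nat_lit 0) <| L.cons (nat_lit 1109393408) (nat_lit 3) (nat_lit 0) <| L.cons (nat_lit 1108377602) (nat_lit 0) (nat_lit 12) <|
  L.cons (nat_lit 1108377601) (nat_lit 9) (nat_lit 0) <| L.cons (nat_lit 1108377600) (nat_lit 3) (nat_lit 0) <| L.cons (nat_lit 1108344865) (nat_lit 0) (nat_lit 12) <| L.cons (nat_lit 1108344864) (nat_lit 0) (nat_lit 3) <| L.cons (nat_lit 1107329057) (nat_lit 0) (nat_lit 21) <|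
  L.cons (nat_lit 1107329056) (nat_lit 0) (nat_lit 12) <| L.cons (nat_lit 1076887554) (nat_lit 3) (nat_lit 0) <| L.cons (nat_lit 1076887553) (nat_lit 0) (nat_lit 7) <| L.cons (nat_lit 1076887552) (nat_lit 0) (nat_lit 1) <| L.cons (nat_lit 1075871746) (nat_lit 9) (nat_lit 0) <|
  L.cons (nat_lit 1075871745) (nat_lit 0) (nat_lit 21) <| L.cons (nat_lit 1075871744) (nat_lit 0) (nat_lit 3) <| L.cons (nat_lit 1075840001) (nat_lit 3) (nat_lit 0) <| L.cons (nat_lit 1075840000) (nat_lit 3) (nat_lit 0) <| L.cons (nat_lit 1075839009) (nat_lit 3) (nat_lit 0) <|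
  L.cons (nat_lit 1074855938) (nat_lit 0) (nat_lit 3) <| L.cons (nat_lit 1074855937) (nat_lit 0) (nat_lit 12) <| L.cons (nat_lit 1074823201) (nat_lit 9) (nat_lit 0) <| L.cons (nat_lit 1074790402) (nat_lit 6) (nat_lit 0) <| L.cons (nat_lit 1074790401) (nat_lit 24) (nat_lit 0) <|
  L.cons (nat_lit 1073840130) (nat_lit 0) (nat_lit 6) <| L.cons (nat_lit 1073840128) (nat_lit 6) (nat_lit 0) <| L.cons (nat_lit 1073807393) (nat_lit 6) (nat_lit 0) <| L.cons (nat_lit 1073807392) (nat_lit 6) (nat_lit 0) <| L.cons (nat_lit 1073774594) (nat_lit 12) (nat_lit 0) <|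
  L.cons (nat_lit 1073774592) (nat_lit 0) (nat_lit 12) <| L.cons (nat_lit 1073741857) (nat_lit 0) (nat_lit 12) <| L.cons (nat_lit 1073741856) (nat_lit 0) (nat_lit 12) <| L.cons (nat_lit 69207041) (nat_lit 9) (nat_lit 0) <| L.cons (nat_lit 69207040) (nat_lit 0) (nat_lit 9) <|
  L.cons (nat_lit 69206049) (nat_lit 0) (nat_lit 9) <| L.cons (nat_lit 69206048) (nat_lit 9) (nat_lit 0) <| L.cons (nat_lit 68191233) (nat_lit 9) (nat_lit 0) <| L.cons (nat_lit 68191232) (nat_lit 0) (nat_lit 9) <| L.cons (nat_lit 68190241) (nat_lit 0) (nat_lit 9) <|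
  L.cons (nat_lit 68190240) (nat_lit 9) (nat_lit 0) <| L.cons (nat_lit 68158496) (nat_lit 9) (nat_lit 0) <| L.cons (nat_lit 68157504) (nat_lit 0) (nat_lit 9) <| L.cons (nat_lit 67174433) (nat_lit 0) (nat_lit 9) <| L.cons (nat_lit 67174432) (nat_lit 0) (nat_lit 9) <|
  L.cons (nat_lit 67141696) (nat_lit 0) (nat_lit 18) <| L.cons (nat_lit 36732929) (nat_lit 0) (nat_lit 3) <| L.cons (nat_lit 36732928) (nat_lit 3) (nat_lit 0) <| L.cons (nat_lit 36701185) (nat_lit 0) (nat_lit 15) <| L.cons (nat_lit 36701184) (nat_lit 18) (nat_lit 0) <|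
  f33_3

/-- data -/
def f33_1 : L :=
  L.cons (nat_lit 1099511660545) (nat_lit 0) (nat_lit 8) <| L.cons (nat_lit 1099511660544) (nat_lit 8) (nat_lit 0) <| L.cons (nat_lit 1099511627809) (nat_lit 0) (nat_lit 4) <| L.cons (nat_lit 1099511627808) (nat_lit 20) (nat_lit 0) <| L.cons (nat_lit 68719509506) (nat_lit 18) (nat_lit 0) <|
  L.cons (nat_lit 68719509505) (nat_lit 0) (nat_lit 9) <| L.cons (nat_lit 68719509504) (nat_lit 0) (nat_lit 9) <| L.cons (nat_lit 35433512962) (nat_lit 9) (nat_lit 0) <| L.cons (nat_lit 35433512960) (nat_lit 0) (nat_lit 9) <| L.cons (nat_lit 34395389953) (nat_lit 0) (nat_lit 9) <|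
  L.cons (nat_lit 34395389952) (nat_lit 9) (nat_lit 0) <| L.cons (nat_lit 34394374144) (nat_lit 9) (nat_lit 0) <| L.cons (nat_lit 34394341408) (nat_lit 0) (nat_lit 9) <| L.cons (nat_lit 34393358338) (nat_lit 9) (nat_lit 0) <| L.cons (nat_lit 34393358336) (nat_lit 0) (nat_lit 9) <|
  L.cons (nat_lit 34393326593) (nat_lit 9) (nat_lit 0) <| L.cons (nat_lit 34393326592) (nat_lit 0) (nat_lit 9) <| L.cons (nat_lit 34393325601) (nat_lit 0) (nat_lit 9) <| L.cons (nat_lit 34393325600) (nat_lit 0) (nat_lit 27) <| L.cons (nat_lit 34362884098) (nat_lit 0) (nat_lit 3) <|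
  L.cons (nat_lit 34362884097) (nat_lit 6) (nat_lit 0) <| L.cons (nat_lit 34362884096) (nat_lit 0) (nat_lit 6) <| L.cons (nat_lit 34361868290) (nat_lit 0) (nat_lit 3) <| L.cons (nat_lit 34361868289) (nat_lit 12) (nat_lit 0) <| L.cons (nat_lit 34361868288) (nat_lit 0) (nat_lit 15) <|
  L.cons (nat_lit 34361836545) (nat_lit 6) (nat_lit 0) <| L.cons (nat_lit 34361836544) (nat_lit 3) (nat_lit 0) <| L.cons (nat_lit 34361835553) (nat_lit 0) (nat_lit 3) <| L.cons (nat_lit 34361835552) (nat_lit 3) (nat_lit 0) <| L.cons (nat_lit 34360852482) (nat_lit 0) (nat_lit 9) <|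
  L.cons (nat_lit 34360852481) (nat_lit 0) (nat_lit 9) <| L.cons (nat_lit 34360852480) (nat_lit 0) (nat_lit 9) <| L.cons (nat_lit 34360820737) (nat_lit 3) (nat_lit 0) <| L.cons (nat_lit 34360820736) (nat_lit 0) (nat_lit 6) <| L.cons (nat_lit 34360819745) (nat_lit 0) (nat_lit 3) <|
  L.cons (nat_lit 34360819744) (nat_lit 6) (nat_lit 0) <| L.cons (nat_lit 34360786946) (nat_lit 18) (nat_lit 0) <| L.cons (nat_lit 34360786945) (nat_lit 0) (nat_lit 18) <| L.cons (nat_lit 34360786944) (nat_lit 18) (nat_lit 0) <| L.cons (nat_lit 34359836674) (nat_lit 0) (nat_lit 39) <|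
  L.cons (nat_lit 34359836673) (nat_lit 24) (nat_lit 0) <| L.cons (nat_lit 34359836672) (nat_lit 15) (nat_lit 0) <| L.cons (nat_lit 34359804929) (nat_lit 0) (nat_lit 18) <| L.cons (nat_lit 34359804928) (nat_lit 18) (nat_lit 0) <| L.cons (nat_lit 34359803937) (nat_lit 0) (nat_lit 9) <|
  L.cons (nat_lit 34359803936) (nat_lit 27) (nat_lit 0) <| L.cons (nat_lit 34359771138) (nat_lit 30) (nat_lit 0) <| L.cons (nat_lit 34359771137) (nat_lit 0) (nat_lit 24) <| L.cons (nat_lit 34359771136) (nat_lit 0) (nat_lit 6) <| L.cons (nat_lit 34359738401) (nat_lit 0) (nat_lit 18) <|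
  f33_2

/-- data -/
def f33 : L :=
  L.cons (nat_lit 35184406691842) (nat_lit 6) (nat_lit 0) <| L.cons (nat_lit 35184406691841) (nat_lit 0) (nat_lit 12) <| L.cons (nat_lit 35184405643297) (nat_lit 6) (nat_lit 0) <| L.cons (nat_lit 35184374185986) (nat_lit 0) (nat_lit 4) <| L.cons (nat_lit 35184374185985) (nat_lit 6) (nat_lit 0) <|
  L.cons (nat_lit 35184374185984) (nat_lit 0) (nat_lit 4) <| L.cons (nat_lit 35184373170178) (nat_lit 0) (nat_lit 12) <| L.cons (nat_lit 35184373170177) (nat_lit 24) (nat_lit 0) <| L.cons (nat_lit 35184373138433) (nat_lit 0) (nat_lit 2) <| L.cons (nat_lit 35184373138432) (nat_lit 4) (nat_lit 0) <|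
  L.cons (nat_lit 35184373137441) (nat_lit 0) (nat_lit 6) <| L.cons (nat_lit 35184373137440) (nat_lit 6) (nat_lit 0) <| L.cons (nat_lit 35184372121633) (nat_lit 0) (nat_lit 12) <| L.cons (nat_lit 35184372089888) (nat_lit 0) (nat_lit 2) <| L.cons (nat_lit 35184372088896) (nat_lit 0) (nat_lit 2) <|
  L.cons (nat_lit 1133872414722) (nat_lit 6) (nat_lit 0) <| L.cons (nat_lit 1133871398913) (nat_lit 0) (nat_lit 6) <| L.cons (nat_lit 1133871398912) (nat_lit 6) (nat_lit 0) <| L.cons (nat_lit 1133871366177) (nat_lit 6) (nat_lit 0) <| L.cons (nat_lit 1133871366176) (nat_lit 6) (nat_lit 0) <|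
  L.cons (nat_lit 1100586418178) (nat_lit 10) (nat_lit 0) <| L.cons (nat_lit 1100586418177) (nat_lit 2) (nat_lit 0) <| L.cons (nat_lit 1100586418176) (nat_lit 0) (nat_lit 2) <| L.cons (nat_lit 1100585369633) (nat_lit 10) (nat_lit 0) <| L.cons (nat_lit 1100585369632) (nat_lit 4) (nat_lit 0) <|
  L.cons (nat_lit 1099546263553) (nat_lit 6) (nat_lit 0) <| L.cons (nat_lit 1099546263552) (nat_lit 0) (nat_lit 6) <| L.cons (nat_lit 1099546231808) (nat_lit 0) (nat_lit 6) <| L.cons (nat_lit 1099546230817) (nat_lit 6) (nat_lit 0) <| L.cons (nat_lit 1099545215008) (nat_lit 12) (nat_lit 0) <|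
  L.cons (nat_lit 1099545182272) (nat_lit 6) (nat_lit 0) <| L.cons (nat_lit 1099513725953) (nat_lit 6) (nat_lit 0) <| L.cons (nat_lit 1099513725952) (nat_lit 0) (nat_lit 2) <| L.cons (nat_lit 1099513724961) (nat_lit 0) (nat_lit 2) <| L.cons (nat_lit 1099512741890) (nat_lit 0) (nat_lit 6) <|
  L.cons (nat_lit 1099512741889) (nat_lit 0) (nat_lit 6) <| L.cons (nat_lit 1099512741888) (nat_lit 6) (nat_lit 0) <| L.cons (nat_lit 1099512710144) (nat_lit 6) (nat_lit 0) <| L.cons (nat_lit 1099512709153) (nat_lit 0) (nat_lit 18) <| L.cons (nat_lit 1099512709152) (nat_lit 6) (nat_lit 0) <|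
  L.cons (nat_lit 1099512677408) (nat_lit 6) (nat_lit 0) <| L.cons (nat_lit 1099512676416) (nat_lit 0) (nat_lit 2) <| L.cons (nat_lit 1099512676354) (nat_lit 0) (nat_lit 4) <| L.cons (nat_lit 1099512676353) (nat_lit 12) (nat_lit 0) <| L.cons (nat_lit 1099512676352) (nat_lit 0) (nat_lit 12) <|
  L.cons (nat_lit 1099511726081) (nat_lit 4) (nat_lit 0) <| L.cons (nat_lit 1099511726080) (nat_lit 0) (nat_lit 4) <| L.cons (nat_lit 1099511693345) (nat_lit 0) (nat_lit 6) <| L.cons (nat_lit 1099511693344) (nat_lit 0) (nat_lit 18) <| L.cons (nat_lit 1099511660608) (nat_lit 0) (nat_lit 18) <|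
  f33_1

/-- data -/
def f35_6 : L :=
  L.cons (nat_lit 1146944) (nat_lit 135) (nat_lit 0) <| L.cons (nat_lit 1146881) (nat_lit 225) (nat_lit 0) <| L.cons (nat_lit 1146880) (nat_lit 0) (nat_lit 225) <| L.cons (nat_lit 1115137) (nat_lit 0) (nat_lit 225) <| L.cons (nat_lit 1115136) (nat_lit 0) (nat_lit 540) <|
  L.cons (nat_lit 1114145) (nat_lit 300) (nat_lit 0) <| L.cons (nat_lit 1114144) (nat_lit 0) (nat_lit 45) <| L.cons (nat_lit 1082400) (nat_lit 0) (nat_lit 270) <| L.cons (nat_lit 1081408) (nat_lit 90) (nat_lit 0) <| L.cons (nat_lit 1081345) (nat_lit 216) (nat_lit 0) <|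
  L.cons (nat_lit 1081344) (nat_lit 0) (nat_lit 216) <| L.cons (nat_lit 1049601) (nat_lit 30) (nat_lit 0) <| L.cons (nat_lit 1049600) (nat_lit 450) (nat_lit 0) <| L.cons (nat_lit 1048609) (nat_lit 4) (nat_lit 0) <| L.cons (nat_lit 1048608) (nat_lit 0) (nat_lit 164) <|
  L.cons (nat_lit 196610) (nat_lit 405) (nat_lit 0) <| L.cons (nat_lit 196609) (nat_lit 0) (nat_lit 135) <| L.cons (nat_lit 196608) (nat_lit 0) (nat_lit 135) <| L.cons (nat_lit 164865) (nat_lit 270) (nat_lit 0) <| L.cons (nat_lit 163873) (nat_lit 270) (nat_lit 0) <|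
  L.cons (nat_lit 163872) (nat_lit 0) (nat_lit 135) <| L.cons (nat_lit 132128) (nat_lit 0) (nat_lit 360) <| L.cons (nat_lit 131136) (nat_lit 720) (nat_lit 0) <| L.cons (nat_lit 131074) (nat_lit 585) (nat_lit 0) <| L.cons (nat_lit 131073) (nat_lit 60) (nat_lit 0) <|
  L.cons (nat_lit 131072) (nat_lit 390) (nat_lit 0) <| L.cons (nat_lit 99329) (nat_lit 450) (nat_lit 0) <| L.cons (nat_lit 99328) (nat_lit 0) (nat_lit 990) <| L.cons (nat_lit 98337) (nat_lit 450) (nat_lit 0) <| L.cons (nat_lit 98336) (nat_lit 1620) (nat_lit 0) <|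
  L.cons (nat_lit 66592) (nat_lit 0) (nat_lit 150) <| L.cons (nat_lit 65600) (nat_lit 300) (nat_lit 0) <| L.cons (nat_lit 65538) (nat_lit 0) (nat_lit 438) <| L.cons (nat_lit 65537) (nat_lit 612) (nat_lit 0) <| L.cons (nat_lit 65536) (nat_lit 0) (nat_lit 504) <|
  L.cons (nat_lit 33793) (nat_lit 0) (nat_lit 192) <| L.cons (nat_lit 33792) (nat_lit 582) (nat_lit 0) <| L.cons (nat_lit 32801) (nat_lit 0) (nat_lit 192) <| L.cons (nat_lit 32800) (nat_lit 0) (nat_lit 462) <| L.cons (nat_lit 1056) (nat_lit 0) (nat_lit 2) <|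
  L.cons (nat_lit 64) (nat_lit 4) (nat_lit 0) <| L.cons (nat_lit 2) (nat_lit 64) (nat_lit 0) <| L.cons (nat_lit 1) (nat_lit 0) (nat_lit 128) <| L.cons (nat_lit 0) (nat_lit 0) (nat_lit 256) <|
  L.nil

/-- data -/
def f35_5 : L :=
  L.cons (nat_lit 35651616) (nat_lit 0) (nat_lit 90) <| L.cons (nat_lit 34702337) (nat_lit 135) (nat_lit 0) <| L.cons (nat_lit 34702336) (nat_lit 0) (nat_lit 270) <| L.cons (nat_lit 34701345) (nat_lit 0) (nat_lit 135) <| L.cons (nat_lit 34701344) (nat_lit 180) (nat_lit 0) <|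
  L.cons (nat_lit 34669600) (nat_lit 0) (nat_lit 270) <| L.cons (nat_lit 34668608) (nat_lit 135) (nat_lit 0) <| L.cons (nat_lit 34636801) (nat_lit 90) (nat_lit 0) <| L.cons (nat_lit 34636800) (nat_lit 0) (nat_lit 360) <| L.cons (nat_lit 34635809) (nat_lit 0) (nat_lit 90) <|
  L.cons (nat_lit 34635808) (nat_lit 180) (nat_lit 0) <| L.cons (nat_lit 34604064) (nat_lit 0) (nat_lit 180) <| L.cons (nat_lit 34603072) (nat_lit 90) (nat_lit 0) <| L.cons (nat_lit 33718274) (nat_lit 0) (nat_lit 135) <| L.cons (nat_lit 33718272) (nat_lit 45) (nat_lit 0) <|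
  L.cons (nat_lit 33686529) (nat_lit 0) (nat_lit 135) <| L.cons (nat_lit 33686528) (nat_lit 0) (nat_lit 225) <| L.cons (nat_lit 33685537) (nat_lit 0) (nat_lit 135) <| L.cons (nat_lit 33685536) (nat_lit 450) (nat_lit 0) <| L.cons (nat_lit 33653792) (nat_lit 135) (nat_lit 0) <|
  L.cons (nat_lit 33652800) (nat_lit 0) (nat_lit 135) <| L.cons (nat_lit 33652738) (nat_lit 0) (nat_lit 225) <| L.cons (nat_lit 33652736) (nat_lit 75) (nat_lit 0) <| L.cons (nat_lit 33620993) (nat_lit 0) (nat_lit 225) <| L.cons (nat_lit 33620992) (nat_lit 540) (nat_lit 0) <|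
  L.cons (nat_lit 33620001) (nat_lit 0) (nat_lit 225) <| L.cons (nat_lit 33620000) (nat_lit 0) (nat_lit 180) <| L.cons (nat_lit 33588256) (nat_lit 90) (nat_lit 0) <| L.cons (nat_lit 33587264) (nat_lit 0) (nat_lit 90) <| L.cons (nat_lit 33587202) (nat_lit 96) (nat_lit 0) <|
  L.cons (nat_lit 33587200) (nat_lit 0) (nat_lit 36) <| L.cons (nat_lit 33555457) (nat_lit 96) (nat_lit 0) <| L.cons (nat_lit 33555456) (nat_lit 0) (nat_lit 576) <| L.cons (nat_lit 33554465) (nat_lit 96) (nat_lit 0) <| L.cons (nat_lit 33554464) (nat_lit 384) (nat_lit 0) <|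
  L.cons (nat_lit 2196481) (nat_lit 0) (nat_lit 405) <| L.cons (nat_lit 2196480) (nat_lit 405) (nat_lit 0) <| L.cons (nat_lit 2195489) (nat_lit 135) (nat_lit 0) <| L.cons (nat_lit 2195488) (nat_lit 0) (nat_lit 135) <| L.cons (nat_lit 2130945) (nat_lit 0) (nat_lit 270) <|
  L.cons (nat_lit 2130944) (nat_lit 270) (nat_lit 0) <| L.cons (nat_lit 2129953) (nat_lit 90) (nat_lit 0) <| L.cons (nat_lit 2129952) (nat_lit 0) (nat_lit 90) <| L.cons (nat_lit 1212417) (nat_lit 270) (nat_lit 0) <| L.cons (nat_lit 1212416) (nat_lit 0) (nat_lit 270) <|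
  L.cons (nat_lit 1180673) (nat_lit 0) (nat_lit 405) <| L.cons (nat_lit 1180672) (nat_lit 540) (nat_lit 0) <| L.cons (nat_lit 1179681) (nat_lit 720) (nat_lit 0) <| L.cons (nat_lit 1179680) (nat_lit 0) (nat_lit 765) <| L.cons (nat_lit 1147936) (nat_lit 0) (nat_lit 405) <|
  f35_6

/-- data -/
def f35_4 : L :=
  L.cons (nat_lit 34359738432) (nat_lit 210) (nat_lit 0) <| L.cons (nat_lit 34359738370) (nat_lit 132) (nat_lit 0) <| L.cons (nat_lit 34359738369) (nat_lit 24) (nat_lit 0) <| L.cons (nat_lit 34359738368) (nat_lit 444) (nat_lit 0) <| L.cons (nat_lit 1108410370) (nat_lit 0) (nat_lit 270) <|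
  L.cons (nat_lit 1108410369) (nat_lit 270) (nat_lit 0) <| L.cons (nat_lit 1108344834) (nat_lit 0) (nat_lit 180) <| L.cons (nat_lit 1108344833) (nat_lit 180) (nat_lit 0) <| L.cons (nat_lit 1107394561) (nat_lit 0) (nat_lit 180) <| L.cons (nat_lit 1107394560) (nat_lit 0) (nat_lit 45) <|
  L.cons (nat_lit 1107361825) (nat_lit 0) (nat_lit 270) <| L.cons (nat_lit 1107329025) (nat_lit 0) (nat_lit 360) <| L.cons (nat_lit 1107329024) (nat_lit 0) (nat_lit 90) <| L.cons (nat_lit 1107296289) (nat_lit 0) (nat_lit 180) <| L.cons (nat_lit 1074888706) (nat_lit 0) (nat_lit 540) <|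
  L.cons (nat_lit 1074888705) (nat_lit 405) (nat_lit 0) <| L.cons (nat_lit 1074888704) (nat_lit 135) (nat_lit 0) <| L.cons (nat_lit 1074823170) (nat_lit 0) (nat_lit 360) <| L.cons (nat_lit 1074823169) (nat_lit 270) (nat_lit 0) <| L.cons (nat_lit 1074823168) (nat_lit 90) (nat_lit 0) <|
  L.cons (nat_lit 1073872898) (nat_lit 0) (nat_lit 135) <| L.cons (nat_lit 1073872897) (nat_lit 135) (nat_lit 0) <| L.cons (nat_lit 1073872896) (nat_lit 135) (nat_lit 0) <| L.cons (nat_lit 1073840161) (nat_lit 0) (nat_lit 540) <| L.cons (nat_lit 1073840160) (nat_lit 0) (nat_lit 135) <|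
  L.cons (nat_lit 1073807362) (nat_lit 0) (nat_lit 225) <| L.cons (nat_lit 1073807361) (nat_lit 0) (nat_lit 1110) <| L.cons (nat_lit 1073807360) (nat_lit 0) (nat_lit 120) <| L.cons (nat_lit 1073774625) (nat_lit 0) (nat_lit 360) <| L.cons (nat_lit 1073774624) (nat_lit 0) (nat_lit 90) <|
  L.cons (nat_lit 1073741826) (nat_lit 96) (nat_lit 0) <| L.cons (nat_lit 1073741825) (nat_lit 640) (nat_lit 0) <| L.cons (nat_lit 1073741824) (nat_lit 64) (nat_lit 0) <| L.cons (nat_lit 68224001) (nat_lit 135) (nat_lit 0) <| L.cons (nat_lit 68224000) (nat_lit 0) (nat_lit 135) <|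
  L.cons (nat_lit 68158465) (nat_lit 90) (nat_lit 0) <| L.cons (nat_lit 68158464) (nat_lit 0) (nat_lit 90) <| L.cons (nat_lit 67208192) (nat_lit 45) (nat_lit 0) <| L.cons (nat_lit 67207200) (nat_lit 0) (nat_lit 45) <| L.cons (nat_lit 67175456) (nat_lit 135) (nat_lit 0) <|
  L.cons (nat_lit 67142656) (nat_lit 90) (nat_lit 0) <| L.cons (nat_lit 67141664) (nat_lit 0) (nat_lit 90) <| L.cons (nat_lit 67109920) (nat_lit 90) (nat_lit 0) <| L.cons (nat_lit 35718145) (nat_lit 0) (nat_lit 270) <| L.cons (nat_lit 35718144) (nat_lit 270) (nat_lit 0) <|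
  L.cons (nat_lit 35717153) (nat_lit 135) (nat_lit 0) <| L.cons (nat_lit 35717152) (nat_lit 0) (nat_lit 135) <| L.cons (nat_lit 35652609) (nat_lit 0) (nat_lit 180) <| L.cons (nat_lit 35652608) (nat_lit 180) (nat_lit 0) <| L.cons (nat_lit 35651617) (nat_lit 90) (nat_lit 0) <|
  f35_5

/-- data -/
def f35_3 : L :=
  L.cons (nat_lit 34394374176) (nat_lit 0) (nat_lit 270) <| L.cons (nat_lit 34394342432) (nat_lit 270) (nat_lit 0) <| L.cons (nat_lit 34394341440) (nat_lit 0) (nat_lit 135) <| L.cons (nat_lit 34393391106) (nat_lit 270) (nat_lit 0) <| L.cons (nat_lit 34393391104) (nat_lit 0) (nat_lit 90) <|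
  L.cons (nat_lit 34393359361) (nat_lit 270) (nat_lit 0) <| L.cons (nat_lit 34393359360) (nat_lit 135) (nat_lit 0) <| L.cons (nat_lit 34393358369) (nat_lit 270) (nat_lit 0) <| L.cons (nat_lit 34393358368) (nat_lit 0) (nat_lit 540) <| L.cons (nat_lit 34393326624) (nat_lit 0) (nat_lit 135) <|
  L.cons (nat_lit 34393325632) (nat_lit 135) (nat_lit 0) <| L.cons (nat_lit 34393325570) (nat_lit 0) (nat_lit 90) <| L.cons (nat_lit 34393325568) (nat_lit 0) (nat_lit 180) <| L.cons (nat_lit 34393293825) (nat_lit 0) (nat_lit 90) <| L.cons (nat_lit 34393293824) (nat_lit 270) (nat_lit 0) <|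
  L.cons (nat_lit 34393292833) (nat_lit 0) (nat_lit 90) <| L.cons (nat_lit 34393292832) (nat_lit 0) (nat_lit 90) <| L.cons (nat_lit 34361869313) (nat_lit 405) (nat_lit 0) <| L.cons (nat_lit 34361869312) (nat_lit 0) (nat_lit 405) <| L.cons (nat_lit 34361868321) (nat_lit 0) (nat_lit 135) <|
  L.cons (nat_lit 34361868320) (nat_lit 135) (nat_lit 0) <| L.cons (nat_lit 34360885249) (nat_lit 0) (nat_lit 270) <| L.cons (nat_lit 34360885248) (nat_lit 270) (nat_lit 0) <| L.cons (nat_lit 34360853505) (nat_lit 270) (nat_lit 0) <| L.cons (nat_lit 34360852513) (nat_lit 0) (nat_lit 360) <|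
  L.cons (nat_lit 34360852512) (nat_lit 270) (nat_lit 0) <| L.cons (nat_lit 34360820768) (nat_lit 405) (nat_lit 0) <| L.cons (nat_lit 34360819776) (nat_lit 0) (nat_lit 135) <| L.cons (nat_lit 34360819713) (nat_lit 0) (nat_lit 360) <| L.cons (nat_lit 34360819712) (nat_lit 360) (nat_lit 0) <|
  L.cons (nat_lit 34360787969) (nat_lit 0) (nat_lit 135) <| L.cons (nat_lit 34360787968) (nat_lit 0) (nat_lit 45) <| L.cons (nat_lit 34360786977) (nat_lit 210) (nat_lit 0) <| L.cons (nat_lit 34360786976) (nat_lit 0) (nat_lit 150) <| L.cons (nat_lit 34359869442) (nat_lit 0) (nat_lit 1080) <|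
  L.cons (nat_lit 34359869441) (nat_lit 225) (nat_lit 0) <| L.cons (nat_lit 34359869440) (nat_lit 45) (nat_lit 0) <| L.cons (nat_lit 34359837697) (nat_lit 0) (nat_lit 540) <| L.cons (nat_lit 34359837696) (nat_lit 405) (nat_lit 0) <| L.cons (nat_lit 34359836705) (nat_lit 0) (nat_lit 540) <|
  L.cons (nat_lit 34359836704) (nat_lit 0) (nat_lit 540) <| L.cons (nat_lit 34359804960) (nat_lit 180) (nat_lit 0) <| L.cons (nat_lit 34359803968) (nat_lit 0) (nat_lit 360) <| L.cons (nat_lit 34359803905) (nat_lit 0) (nat_lit 585) <| L.cons (nat_lit 34359803904) (nat_lit 630) (nat_lit 0) <|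
  L.cons (nat_lit 34359772161) (nat_lit 180) (nat_lit 0) <| L.cons (nat_lit 34359772160) (nat_lit 0) (nat_lit 225) <| L.cons (nat_lit 34359771169) (nat_lit 180) (nat_lit 0) <| L.cons (nat_lit 34359771168) (nat_lit 0) (nat_lit 45) <| L.cons (nat_lit 34359739424) (nat_lit 0) (nat_lit 105) <|
  f35_4

/-- data -/
def f35_2 : L :=
  L.cons (nat_lit 68753063936) (nat_lit 135) (nat_lit 0) <| L.cons (nat_lit 68753032193) (nat_lit 135) (nat_lit 0) <| L.cons (nat_lit 68753031201) (nat_lit 135) (nat_lit 0) <| L.cons (nat_lit 68753031200) (nat_lit 0) (nat_lit 270) <| L.cons (nat_lit 68720558081) (nat_lit 270) (nat_lit 0) <|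
  L.cons (nat_lit 68720558080) (nat_lit 0) (nat_lit 270) <| L.cons (nat_lit 68720526337) (nat_lit 135) (nat_lit 0) <| L.cons (nat_lit 68720526336) (nat_lit 0) (nat_lit 270) <| L.cons (nat_lit 68720525345) (nat_lit 0) (nat_lit 180) <| L.cons (nat_lit 68720525344) (nat_lit 225) (nat_lit 0) <|
  L.cons (nat_lit 68719542274) (nat_lit 135) (nat_lit 0) <| L.cons (nat_lit 68719542273) (nat_lit 135) (nat_lit 0) <| L.cons (nat_lit 68719542272) (nat_lit 0) (nat_lit 270) <| L.cons (nat_lit 68719510529) (nat_lit 0) (nat_lit 270) <| L.cons (nat_lit 68719510528) (nat_lit 135) (nat_lit 0) <|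
  L.cons (nat_lit 68719509537) (nat_lit 0) (nat_lit 270) <| L.cons (nat_lit 68719509536) (nat_lit 405) (nat_lit 0) <| L.cons (nat_lit 68719477792) (nat_lit 90) (nat_lit 0) <| L.cons (nat_lit 68719476800) (nat_lit 0) (nat_lit 180) <| L.cons (nat_lit 68719476738) (nat_lit 0) (nat_lit 90) <|
  L.cons (nat_lit 68719476737) (nat_lit 0) (nat_lit 90) <| L.cons (nat_lit 68719476736) (nat_lit 90) (nat_lit 0) <| L.cons (nat_lit 35468083202) (nat_lit 270) (nat_lit 0) <| L.cons (nat_lit 35468083201) (nat_lit 0) (nat_lit 270) <| L.cons (nat_lit 35467067393) (nat_lit 540) (nat_lit 0) <|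
  L.cons (nat_lit 35467067392) (nat_lit 135) (nat_lit 0) <| L.cons (nat_lit 35467034657) (nat_lit 270) (nat_lit 0) <| L.cons (nat_lit 35434561538) (nat_lit 540) (nat_lit 0) <| L.cons (nat_lit 35434561537) (nat_lit 0) (nat_lit 405) <| L.cons (nat_lit 35434561536) (nat_lit 0) (nat_lit 135) <|
  L.cons (nat_lit 35433545730) (nat_lit 270) (nat_lit 0) <| L.cons (nat_lit 35433545729) (nat_lit 495) (nat_lit 0) <| L.cons (nat_lit 35433545728) (nat_lit 0) (nat_lit 45) <| L.cons (nat_lit 35433512993) (nat_lit 540) (nat_lit 0) <| L.cons (nat_lit 35433512992) (nat_lit 135) (nat_lit 0) <|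
  L.cons (nat_lit 35433480194) (nat_lit 0) (nat_lit 90) <| L.cons (nat_lit 35433480193) (nat_lit 0) (nat_lit 240) <| L.cons (nat_lit 35433480192) (nat_lit 30) (nat_lit 0) <| L.cons (nat_lit 34427896833) (nat_lit 0) (nat_lit 135) <| L.cons (nat_lit 34427896832) (nat_lit 135) (nat_lit 0) <|
  L.cons (nat_lit 34426881024) (nat_lit 0) (nat_lit 135) <| L.cons (nat_lit 34426880032) (nat_lit 135) (nat_lit 0) <| L.cons (nat_lit 34426848288) (nat_lit 0) (nat_lit 135) <| L.cons (nat_lit 34395390977) (nat_lit 270) (nat_lit 0) <| L.cons (nat_lit 34395390976) (nat_lit 0) (nat_lit 270) <|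
  L.cons (nat_lit 34395389985) (nat_lit 0) (nat_lit 135) <| L.cons (nat_lit 34395389984) (nat_lit 135) (nat_lit 0) <| L.cons (nat_lit 34394375169) (nat_lit 0) (nat_lit 135) <| L.cons (nat_lit 34394375168) (nat_lit 540) (nat_lit 0) <| L.cons (nat_lit 34394374177) (nat_lit 135) (nat_lit 0) <|
  f35_3

/-- data -/
def f35_1 : L :=
  L.cons (nat_lit 35184373202944) (nat_lit 270) (nat_lit 0) <| L.cons (nat_lit 35184373171200) (nat_lit 0) (nat_lit 540) <| L.cons (nat_lit 35184373170208) (nat_lit 180) (nat_lit 0) <| L.cons (nat_lit 35184373137409) (nat_lit 0) (nat_lit 180) <| L.cons (nat_lit 35184373137408) (nat_lit 180) (nat_lit 0) <|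
  L.cons (nat_lit 35184372187137) (nat_lit 180) (nat_lit 0) <| L.cons (nat_lit 35184372187136) (nat_lit 720) (nat_lit 0) <| L.cons (nat_lit 35184372155392) (nat_lit 0) (nat_lit 270) <| L.cons (nat_lit 35184372154400) (nat_lit 1080) (nat_lit 0) <| L.cons (nat_lit 35184372121601) (nat_lit 0) (nat_lit 60) <|
  L.cons (nat_lit 35184372121600) (nat_lit 0) (nat_lit 300) <| L.cons (nat_lit 35184372089856) (nat_lit 0) (nat_lit 90) <| L.cons (nat_lit 35184372088864) (nat_lit 0) (nat_lit 90) <| L.cons (nat_lit 1168231104513) (nat_lit 0) (nat_lit 90) <| L.cons (nat_lit 1168231104512) (nat_lit 90) (nat_lit 0) <|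
  L.cons (nat_lit 1133872415745) (nat_lit 0) (nat_lit 270) <| L.cons (nat_lit 1133872415744) (nat_lit 270) (nat_lit 0) <| L.cons (nat_lit 1133872414753) (nat_lit 270) (nat_lit 0) <| L.cons (nat_lit 1133872414752) (nat_lit 0) (nat_lit 270) <| L.cons (nat_lit 1133871431681) (nat_lit 0) (nat_lit 180) <|
  L.cons (nat_lit 1133871431680) (nat_lit 180) (nat_lit 0) <| L.cons (nat_lit 1133871367200) (nat_lit 0) (nat_lit 270) <| L.cons (nat_lit 1133871366208) (nat_lit 270) (nat_lit 0) <| L.cons (nat_lit 1133871366145) (nat_lit 60) (nat_lit 0) <| L.cons (nat_lit 1133871366144) (nat_lit 0) (nat_lit 60) <|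
  L.cons (nat_lit 1099512742913) (nat_lit 270) (nat_lit 0) <| L.cons (nat_lit 1099512742912) (nat_lit 0) (nat_lit 270) <| L.cons (nat_lit 1099512741921) (nat_lit 0) (nat_lit 270) <| L.cons (nat_lit 1099512741920) (nat_lit 270) (nat_lit 0) <| L.cons (nat_lit 1099512677377) (nat_lit 180) (nat_lit 0) <|
  L.cons (nat_lit 1099512677376) (nat_lit 0) (nat_lit 180) <| L.cons (nat_lit 1099512676385) (nat_lit 0) (nat_lit 180) <| L.cons (nat_lit 1099512676384) (nat_lit 180) (nat_lit 0) <| L.cons (nat_lit 1099511758849) (nat_lit 90) (nat_lit 0) <| L.cons (nat_lit 1099511758848) (nat_lit 0) (nat_lit 90) <|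
  L.cons (nat_lit 1099511694368) (nat_lit 270) (nat_lit 0) <| L.cons (nat_lit 1099511693376) (nat_lit 0) (nat_lit 270) <| L.cons (nat_lit 1099511693313) (nat_lit 150) (nat_lit 0) <| L.cons (nat_lit 1099511693312) (nat_lit 0) (nat_lit 150) <| L.cons (nat_lit 1099511628832) (nat_lit 180) (nat_lit 0) <|
  L.cons (nat_lit 1099511627840) (nat_lit 0) (nat_lit 180) <| L.cons (nat_lit 1099511627777) (nat_lit 0) (nat_lit 64) <| L.cons (nat_lit 1099511627776) (nat_lit 64) (nat_lit 0) <| L.cons (nat_lit 103079215106) (nat_lit 270) (nat_lit 0) <| L.cons (nat_lit 103079215105) (nat_lit 0) (nat_lit 135) <|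
  L.cons (nat_lit 103079215104) (nat_lit 0) (nat_lit 270) <| L.cons (nat_lit 69793218562) (nat_lit 135) (nat_lit 0) <| L.cons (nat_lit 69793218561) (nat_lit 0) (nat_lit 180) <| L.cons (nat_lit 69793218560) (nat_lit 0) (nat_lit 180) <| L.cons (nat_lit 68753063938) (nat_lit 135) (nat_lit 0) <|
  f35_2

/-- data -/
def f35 : L :=
  L.cons (nat_lit 1126999418470401) (nat_lit 180) (nat_lit 0) <| L.cons (nat_lit 1126999418470400) (nat_lit 0) (nat_lit 180) <| L.cons (nat_lit 1125934266580994) (nat_lit 0) (nat_lit 540) <| L.cons (nat_lit 1125934266580993) (nat_lit 270) (nat_lit 0) <| L.cons (nat_lit 1125934266580992) (nat_lit 270) (nat_lit 0) <|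
  L.cons (nat_lit 1125900980584450) (nat_lit 0) (nat_lit 270) <| L.cons (nat_lit 1125900980584448) (nat_lit 270) (nat_lit 0) <| L.cons (nat_lit 1125899940429826) (nat_lit 0) (nat_lit 270) <| L.cons (nat_lit 1125899940429824) (nat_lit 270) (nat_lit 0) <| L.cons (nat_lit 1125899940398081) (nat_lit 0) (nat_lit 270) <|
  L.cons (nat_lit 1125899940398080) (nat_lit 270) (nat_lit 0) <| L.cons (nat_lit 1125899940397089) (nat_lit 0) (nat_lit 270) <| L.cons (nat_lit 1125899940397088) (nat_lit 270) (nat_lit 0) <| L.cons (nat_lit 1125899907923969) (nat_lit 0) (nat_lit 270) <| L.cons (nat_lit 1125899907923968) (nat_lit 270) (nat_lit 0) <|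
  L.cons (nat_lit 1125899907891233) (nat_lit 0) (nat_lit 180) <| L.cons (nat_lit 1125899907891232) (nat_lit 180) (nat_lit 0) <| L.cons (nat_lit 1125899906908162) (nat_lit 810) (nat_lit 0) <| L.cons (nat_lit 1125899906908161) (nat_lit 0) (nat_lit 540) <| L.cons (nat_lit 1125899906908160) (nat_lit 0) (nat_lit 270) <|
  L.cons (nat_lit 1125899906876417) (nat_lit 540) (nat_lit 0) <| L.cons (nat_lit 1125899906876416) (nat_lit 0) (nat_lit 540) <| L.cons (nat_lit 1125899906875425) (nat_lit 540) (nat_lit 0) <| L.cons (nat_lit 1125899906875424) (nat_lit 0) (nat_lit 810) <| L.cons (nat_lit 1125899906843680) (nat_lit 90) (nat_lit 0) <|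
  L.cons (nat_lit 1125899906842688) (nat_lit 0) (nat_lit 180) <| L.cons (nat_lit 1125899906842626) (nat_lit 0) (nat_lit 180) <| L.cons (nat_lit 1125899906842625) (nat_lit 360) (nat_lit 0) <| L.cons (nat_lit 1125899906842624) (nat_lit 0) (nat_lit 180) <| L.cons (nat_lit 70368744177665) (nat_lit 0) (nat_lit 180) <|
  L.cons (nat_lit 70368744177664) (nat_lit 0) (nat_lit 180) <| L.cons (nat_lit 35218765381632) (nat_lit 0) (nat_lit 180) <| L.cons (nat_lit 35218732875777) (nat_lit 270) (nat_lit 0) <| L.cons (nat_lit 35218732875776) (nat_lit 0) (nat_lit 270) <| L.cons (nat_lit 35218731859969) (nat_lit 180) (nat_lit 0) <|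
  L.cons (nat_lit 35218731859968) (nat_lit 90) (nat_lit 0) <| L.cons (nat_lit 35218731827232) (nat_lit 540) (nat_lit 0) <| L.cons (nat_lit 35185479385089) (nat_lit 0) (nat_lit 360) <| L.cons (nat_lit 35185479385088) (nat_lit 0) (nat_lit 90) <| L.cons (nat_lit 35185445863425) (nat_lit 0) (nat_lit 810) <|
  L.cons (nat_lit 35185445863424) (nat_lit 0) (nat_lit 270) <| L.cons (nat_lit 35184439198720) (nat_lit 90) (nat_lit 0) <| L.cons (nat_lit 35184439197728) (nat_lit 0) (nat_lit 90) <| L.cons (nat_lit 35184406692864) (nat_lit 0) (nat_lit 270) <| L.cons (nat_lit 35184406691872) (nat_lit 90) (nat_lit 0) <|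
  L.cons (nat_lit 35184405708800) (nat_lit 0) (nat_lit 180) <| L.cons (nat_lit 35184405677056) (nat_lit 90) (nat_lit 0) <| L.cons (nat_lit 35184405676064) (nat_lit 0) (nat_lit 180) <| L.cons (nat_lit 35184405643264) (nat_lit 60) (nat_lit 0) <| L.cons (nat_lit 35184373202945) (nat_lit 0) (nat_lit 270) <|
  f35_1

/-- data -/
def f37_8 : L :=
  L.cons (nat_lit 131072) (nat_lit 200) (nat_lit 0) <| L.cons (nat_lit 99328) (nat_lit 0) (nat_lit 1296) <| L.cons (nat_lit 98336) (nat_lit 1296) (nat_lit 0) <| L.cons (nat_lit 33792) (nat_lit 0) (nat_lit 1152) <| L.cons (nat_lit 32800) (nat_lit 1152) (nat_lit 0) <|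
  L.nil

/-- data -/
def f37_7 : L :=
  L.cons (nat_lit 1073872897) (nat_lit 360) (nat_lit 0) <| L.cons (nat_lit 1073841152) (nat_lit 90) (nat_lit 0) <| L.cons (nat_lit 1073840160) (nat_lit 90) (nat_lit 0) <| L.cons (nat_lit 1073807361) (nat_lit 0) (nat_lit 180) <| L.cons (nat_lit 1073775616) (nat_lit 30) (nat_lit 0) <|
  L.cons (nat_lit 1073774624) (nat_lit 30) (nat_lit 0) <| L.cons (nat_lit 68289536) (nat_lit 0) (nat_lit 1170) <| L.cons (nat_lit 68288544) (nat_lit 360) (nat_lit 0) <| L.cons (nat_lit 68224000) (nat_lit 0) (nat_lit 2340) <| L.cons (nat_lit 68223008) (nat_lit 720) (nat_lit 0) <|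
  L.cons (nat_lit 67273728) (nat_lit 0) (nat_lit 540) <| L.cons (nat_lit 67272736) (nat_lit 1080) (nat_lit 0) <| L.cons (nat_lit 67208192) (nat_lit 0) (nat_lit 1080) <| L.cons (nat_lit 67207200) (nat_lit 2160) (nat_lit 0) <| L.cons (nat_lit 35783680) (nat_lit 180) (nat_lit 0) <|
  L.cons (nat_lit 35782688) (nat_lit 0) (nat_lit 90) <| L.cons (nat_lit 35718144) (nat_lit 360) (nat_lit 0) <| L.cons (nat_lit 35717152) (nat_lit 0) (nat_lit 180) <| L.cons (nat_lit 34767872) (nat_lit 1620) (nat_lit 0) <| L.cons (nat_lit 34766880) (nat_lit 0) (nat_lit 540) <|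
  L.cons (nat_lit 34702336) (nat_lit 3105) (nat_lit 0) <| L.cons (nat_lit 34701344) (nat_lit 0) (nat_lit 1035) <| L.cons (nat_lit 34636800) (nat_lit 180) (nat_lit 0) <| L.cons (nat_lit 34635808) (nat_lit 0) (nat_lit 60) <| L.cons (nat_lit 33783809) (nat_lit 0) (nat_lit 180) <|
  L.cons (nat_lit 33783808) (nat_lit 0) (nat_lit 540) <| L.cons (nat_lit 33752064) (nat_lit 360) (nat_lit 0) <| L.cons (nat_lit 33751072) (nat_lit 0) (nat_lit 2070) <| L.cons (nat_lit 33718273) (nat_lit 0) (nat_lit 720) <| L.cons (nat_lit 33718272) (nat_lit 0) (nat_lit 720) <|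
  L.cons (nat_lit 33686528) (nat_lit 0) (nat_lit 330) <| L.cons (nat_lit 33685536) (nat_lit 0) (nat_lit 3075) <| L.cons (nat_lit 33652737) (nat_lit 0) (nat_lit 720) <| L.cons (nat_lit 33652736) (nat_lit 720) (nat_lit 0) <| L.cons (nat_lit 33620992) (nat_lit 0) (nat_lit 1800) <|
  L.cons (nat_lit 33620000) (nat_lit 1980) (nat_lit 0) <| L.cons (nat_lit 2196480) (nat_lit 210) (nat_lit 0) <| L.cons (nat_lit 2195488) (nat_lit 0) (nat_lit 90) <| L.cons (nat_lit 2130944) (nat_lit 70) (nat_lit 0) <| L.cons (nat_lit 2129952) (nat_lit 0) (nat_lit 30) <|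
  L.cons (nat_lit 1212416) (nat_lit 0) (nat_lit 30) <| L.cons (nat_lit 1180672) (nat_lit 360) (nat_lit 0) <| L.cons (nat_lit 1179680) (nat_lit 0) (nat_lit 240) <| L.cons (nat_lit 1146880) (nat_lit 0) (nat_lit 24) <| L.cons (nat_lit 1115136) (nat_lit 0) (nat_lit 180) <|
  L.cons (nat_lit 1114144) (nat_lit 120) (nat_lit 0) <| L.cons (nat_lit 1081344) (nat_lit 0) (nat_lit 128) <| L.cons (nat_lit 164864) (nat_lit 90) (nat_lit 0) <| L.cons (nat_lit 163872) (nat_lit 0) (nat_lit 90) <| L.cons (nat_lit 131073) (nat_lit 0) (nat_lit 200) <|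
  f37_8

/-- data -/
def f37_6 : L :=
  L.cons (nat_lit 34393456640) (nat_lit 2700) (nat_lit 0) <| L.cons (nat_lit 34393424896) (nat_lit 0) (nat_lit 360) <| L.cons (nat_lit 34393423904) (nat_lit 6660) (nat_lit 0) <| L.cons (nat_lit 34393391105) (nat_lit 2160) (nat_lit 0) <| L.cons (nat_lit 34393391104) (nat_lit 1080) (nat_lit 0) <|
  L.cons (nat_lit 34393359360) (nat_lit 3600) (nat_lit 0) <| L.cons (nat_lit 34393358368) (nat_lit 0) (nat_lit 1800) <| L.cons (nat_lit 34361934848) (nat_lit 0) (nat_lit 630) <| L.cons (nat_lit 34361933856) (nat_lit 270) (nat_lit 0) <| L.cons (nat_lit 34361869312) (nat_lit 0) (nat_lit 735) <|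
  L.cons (nat_lit 34361868320) (nat_lit 315) (nat_lit 0) <| L.cons (nat_lit 34360950784) (nat_lit 90) (nat_lit 0) <| L.cons (nat_lit 34360919040) (nat_lit 0) (nat_lit 2700) <| L.cons (nat_lit 34360918048) (nat_lit 1260) (nat_lit 0) <| L.cons (nat_lit 34360853504) (nat_lit 0) (nat_lit 3510) <|
  L.cons (nat_lit 34360852512) (nat_lit 1260) (nat_lit 0) <| L.cons (nat_lit 34360819712) (nat_lit 312) (nat_lit 0) <| L.cons (nat_lit 34359934977) (nat_lit 270) (nat_lit 0) <| L.cons (nat_lit 34359934976) (nat_lit 810) (nat_lit 0) <| L.cons (nat_lit 34359903232) (nat_lit 0) (nat_lit 810) <|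
  L.cons (nat_lit 34359902240) (nat_lit 2970) (nat_lit 0) <| L.cons (nat_lit 34359869441) (nat_lit 1245) (nat_lit 0) <| L.cons (nat_lit 34359869440) (nat_lit 915) (nat_lit 0) <| L.cons (nat_lit 34359837696) (nat_lit 1215) (nat_lit 0) <| L.cons (nat_lit 34359836704) (nat_lit 3105) (nat_lit 0) <|
  L.cons (nat_lit 34359803905) (nat_lit 540) (nat_lit 0) <| L.cons (nat_lit 34359803904) (nat_lit 0) (nat_lit 540) <| L.cons (nat_lit 34359772160) (nat_lit 3348) (nat_lit 0) <| L.cons (nat_lit 34359771168) (nat_lit 0) (nat_lit 3348) <| L.cons (nat_lit 1140981761) (nat_lit 0) (nat_lit 1620) <|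
  L.cons (nat_lit 1140981760) (nat_lit 0) (nat_lit 450) <| L.cons (nat_lit 1140916225) (nat_lit 0) (nat_lit 3240) <| L.cons (nat_lit 1140916224) (nat_lit 0) (nat_lit 900) <| L.cons (nat_lit 1108475905) (nat_lit 180) (nat_lit 0) <| L.cons (nat_lit 1108475904) (nat_lit 0) (nat_lit 180) <|
  L.cons (nat_lit 1108410369) (nat_lit 360) (nat_lit 0) <| L.cons (nat_lit 1108410368) (nat_lit 0) (nat_lit 360) <| L.cons (nat_lit 1107460097) (nat_lit 2520) (nat_lit 0) <| L.cons (nat_lit 1107460096) (nat_lit 900) (nat_lit 0) <| L.cons (nat_lit 1107428352) (nat_lit 180) (nat_lit 0) <|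
  L.cons (nat_lit 1107427360) (nat_lit 450) (nat_lit 0) <| L.cons (nat_lit 1107394561) (nat_lit 4905) (nat_lit 0) <| L.cons (nat_lit 1107394560) (nat_lit 1800) (nat_lit 0) <| L.cons (nat_lit 1107362816) (nat_lit 360) (nat_lit 0) <| L.cons (nat_lit 1107361824) (nat_lit 900) (nat_lit 0) <|
  L.cons (nat_lit 1107329025) (nat_lit 180) (nat_lit 0) <| L.cons (nat_lit 1074888705) (nat_lit 240) (nat_lit 0) <| L.cons (nat_lit 1074888704) (nat_lit 0) (nat_lit 60) <| L.cons (nat_lit 1074823169) (nat_lit 80) (nat_lit 0) <| L.cons (nat_lit 1074823168) (nat_lit 0) (nat_lit 20) <|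
  f37_7

/-- data -/
def f37_5 : L :=
  L.cons (nat_lit 68754112544) (nat_lit 270) (nat_lit 0) <| L.cons (nat_lit 68753129473) (nat_lit 0) (nat_lit 1620) <| L.cons (nat_lit 68753129472) (nat_lit 0) (nat_lit 3240) <| L.cons (nat_lit 68753097728) (nat_lit 0) (nat_lit 1080) <| L.cons (nat_lit 68753096736) (nat_lit 0) (nat_lit 1890) <|
  L.cons (nat_lit 68721607680) (nat_lit 630) (nat_lit 0) <| L.cons (nat_lit 68721606688) (nat_lit 0) (nat_lit 270) <| L.cons (nat_lit 68720591872) (nat_lit 4860) (nat_lit 0) <| L.cons (nat_lit 68720590880) (nat_lit 0) (nat_lit 1620) <| L.cons (nat_lit 68720558080) (nat_lit 0) (nat_lit 360) <|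
  L.cons (nat_lit 68719607809) (nat_lit 0) (nat_lit 1260) <| L.cons (nat_lit 68719607808) (nat_lit 0) (nat_lit 2790) <| L.cons (nat_lit 68719576064) (nat_lit 810) (nat_lit 0) <| L.cons (nat_lit 68719575072) (nat_lit 0) (nat_lit 7290) <| L.cons (nat_lit 68719542273) (nat_lit 0) (nat_lit 1080) <|
  L.cons (nat_lit 68719542272) (nat_lit 0) (nat_lit 540) <| L.cons (nat_lit 68719510528) (nat_lit 0) (nat_lit 1620) <| L.cons (nat_lit 68719509536) (nat_lit 1620) (nat_lit 0) <| L.cons (nat_lit 35500654593) (nat_lit 4860) (nat_lit 0) <| L.cons (nat_lit 35500654592) (nat_lit 1350) (nat_lit 0) <|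
  L.cons (nat_lit 35468148737) (nat_lit 0) (nat_lit 540) <| L.cons (nat_lit 35468148736) (nat_lit 540) (nat_lit 0) <| L.cons (nat_lit 35467132929) (nat_lit 0) (nat_lit 6750) <| L.cons (nat_lit 35467132928) (nat_lit 0) (nat_lit 2700) <| L.cons (nat_lit 35467101184) (nat_lit 0) (nat_lit 540) <|
  L.cons (nat_lit 35467100192) (nat_lit 0) (nat_lit 1350) <| L.cons (nat_lit 35467067393) (nat_lit 540) (nat_lit 0) <| L.cons (nat_lit 35434627073) (nat_lit 0) (nat_lit 720) <| L.cons (nat_lit 35434627072) (nat_lit 180) (nat_lit 0) <| L.cons (nat_lit 35434561537) (nat_lit 0) (nat_lit 840) <|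
  L.cons (nat_lit 35434561536) (nat_lit 210) (nat_lit 0) <| L.cons (nat_lit 35433611265) (nat_lit 0) (nat_lit 3510) <| L.cons (nat_lit 35433611264) (nat_lit 0) (nat_lit 810) <| L.cons (nat_lit 35433579520) (nat_lit 0) (nat_lit 270) <| L.cons (nat_lit 35433578528) (nat_lit 0) (nat_lit 270) <|
  L.cons (nat_lit 35433545729) (nat_lit 0) (nat_lit 5130) <| L.cons (nat_lit 35433545728) (nat_lit 0) (nat_lit 1620) <| L.cons (nat_lit 35433513984) (nat_lit 0) (nat_lit 315) <| L.cons (nat_lit 35433512992) (nat_lit 0) (nat_lit 315) <| L.cons (nat_lit 34427962368) (nat_lit 3510) (nat_lit 0) <|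
  L.cons (nat_lit 34427961376) (nat_lit 0) (nat_lit 1080) <| L.cons (nat_lit 34426946560) (nat_lit 1620) (nat_lit 0) <| L.cons (nat_lit 34426945568) (nat_lit 0) (nat_lit 3240) <| L.cons (nat_lit 34395456512) (nat_lit 0) (nat_lit 540) <| L.cons (nat_lit 34395455520) (nat_lit 270) (nat_lit 0) <|
  L.cons (nat_lit 34394440704) (nat_lit 0) (nat_lit 4050) <| L.cons (nat_lit 34394439712) (nat_lit 1350) (nat_lit 0) <| L.cons (nat_lit 34394375168) (nat_lit 540) (nat_lit 0) <| L.cons (nat_lit 34394374176) (nat_lit 0) (nat_lit 180) <| L.cons (nat_lit 34393456641) (nat_lit 1080) (nat_lit 0) <|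
  f37_6

/-- data -/
def f37_4 : L :=
  L.cons (nat_lit 1100586516480) (nat_lit 0) (nat_lit 180) <| L.cons (nat_lit 1100586450945) (nat_lit 360) (nat_lit 0) <| L.cons (nat_lit 1100586450944) (nat_lit 0) (nat_lit 360) <| L.cons (nat_lit 1100585500673) (nat_lit 2430) (nat_lit 0) <| L.cons (nat_lit 1100585500672) (nat_lit 810) (nat_lit 0) <|
  L.cons (nat_lit 1100585468928) (nat_lit 180) (nat_lit 0) <| L.cons (nat_lit 1100585467936) (nat_lit 450) (nat_lit 0) <| L.cons (nat_lit 1100585435137) (nat_lit 4860) (nat_lit 0) <| L.cons (nat_lit 1100585435136) (nat_lit 1620) (nat_lit 0) <| L.cons (nat_lit 1100585403392) (nat_lit 360) (nat_lit 0) <|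
  L.cons (nat_lit 1100585402400) (nat_lit 900) (nat_lit 0) <| L.cons (nat_lit 1099546330112) (nat_lit 0) (nat_lit 630) <| L.cons (nat_lit 1099546329120) (nat_lit 180) (nat_lit 0) <| L.cons (nat_lit 1099546264576) (nat_lit 0) (nat_lit 1260) <| L.cons (nat_lit 1099546263584) (nat_lit 360) (nat_lit 0) <|
  L.cons (nat_lit 1099545314304) (nat_lit 0) (nat_lit 270) <| L.cons (nat_lit 1099545313312) (nat_lit 540) (nat_lit 0) <| L.cons (nat_lit 1099545248768) (nat_lit 0) (nat_lit 540) <| L.cons (nat_lit 1099545247776) (nat_lit 1080) (nat_lit 0) <| L.cons (nat_lit 1099513824256) (nat_lit 180) (nat_lit 0) <|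
  L.cons (nat_lit 1099513823264) (nat_lit 0) (nat_lit 90) <| L.cons (nat_lit 1099513758720) (nat_lit 360) (nat_lit 0) <| L.cons (nat_lit 1099513757728) (nat_lit 0) (nat_lit 180) <| L.cons (nat_lit 1099512808448) (nat_lit 1620) (nat_lit 0) <| L.cons (nat_lit 1099512807456) (nat_lit 0) (nat_lit 540) <|
  L.cons (nat_lit 1099512742912) (nat_lit 3240) (nat_lit 0) <| L.cons (nat_lit 1099512741920) (nat_lit 0) (nat_lit 1080) <| L.cons (nat_lit 1099511824385) (nat_lit 0) (nat_lit 90) <| L.cons (nat_lit 1099511824384) (nat_lit 0) (nat_lit 270) <| L.cons (nat_lit 1099511792640) (nat_lit 360) (nat_lit 0) <|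
  L.cons (nat_lit 1099511791648) (nat_lit 0) (nat_lit 1530) <| L.cons (nat_lit 1099511758849) (nat_lit 0) (nat_lit 360) <| L.cons (nat_lit 1099511758848) (nat_lit 0) (nat_lit 360) <| L.cons (nat_lit 1099511727104) (nat_lit 150) (nat_lit 0) <| L.cons (nat_lit 1099511726112) (nat_lit 0) (nat_lit 2460) <|
  L.cons (nat_lit 1099511693313) (nat_lit 0) (nat_lit 360) <| L.cons (nat_lit 1099511693312) (nat_lit 360) (nat_lit 0) <| L.cons (nat_lit 1099511661568) (nat_lit 0) (nat_lit 1040) <| L.cons (nat_lit 1099511660576) (nat_lit 1000) (nat_lit 0) <| L.cons (nat_lit 103080296448) (nat_lit 270) (nat_lit 0) <|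
  L.cons (nat_lit 103079280641) (nat_lit 810) (nat_lit 0) <| L.cons (nat_lit 103079280640) (nat_lit 1620) (nat_lit 0) <| L.cons (nat_lit 69826805761) (nat_lit 0) (nat_lit 810) <| L.cons (nat_lit 69794299905) (nat_lit 720) (nat_lit 0) <| L.cons (nat_lit 69794299904) (nat_lit 0) (nat_lit 180) <|
  L.cons (nat_lit 69793284097) (nat_lit 7290) (nat_lit 0) <| L.cons (nat_lit 69793284096) (nat_lit 2430) (nat_lit 0) <| L.cons (nat_lit 69793252352) (nat_lit 270) (nat_lit 0) <| L.cons (nat_lit 69793251360) (nat_lit 270) (nat_lit 0) <| L.cons (nat_lit 68754113536) (nat_lit 0) (nat_lit 810) <|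
  f37_5

/-- data -/
def f37_3 : L :=
  L.cons (nat_lit 35184373235744) (nat_lit 0) (nat_lit 1080) <| L.cons (nat_lit 35184373202944) (nat_lit 0) (nat_lit 150) <| L.cons (nat_lit 35184373171200) (nat_lit 0) (nat_lit 900) <| L.cons (nat_lit 35184373170208) (nat_lit 0) (nat_lit 120) <| L.cons (nat_lit 35184373137408) (nat_lit 0) (nat_lit 168) <|
  L.cons (nat_lit 35184372252673) (nat_lit 0) (nat_lit 180) <| L.cons (nat_lit 35184372252672) (nat_lit 0) (nat_lit 540) <| L.cons (nat_lit 35184372220928) (nat_lit 810) (nat_lit 0) <| L.cons (nat_lit 35184372219936) (nat_lit 0) (nat_lit 810) <| L.cons (nat_lit 35184372187137) (nat_lit 0) (nat_lit 1140) <|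
  L.cons (nat_lit 35184372187136) (nat_lit 0) (nat_lit 300) <| L.cons (nat_lit 35184372155392) (nat_lit 0) (nat_lit 1710) <| L.cons (nat_lit 35184372154400) (nat_lit 1710) (nat_lit 0) <| L.cons (nat_lit 35184372121601) (nat_lit 0) (nat_lit 80) <| L.cons (nat_lit 35184372121600) (nat_lit 80) (nat_lit 0) <|
  L.cons (nat_lit 35184372089856) (nat_lit 0) (nat_lit 1512) <| L.cons (nat_lit 35184372088864) (nat_lit 1512) (nat_lit 0) <| L.cons (nat_lit 1168231170049) (nat_lit 0) (nat_lit 810) <| L.cons (nat_lit 1168231170048) (nat_lit 0) (nat_lit 1620) <| L.cons (nat_lit 1168231138304) (nat_lit 0) (nat_lit 450) <|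
  L.cons (nat_lit 1168231137312) (nat_lit 0) (nat_lit 1530) <| L.cons (nat_lit 1134978695169) (nat_lit 2700) (nat_lit 0) <| L.cons (nat_lit 1134978695168) (nat_lit 810) (nat_lit 0) <| L.cons (nat_lit 1134946189313) (nat_lit 0) (nat_lit 540) <| L.cons (nat_lit 1134946189312) (nat_lit 540) (nat_lit 0) <|
  L.cons (nat_lit 1134945173505) (nat_lit 0) (nat_lit 7290) <| L.cons (nat_lit 1134945173504) (nat_lit 0) (nat_lit 2430) <| L.cons (nat_lit 1134945141760) (nat_lit 0) (nat_lit 540) <| L.cons (nat_lit 1134945140768) (nat_lit 0) (nat_lit 1350) <| L.cons (nat_lit 1133906002944) (nat_lit 1890) (nat_lit 0) <|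
  L.cons (nat_lit 1133906001952) (nat_lit 0) (nat_lit 540) <| L.cons (nat_lit 1133904987136) (nat_lit 810) (nat_lit 0) <| L.cons (nat_lit 1133904986144) (nat_lit 0) (nat_lit 1620) <| L.cons (nat_lit 1133873497088) (nat_lit 0) (nat_lit 540) <| L.cons (nat_lit 1133873496096) (nat_lit 270) (nat_lit 0) <|
  L.cons (nat_lit 1133872481280) (nat_lit 0) (nat_lit 4860) <| L.cons (nat_lit 1133872480288) (nat_lit 1620) (nat_lit 0) <| L.cons (nat_lit 1133871497217) (nat_lit 540) (nat_lit 0) <| L.cons (nat_lit 1133871497216) (nat_lit 1350) (nat_lit 0) <| L.cons (nat_lit 1133871465472) (nat_lit 0) (nat_lit 810) <|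
  L.cons (nat_lit 1133871464480) (nat_lit 4860) (nat_lit 0) <| L.cons (nat_lit 1133871431681) (nat_lit 1080) (nat_lit 0) <| L.cons (nat_lit 1133871431680) (nat_lit 540) (nat_lit 0) <| L.cons (nat_lit 1133871399936) (nat_lit 1920) (nat_lit 0) <| L.cons (nat_lit 1133871398944) (nat_lit 0) (nat_lit 600) <|
  L.cons (nat_lit 1100619022337) (nat_lit 0) (nat_lit 900) <| L.cons (nat_lit 1100619022336) (nat_lit 0) (nat_lit 270) <| L.cons (nat_lit 1100618956801) (nat_lit 0) (nat_lit 1800) <| L.cons (nat_lit 1100618956800) (nat_lit 0) (nat_lit 540) <| L.cons (nat_lit 1100586516481) (nat_lit 180) (nat_lit 0) <|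
  f37_4

/-- data -/
def f37_2 : L :=
  L.cons (nat_lit 35218732875776) (nat_lit 0) (nat_lit 180) <| L.cons (nat_lit 35218731925505) (nat_lit 1620) (nat_lit 0) <| L.cons (nat_lit 35218731925504) (nat_lit 2160) (nat_lit 0) <| L.cons (nat_lit 35218731893760) (nat_lit 810) (nat_lit 0) <| L.cons (nat_lit 35218731892768) (nat_lit 3510) (nat_lit 0) <|
  L.cons (nat_lit 35218731859969) (nat_lit 0) (nat_lit 780) <| L.cons (nat_lit 35218731859968) (nat_lit 0) (nat_lit 300) <| L.cons (nat_lit 35218731828224) (nat_lit 0) (nat_lit 1620) <| L.cons (nat_lit 35218731827232) (nat_lit 1620) (nat_lit 0) <| L.cons (nat_lit 35185512972289) (nat_lit 0) (nat_lit 3240) <|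
  L.cons (nat_lit 35185512972288) (nat_lit 0) (nat_lit 900) <| L.cons (nat_lit 35185480466433) (nat_lit 360) (nat_lit 0) <| L.cons (nat_lit 35185480466432) (nat_lit 0) (nat_lit 360) <| L.cons (nat_lit 35185479450625) (nat_lit 4230) (nat_lit 0) <| L.cons (nat_lit 35185479450624) (nat_lit 1800) (nat_lit 0) <|
  L.cons (nat_lit 35185479418880) (nat_lit 360) (nat_lit 0) <| L.cons (nat_lit 35185479417888) (nat_lit 900) (nat_lit 0) <| L.cons (nat_lit 35185446944769) (nat_lit 720) (nat_lit 0) <| L.cons (nat_lit 35185446944768) (nat_lit 0) (nat_lit 180) <| L.cons (nat_lit 35185446879233) (nat_lit 240) (nat_lit 0) <|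
  L.cons (nat_lit 35185446879232) (nat_lit 0) (nat_lit 60) <| L.cons (nat_lit 35185445928961) (nat_lit 540) (nat_lit 0) <| L.cons (nat_lit 35185445928960) (nat_lit 0) (nat_lit 540) <| L.cons (nat_lit 35185445897216) (nat_lit 270) (nat_lit 0) <| L.cons (nat_lit 35185445896224) (nat_lit 270) (nat_lit 0) <|
  L.cons (nat_lit 35185445863425) (nat_lit 0) (nat_lit 1980) <| L.cons (nat_lit 35185445863424) (nat_lit 0) (nat_lit 1080) <| L.cons (nat_lit 35185445831680) (nat_lit 90) (nat_lit 0) <| L.cons (nat_lit 35185445830688) (nat_lit 90) (nat_lit 0) <| L.cons (nat_lit 35184440280064) (nat_lit 0) (nat_lit 2340) <|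
  L.cons (nat_lit 35184440279072) (nat_lit 720) (nat_lit 0) <| L.cons (nat_lit 35184439264256) (nat_lit 0) (nat_lit 1080) <| L.cons (nat_lit 35184439263264) (nat_lit 2160) (nat_lit 0) <| L.cons (nat_lit 35184407774208) (nat_lit 360) (nat_lit 0) <| L.cons (nat_lit 35184407773216) (nat_lit 0) (nat_lit 180) <|
  L.cons (nat_lit 35184406758400) (nat_lit 2430) (nat_lit 0) <| L.cons (nat_lit 35184406757408) (nat_lit 0) (nat_lit 810) <| L.cons (nat_lit 35184405774337) (nat_lit 0) (nat_lit 720) <| L.cons (nat_lit 35184405774336) (nat_lit 0) (nat_lit 1440) <| L.cons (nat_lit 35184405742592) (nat_lit 180) (nat_lit 0) <|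
  L.cons (nat_lit 35184405741600) (nat_lit 0) (nat_lit 4140) <| L.cons (nat_lit 35184405708801) (nat_lit 0) (nat_lit 1440) <| L.cons (nat_lit 35184405677056) (nat_lit 0) (nat_lit 1920) <| L.cons (nat_lit 35184405676064) (nat_lit 1500) (nat_lit 0) <| L.cons (nat_lit 35184374252544) (nat_lit 630) (nat_lit 0) <|
  L.cons (nat_lit 35184374251552) (nat_lit 0) (nat_lit 270) <| L.cons (nat_lit 35184374187008) (nat_lit 210) (nat_lit 0) <| L.cons (nat_lit 35184374186016) (nat_lit 0) (nat_lit 90) <| L.cons (nat_lit 35184373268480) (nat_lit 0) (nat_lit 270) <| L.cons (nat_lit 35184373236736) (nat_lit 1080) (nat_lit 0) <|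
  f37_3

/-- data -/
def f37_1 : L :=
  L.cons (nat_lit 70368777732128) (nat_lit 0) (nat_lit 540) <| L.cons (nat_lit 70368745227264) (nat_lit 0) (nat_lit 1080) <| L.cons (nat_lit 70368744243201) (nat_lit 0) (nat_lit 720) <| L.cons (nat_lit 70368744243200) (nat_lit 0) (nat_lit 720) <| L.cons (nat_lit 36318243487745) (nat_lit 1080) (nat_lit 0) <|
  L.cons (nat_lit 36318243487744) (nat_lit 1620) (nat_lit 0) <| L.cons (nat_lit 36318243455008) (nat_lit 1620) (nat_lit 0) <| L.cons (nat_lit 36284991012865) (nat_lit 0) (nat_lit 1800) <| L.cons (nat_lit 36284991012864) (nat_lit 0) (nat_lit 540) <| L.cons (nat_lit 36284958507009) (nat_lit 360) (nat_lit 0) <|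
  L.cons (nat_lit 36284958507008) (nat_lit 0) (nat_lit 360) <| L.cons (nat_lit 36284957491201) (nat_lit 4860) (nat_lit 0) <| L.cons (nat_lit 36284957491200) (nat_lit 1620) (nat_lit 0) <| L.cons (nat_lit 36284957459456) (nat_lit 360) (nat_lit 0) <| L.cons (nat_lit 36284957458464) (nat_lit 900) (nat_lit 0) <|
  L.cons (nat_lit 36283918320640) (nat_lit 0) (nat_lit 1260) <| L.cons (nat_lit 36283918319648) (nat_lit 360) (nat_lit 0) <| L.cons (nat_lit 36283917304832) (nat_lit 0) (nat_lit 540) <| L.cons (nat_lit 36283917303840) (nat_lit 1080) (nat_lit 0) <| L.cons (nat_lit 36283885814784) (nat_lit 360) (nat_lit 0) <|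
  L.cons (nat_lit 36283885813792) (nat_lit 0) (nat_lit 180) <| L.cons (nat_lit 36283884798976) (nat_lit 3240) (nat_lit 0) <| L.cons (nat_lit 36283884797984) (nat_lit 0) (nat_lit 1080) <| L.cons (nat_lit 36283883814913) (nat_lit 0) (nat_lit 360) <| L.cons (nat_lit 36283883814912) (nat_lit 0) (nat_lit 720) <|
  L.cons (nat_lit 36283883783168) (nat_lit 540) (nat_lit 0) <| L.cons (nat_lit 36283883782176) (nat_lit 0) (nat_lit 2700) <| L.cons (nat_lit 36283883749377) (nat_lit 0) (nat_lit 720) <| L.cons (nat_lit 36283883717632) (nat_lit 0) (nat_lit 1080) <| L.cons (nat_lit 36283883716640) (nat_lit 1080) (nat_lit 0) <|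
  L.cons (nat_lit 35253092614144) (nat_lit 270) (nat_lit 0) <| L.cons (nat_lit 35253091598337) (nat_lit 0) (nat_lit 180) <| L.cons (nat_lit 35253091598336) (nat_lit 180) (nat_lit 0) <| L.cons (nat_lit 35219839123457) (nat_lit 0) (nat_lit 810) <| L.cons (nat_lit 35219806617601) (nat_lit 720) (nat_lit 0) <|
  L.cons (nat_lit 35219806617600) (nat_lit 0) (nat_lit 180) <| L.cons (nat_lit 35219805601793) (nat_lit 1080) (nat_lit 0) <| L.cons (nat_lit 35219805570048) (nat_lit 270) (nat_lit 0) <| L.cons (nat_lit 35219805569056) (nat_lit 270) (nat_lit 0) <| L.cons (nat_lit 35218766431232) (nat_lit 0) (nat_lit 810) <|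
  L.cons (nat_lit 35218766430240) (nat_lit 270) (nat_lit 0) <| L.cons (nat_lit 35218765447169) (nat_lit 2160) (nat_lit 0) <| L.cons (nat_lit 35218765447168) (nat_lit 3240) (nat_lit 0) <| L.cons (nat_lit 35218765415424) (nat_lit 0) (nat_lit 180) <| L.cons (nat_lit 35218765414432) (nat_lit 2520) (nat_lit 0) <|
  L.cons (nat_lit 35218733925376) (nat_lit 630) (nat_lit 0) <| L.cons (nat_lit 35218733924384) (nat_lit 0) (nat_lit 270) <| L.cons (nat_lit 35218732941312) (nat_lit 0) (nat_lit 360) <| L.cons (nat_lit 35218732909568) (nat_lit 1080) (nat_lit 0) <| L.cons (nat_lit 35218732908576) (nat_lit 0) (nat_lit 720) <|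
  f37_2

/-- data -/
def f37 : L :=
  L.cons (nat_lit 36063981391052801) (nat_lit 720) (nat_lit 0) <| L.cons (nat_lit 36063981391052800) (nat_lit 360) (nat_lit 0) <| L.cons (nat_lit 36029896530592768) (nat_lit 360) (nat_lit 0) <| L.cons (nat_lit 36029896530591776) (nat_lit 0) (nat_lit 720) <| L.cons (nat_lit 36028831379750912) (nat_lit 0) (nat_lit 540) <|
  L.cons (nat_lit 36028831378735105) (nat_lit 0) (nat_lit 540) <| L.cons (nat_lit 36028831378735104) (nat_lit 0) (nat_lit 1080) <| L.cons (nat_lit 36028798126260225) (nat_lit 1620) (nat_lit 0) <| L.cons (nat_lit 36028798093754369) (nat_lit 0) (nat_lit 1440) <| L.cons (nat_lit 36028798093754368) (nat_lit 360) (nat_lit 0) <|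
  L.cons (nat_lit 36028798092738561) (nat_lit 0) (nat_lit 3240) <| L.cons (nat_lit 36028798092706816) (nat_lit 0) (nat_lit 540) <| L.cons (nat_lit 36028798092705824) (nat_lit 0) (nat_lit 540) <| L.cons (nat_lit 36028797053568000) (nat_lit 1620) (nat_lit 0) <| L.cons (nat_lit 36028797053567008) (nat_lit 0) (nat_lit 540) <|
  L.cons (nat_lit 36028797052552192) (nat_lit 1080) (nat_lit 0) <| L.cons (nat_lit 36028797052551200) (nat_lit 0) (nat_lit 540) <| L.cons (nat_lit 36028797021062144) (nat_lit 0) (nat_lit 1260) <| L.cons (nat_lit 36028797021061152) (nat_lit 540) (nat_lit 0) <| L.cons (nat_lit 36028797020078080) (nat_lit 540) (nat_lit 0) <|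
  L.cons (nat_lit 36028797020046336) (nat_lit 0) (nat_lit 3240) <| L.cons (nat_lit 36028797020045344) (nat_lit 2160) (nat_lit 0) <| L.cons (nat_lit 36028797020012544) (nat_lit 360) (nat_lit 0) <| L.cons (nat_lit 36028797019062272) (nat_lit 540) (nat_lit 0) <| L.cons (nat_lit 36028797019030528) (nat_lit 0) (nat_lit 1620) <|
  L.cons (nat_lit 36028797019029536) (nat_lit 1620) (nat_lit 0) <| L.cons (nat_lit 36028797018996737) (nat_lit 1440) (nat_lit 0) <| L.cons (nat_lit 36028797018996736) (nat_lit 0) (nat_lit 360) <| L.cons (nat_lit 36028797018964992) (nat_lit 3240) (nat_lit 0) <| L.cons (nat_lit 36028797018964000) (nat_lit 0) (nat_lit 3240) <|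
  L.cons (nat_lit 1161084279980032) (nat_lit 360) (nat_lit 0) <| L.cons (nat_lit 1161084278932480) (nat_lit 0) (nat_lit 360) <| L.cons (nat_lit 1161084278931488) (nat_lit 0) (nat_lit 1440) <| L.cons (nat_lit 1125934267662336) (nat_lit 0) (nat_lit 540) <| L.cons (nat_lit 1125934266614784) (nat_lit 540) (nat_lit 0) <|
  L.cons (nat_lit 1125934266613792) (nat_lit 2160) (nat_lit 0) <| L.cons (nat_lit 1125899907989504) (nat_lit 180) (nat_lit 0) <| L.cons (nat_lit 1125899907923968) (nat_lit 360) (nat_lit 0) <| L.cons (nat_lit 1125899906941952) (nat_lit 0) (nat_lit 180) <| L.cons (nat_lit 1125899906940960) (nat_lit 0) (nat_lit 720) <|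
  L.cons (nat_lit 1125899906876416) (nat_lit 0) (nat_lit 360) <| L.cons (nat_lit 1125899906875424) (nat_lit 0) (nat_lit 1440) <| L.cons (nat_lit 71468255805441) (nat_lit 0) (nat_lit 360) <| L.cons (nat_lit 71468255805440) (nat_lit 0) (nat_lit 360) <| L.cons (nat_lit 70403103916033) (nat_lit 0) (nat_lit 540) <|
  L.cons (nat_lit 70403103916032) (nat_lit 0) (nat_lit 540) <| L.cons (nat_lit 70369817919489) (nat_lit 0) (nat_lit 2160) <| L.cons (nat_lit 70369817919488) (nat_lit 0) (nat_lit 1080) <| L.cons (nat_lit 70368777764865) (nat_lit 0) (nat_lit 720) <| L.cons (nat_lit 70368777764864) (nat_lit 0) (nat_lit 720) <|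
  f37_1

/-- data -/
def f38_12 : L :=
  L.cons (nat_lit 1) (nat_lit 1920) (nat_lit 0) <| L.cons (nat_lit 0) (nat_lit 0) (nat_lit 5760) <|
  L.nil

/-- data -/
def f38_11 : L :=
  L.cons (nat_lit 3277824) (nat_lit 0) (nat_lit 405) <| L.cons (nat_lit 3276832) (nat_lit 135) (nat_lit 0) <| L.cons (nat_lit 3212288) (nat_lit 225) (nat_lit 0) <| L.cons (nat_lit 3211296) (nat_lit 0) (nat_lit 75) <| L.cons (nat_lit 3146752) (nat_lit 288) (nat_lit 0) <|
  L.cons (nat_lit 3145760) (nat_lit 0) (nat_lit 96) <| L.cons (nat_lit 2293761) (nat_lit 0) (nat_lit 135) <| L.cons (nat_lit 2293760) (nat_lit 270) (nat_lit 0) <| L.cons (nat_lit 2262016) (nat_lit 0) (nat_lit 1755) <| L.cons (nat_lit 2261024) (nat_lit 1080) (nat_lit 0) <|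
  L.cons (nat_lit 2228225) (nat_lit 0) (nat_lit 435) <| L.cons (nat_lit 2228224) (nat_lit 210) (nat_lit 0) <| L.cons (nat_lit 2196480) (nat_lit 495) (nat_lit 0) <| L.cons (nat_lit 2195488) (nat_lit 0) (nat_lit 720) <| L.cons (nat_lit 2162689) (nat_lit 0) (nat_lit 438) <|
  L.cons (nat_lit 2162688) (nat_lit 0) (nat_lit 276) <| L.cons (nat_lit 2130944) (nat_lit 864) (nat_lit 0) <| L.cons (nat_lit 2129952) (nat_lit 0) (nat_lit 1152) <| L.cons (nat_lit 2097153) (nat_lit 0) (nat_lit 192) <| L.cons (nat_lit 2097152) (nat_lit 384) (nat_lit 0) <|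
  L.cons (nat_lit 1277953) (nat_lit 0) (nat_lit 315) <| L.cons (nat_lit 1277952) (nat_lit 765) (nat_lit 0) <| L.cons (nat_lit 1246208) (nat_lit 0) (nat_lit 2430) <| L.cons (nat_lit 1245216) (nat_lit 2295) (nat_lit 0) <| L.cons (nat_lit 1212417) (nat_lit 0) (nat_lit 855) <|
  L.cons (nat_lit 1212416) (nat_lit 405) (nat_lit 0) <| L.cons (nat_lit 1180672) (nat_lit 2700) (nat_lit 0) <| L.cons (nat_lit 1179680) (nat_lit 0) (nat_lit 2565) <| L.cons (nat_lit 1146881) (nat_lit 0) (nat_lit 566) <| L.cons (nat_lit 1146880) (nat_lit 0) (nat_lit 1202) <|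
  L.cons (nat_lit 1115136) (nat_lit 0) (nat_lit 2088) <| L.cons (nat_lit 1114144) (nat_lit 0) (nat_lit 1896) <| L.cons (nat_lit 1081345) (nat_lit 0) (nat_lit 192) <| L.cons (nat_lit 1081344) (nat_lit 960) (nat_lit 0) <| L.cons (nat_lit 262145) (nat_lit 0) (nat_lit 135) <|
  L.cons (nat_lit 262144) (nat_lit 405) (nat_lit 0) <| L.cons (nat_lit 230400) (nat_lit 0) (nat_lit 1170) <| L.cons (nat_lit 229408) (nat_lit 1260) (nat_lit 0) <| L.cons (nat_lit 196609) (nat_lit 810) (nat_lit 0) <| L.cons (nat_lit 196608) (nat_lit 0) (nat_lit 1620) <|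
  L.cons (nat_lit 164864) (nat_lit 3060) (nat_lit 0) <| L.cons (nat_lit 163872) (nat_lit 0) (nat_lit 5850) <| L.cons (nat_lit 131073) (nat_lit 3522) (nat_lit 0) <| L.cons (nat_lit 131072) (nat_lit 0) (nat_lit 234) <| L.cons (nat_lit 99328) (nat_lit 14) (nat_lit 0) <|
  L.cons (nat_lit 98336) (nat_lit 4118) (nat_lit 0) <| L.cons (nat_lit 65537) (nat_lit 3804) (nat_lit 0) <| L.cons (nat_lit 65536) (nat_lit 4236) (nat_lit 0) <| L.cons (nat_lit 33792) (nat_lit 1632) (nat_lit 0) <| L.cons (nat_lit 32800) (nat_lit 4872) (nat_lit 0) <|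
  f38_12

/-- data -/
def f38_10 : L :=
  L.cons (nat_lit 68224000) (nat_lit 540) (nat_lit 0) <| L.cons (nat_lit 68223008) (nat_lit 0) (nat_lit 405) <| L.cons (nat_lit 68190208) (nat_lit 108) (nat_lit 0) <| L.cons (nat_lit 68157472) (nat_lit 288) (nat_lit 0) <| L.cons (nat_lit 67305472) (nat_lit 0) (nat_lit 135) <|
  L.cons (nat_lit 67273728) (nat_lit 270) (nat_lit 0) <| L.cons (nat_lit 67272736) (nat_lit 0) (nat_lit 540) <| L.cons (nat_lit 67239936) (nat_lit 0) (nat_lit 225) <| L.cons (nat_lit 67208192) (nat_lit 0) (nat_lit 540) <| L.cons (nat_lit 67207200) (nat_lit 675) (nat_lit 0) <|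
  L.cons (nat_lit 67174400) (nat_lit 108) (nat_lit 0) <| L.cons (nat_lit 67141664) (nat_lit 0) (nat_lit 792) <| L.cons (nat_lit 36799488) (nat_lit 0) (nat_lit 540) <| L.cons (nat_lit 36798496) (nat_lit 180) (nat_lit 0) <| L.cons (nat_lit 35815424) (nat_lit 315) (nat_lit 0) <|
  L.cons (nat_lit 35783680) (nat_lit 0) (nat_lit 1035) <| L.cons (nat_lit 35782688) (nat_lit 720) (nat_lit 0) <| L.cons (nat_lit 35749888) (nat_lit 345) (nat_lit 0) <| L.cons (nat_lit 35718144) (nat_lit 945) (nat_lit 0) <| L.cons (nat_lit 35717152) (nat_lit 0) (nat_lit 90) <|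
  L.cons (nat_lit 35684352) (nat_lit 288) (nat_lit 0) <| L.cons (nat_lit 35652608) (nat_lit 288) (nat_lit 0) <| L.cons (nat_lit 35651616) (nat_lit 192) (nat_lit 0) <| L.cons (nat_lit 34799616) (nat_lit 540) (nat_lit 0) <| L.cons (nat_lit 34767872) (nat_lit 135) (nat_lit 0) <|
  L.cons (nat_lit 34766880) (nat_lit 405) (nat_lit 0) <| L.cons (nat_lit 34734081) (nat_lit 0) (nat_lit 45) <| L.cons (nat_lit 34734080) (nat_lit 0) (nat_lit 405) <| L.cons (nat_lit 34702336) (nat_lit 3240) (nat_lit 0) <| L.cons (nat_lit 34701344) (nat_lit 0) (nat_lit 2070) <|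
  L.cons (nat_lit 34668545) (nat_lit 0) (nat_lit 198) <| L.cons (nat_lit 34668544) (nat_lit 0) (nat_lit 252) <| L.cons (nat_lit 34636800) (nat_lit 0) (nat_lit 522) <| L.cons (nat_lit 34635808) (nat_lit 0) (nat_lit 366) <| L.cons (nat_lit 34603009) (nat_lit 0) (nat_lit 192) <|
  L.cons (nat_lit 34603008) (nat_lit 384) (nat_lit 0) <| L.cons (nat_lit 33783809) (nat_lit 0) (nat_lit 135) <| L.cons (nat_lit 33783808) (nat_lit 405) (nat_lit 0) <| L.cons (nat_lit 33752064) (nat_lit 810) (nat_lit 0) <| L.cons (nat_lit 33718273) (nat_lit 0) (nat_lit 720) <|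
  L.cons (nat_lit 33718272) (nat_lit 0) (nat_lit 1980) <| L.cons (nat_lit 33686528) (nat_lit 0) (nat_lit 1755) <| L.cons (nat_lit 33685536) (nat_lit 0) (nat_lit 1080) <| L.cons (nat_lit 33652737) (nat_lit 0) (nat_lit 1320) <| L.cons (nat_lit 33652736) (nat_lit 0) (nat_lit 1314) <|
  L.cons (nat_lit 33620992) (nat_lit 1620) (nat_lit 0) <| L.cons (nat_lit 33620000) (nat_lit 0) (nat_lit 1062) <| L.cons (nat_lit 33587201) (nat_lit 0) (nat_lit 768) <| L.cons (nat_lit 33587200) (nat_lit 0) (nat_lit 1776) <| L.cons (nat_lit 33555456) (nat_lit 0) (nat_lit 2880) <|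
  f38_11

/-- data -/
def f38_9 : L :=
  L.cons (nat_lit 1109491713) (nat_lit 0) (nat_lit 720) <| L.cons (nat_lit 1109491712) (nat_lit 0) (nat_lit 180) <| L.cons (nat_lit 1108475905) (nat_lit 0) (nat_lit 1620) <| L.cons (nat_lit 1108475904) (nat_lit 0) (nat_lit 405) <| L.cons (nat_lit 1108410369) (nat_lit 1305) (nat_lit 0) <|
  L.cons (nat_lit 1108410368) (nat_lit 360) (nat_lit 0) <| L.cons (nat_lit 1108344833) (nat_lit 480) (nat_lit 0) <| L.cons (nat_lit 1108344832) (nat_lit 192) (nat_lit 0) <| L.cons (nat_lit 1107460097) (nat_lit 0) (nat_lit 1080) <| L.cons (nat_lit 1107460096) (nat_lit 0) (nat_lit 270) <|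
  L.cons (nat_lit 1107394561) (nat_lit 3465) (nat_lit 0) <| L.cons (nat_lit 1107394560) (nat_lit 1170) (nat_lit 0) <| L.cons (nat_lit 1107329025) (nat_lit 0) (nat_lit 1680) <| L.cons (nat_lit 1107329024) (nat_lit 0) (nat_lit 888) <| L.cons (nat_lit 1075970049) (nat_lit 0) (nat_lit 495) <|
  L.cons (nat_lit 1075970048) (nat_lit 0) (nat_lit 90) <| L.cons (nat_lit 1075904513) (nat_lit 375) (nat_lit 0) <| L.cons (nat_lit 1075904512) (nat_lit 150) (nat_lit 0) <| L.cons (nat_lit 1075838977) (nat_lit 480) (nat_lit 0) <| L.cons (nat_lit 1075838976) (nat_lit 192) (nat_lit 0) <|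
  L.cons (nat_lit 1074954241) (nat_lit 0) (nat_lit 1485) <| L.cons (nat_lit 1074954240) (nat_lit 0) (nat_lit 270) <| L.cons (nat_lit 1074888705) (nat_lit 1125) (nat_lit 0) <| L.cons (nat_lit 1074888704) (nat_lit 450) (nat_lit 0) <| L.cons (nat_lit 1074823169) (nat_lit 1440) (nat_lit 0) <|
  L.cons (nat_lit 1074823168) (nat_lit 576) (nat_lit 0) <| L.cons (nat_lit 1073938433) (nat_lit 0) (nat_lit 945) <| L.cons (nat_lit 1073938432) (nat_lit 0) (nat_lit 135) <| L.cons (nat_lit 1073872897) (nat_lit 4320) (nat_lit 0) <| L.cons (nat_lit 1073872896) (nat_lit 1080) (nat_lit 0) <|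
  L.cons (nat_lit 1073807361) (nat_lit 0) (nat_lit 3030) <| L.cons (nat_lit 1073807360) (nat_lit 0) (nat_lit 942) <| L.cons (nat_lit 1073741825) (nat_lit 0) (nat_lit 960) <| L.cons (nat_lit 1073741824) (nat_lit 0) (nat_lit 960) <| L.cons (nat_lit 101811200) (nat_lit 0) (nat_lit 135) <|
  L.cons (nat_lit 101810208) (nat_lit 135) (nat_lit 0) <| L.cons (nat_lit 101745664) (nat_lit 0) (nat_lit 270) <| L.cons (nat_lit 101744672) (nat_lit 270) (nat_lit 0) <| L.cons (nat_lit 100795392) (nat_lit 0) (nat_lit 135) <| L.cons (nat_lit 100794400) (nat_lit 135) (nat_lit 0) <|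
  L.cons (nat_lit 100729856) (nat_lit 0) (nat_lit 270) <| L.cons (nat_lit 100728864) (nat_lit 270) (nat_lit 0) <| L.cons (nat_lit 69305344) (nat_lit 585) (nat_lit 0) <| L.cons (nat_lit 69304352) (nat_lit 0) (nat_lit 315) <| L.cons (nat_lit 69239808) (nat_lit 810) (nat_lit 0) <|
  L.cons (nat_lit 69238816) (nat_lit 0) (nat_lit 270) <| L.cons (nat_lit 68321280) (nat_lit 0) (nat_lit 135) <| L.cons (nat_lit 68289536) (nat_lit 810) (nat_lit 0) <| L.cons (nat_lit 68288544) (nat_lit 0) (nat_lit 810) <| L.cons (nat_lit 68255744) (nat_lit 0) (nat_lit 225) <|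
  f38_10

/-- data -/
def f38_8 : L :=
  L.cons (nat_lit 34393391104) (nat_lit 3375) (nat_lit 0) <| L.cons (nat_lit 34393359360) (nat_lit 2835) (nat_lit 0) <| L.cons (nat_lit 34393358368) (nat_lit 0) (nat_lit 675) <| L.cons (nat_lit 34393325569) (nat_lit 2196) (nat_lit 0) <| L.cons (nat_lit 34393325568) (nat_lit 0) (nat_lit 612) <|
  L.cons (nat_lit 34393293824) (nat_lit 1080) (nat_lit 0) <| L.cons (nat_lit 34362950656) (nat_lit 1350) (nat_lit 0) <| L.cons (nat_lit 34362949664) (nat_lit 0) (nat_lit 450) <| L.cons (nat_lit 34361966593) (nat_lit 360) (nat_lit 0) <| L.cons (nat_lit 34361966592) (nat_lit 0) (nat_lit 1170) <|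
  L.cons (nat_lit 34361934848) (nat_lit 5265) (nat_lit 0) <| L.cons (nat_lit 34361933856) (nat_lit 0) (nat_lit 3645) <| L.cons (nat_lit 34361901057) (nat_lit 405) (nat_lit 0) <| L.cons (nat_lit 34361901056) (nat_lit 0) (nat_lit 675) <| L.cons (nat_lit 34361869312) (nat_lit 405) (nat_lit 0) <|
  L.cons (nat_lit 34361868320) (nat_lit 0) (nat_lit 405) <| L.cons (nat_lit 34361835521) (nat_lit 288) (nat_lit 0) <| L.cons (nat_lit 34361835520) (nat_lit 288) (nat_lit 0) <| L.cons (nat_lit 34360950785) (nat_lit 540) (nat_lit 0) <| L.cons (nat_lit 34360950784) (nat_lit 0) (nat_lit 3240) <|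
  L.cons (nat_lit 34360919040) (nat_lit 6075) (nat_lit 0) <| L.cons (nat_lit 34360918048) (nat_lit 0) (nat_lit 7695) <| L.cons (nat_lit 34360885249) (nat_lit 435) (nat_lit 0) <| L.cons (nat_lit 34360885248) (nat_lit 0) (nat_lit 1635) <| L.cons (nat_lit 34360853504) (nat_lit 0) (nat_lit 1485) <|
  L.cons (nat_lit 34360852512) (nat_lit 0) (nat_lit 315) <| L.cons (nat_lit 34360819713) (nat_lit 0) (nat_lit 288) <| L.cons (nat_lit 34360819712) (nat_lit 1440) (nat_lit 0) <| L.cons (nat_lit 34359934977) (nat_lit 0) (nat_lit 405) <| L.cons (nat_lit 34359934976) (nat_lit 0) (nat_lit 1620) <|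
  L.cons (nat_lit 34359903232) (nat_lit 2160) (nat_lit 0) <| L.cons (nat_lit 34359902240) (nat_lit 0) (nat_lit 3915) <| L.cons (nat_lit 34359869441) (nat_lit 0) (nat_lit 3960) <| L.cons (nat_lit 34359869440) (nat_lit 1080) (nat_lit 0) <| L.cons (nat_lit 34359837696) (nat_lit 0) (nat_lit 3360) <|
  L.cons (nat_lit 34359836704) (nat_lit 2310) (nat_lit 0) <| L.cons (nat_lit 34359803905) (nat_lit 0) (nat_lit 4014) <| L.cons (nat_lit 34359803904) (nat_lit 2952) (nat_lit 0) <| L.cons (nat_lit 34359772160) (nat_lit 0) (nat_lit 1656) <| L.cons (nat_lit 34359771168) (nat_lit 774) (nat_lit 0) <|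
  L.cons (nat_lit 34359738369) (nat_lit 0) (nat_lit 3600) <| L.cons (nat_lit 34359738368) (nat_lit 2160) (nat_lit 0) <| L.cons (nat_lit 1141997569) (nat_lit 540) (nat_lit 0) <| L.cons (nat_lit 1141997568) (nat_lit 135) (nat_lit 0) <| L.cons (nat_lit 1141932033) (nat_lit 1080) (nat_lit 0) <|
  L.cons (nat_lit 1141932032) (nat_lit 270) (nat_lit 0) <| L.cons (nat_lit 1140981761) (nat_lit 540) (nat_lit 0) <| L.cons (nat_lit 1140981760) (nat_lit 135) (nat_lit 0) <| L.cons (nat_lit 1140916225) (nat_lit 1080) (nat_lit 0) <| L.cons (nat_lit 1140916224) (nat_lit 270) (nat_lit 0) <|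
  f38_9

/-- data -/
def f38_7 : L :=
  L.cons (nat_lit 35467067393) (nat_lit 0) (nat_lit 2070) <| L.cons (nat_lit 35467067392) (nat_lit 0) (nat_lit 990) <| L.cons (nat_lit 35435642881) (nat_lit 1845) (nat_lit 0) <| L.cons (nat_lit 35435642880) (nat_lit 495) (nat_lit 0) <| L.cons (nat_lit 35434627073) (nat_lit 5535) (nat_lit 0) <|
  L.cons (nat_lit 35434627072) (nat_lit 1485) (nat_lit 0) <| L.cons (nat_lit 35433611265) (nat_lit 3240) (nat_lit 0) <| L.cons (nat_lit 35433611264) (nat_lit 810) (nat_lit 0) <| L.cons (nat_lit 35433545729) (nat_lit 0) (nat_lit 3420) <| L.cons (nat_lit 35433545728) (nat_lit 0) (nat_lit 720) <|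
  L.cons (nat_lit 35433480193) (nat_lit 360) (nat_lit 0) <| L.cons (nat_lit 35433480192) (nat_lit 360) (nat_lit 0) <| L.cons (nat_lit 34461484032) (nat_lit 405) (nat_lit 0) <| L.cons (nat_lit 34461483040) (nat_lit 0) (nat_lit 405) <| L.cons (nat_lit 34460468224) (nat_lit 405) (nat_lit 0) <|
  L.cons (nat_lit 34460467232) (nat_lit 0) (nat_lit 405) <| L.cons (nat_lit 34428978176) (nat_lit 0) (nat_lit 1620) <| L.cons (nat_lit 34428977184) (nat_lit 810) (nat_lit 0) <| L.cons (nat_lit 34427994112) (nat_lit 270) (nat_lit 0) <| L.cons (nat_lit 34427962368) (nat_lit 0) (nat_lit 2025) <|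
  L.cons (nat_lit 34427961376) (nat_lit 1620) (nat_lit 0) <| L.cons (nat_lit 34427928576) (nat_lit 540) (nat_lit 0) <| L.cons (nat_lit 34427895840) (nat_lit 0) (nat_lit 270) <| L.cons (nat_lit 34426978304) (nat_lit 270) (nat_lit 0) <| L.cons (nat_lit 34426946560) (nat_lit 0) (nat_lit 405) <|
  L.cons (nat_lit 34426945568) (nat_lit 810) (nat_lit 0) <| L.cons (nat_lit 34426912768) (nat_lit 540) (nat_lit 0) <| L.cons (nat_lit 34426880032) (nat_lit 0) (nat_lit 1080) <| L.cons (nat_lit 34396472320) (nat_lit 1215) (nat_lit 0) <| L.cons (nat_lit 34396471328) (nat_lit 0) (nat_lit 405) <|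
  L.cons (nat_lit 34395488256) (nat_lit 0) (nat_lit 630) <| L.cons (nat_lit 34395456512) (nat_lit 1620) (nat_lit 0) <| L.cons (nat_lit 34395455520) (nat_lit 0) (nat_lit 945) <| L.cons (nat_lit 34395422720) (nat_lit 0) (nat_lit 270) <| L.cons (nat_lit 34395390976) (nat_lit 0) (nat_lit 270) <|
  L.cons (nat_lit 34395389984) (nat_lit 90) (nat_lit 0) <| L.cons (nat_lit 34394472449) (nat_lit 135) (nat_lit 0) <| L.cons (nat_lit 34394440704) (nat_lit 0) (nat_lit 1620) <| L.cons (nat_lit 34394439712) (nat_lit 2160) (nat_lit 0) <| L.cons (nat_lit 34394406913) (nat_lit 0) (nat_lit 135) <|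
  L.cons (nat_lit 34394406912) (nat_lit 135) (nat_lit 0) <| L.cons (nat_lit 34394375168) (nat_lit 0) (nat_lit 1485) <| L.cons (nat_lit 34394374176) (nat_lit 495) (nat_lit 0) <| L.cons (nat_lit 34394341377) (nat_lit 468) (nat_lit 0) <| L.cons (nat_lit 34394341376) (nat_lit 0) (nat_lit 72) <|
  L.cons (nat_lit 34393456641) (nat_lit 945) (nat_lit 0) <| L.cons (nat_lit 34393456640) (nat_lit 270) (nat_lit 0) <| L.cons (nat_lit 34393424896) (nat_lit 0) (nat_lit 2025) <| L.cons (nat_lit 34393423904) (nat_lit 2430) (nat_lit 0) <| L.cons (nat_lit 34393391105) (nat_lit 1035) (nat_lit 0) <|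
  f38_8

/-- data -/
def f38_6 : L :=
  L.cons (nat_lit 68787634208) (nat_lit 405) (nat_lit 0) <| L.cons (nat_lit 68786651136) (nat_lit 0) (nat_lit 405) <| L.cons (nat_lit 68786618400) (nat_lit 405) (nat_lit 0) <| L.cons (nat_lit 68755161088) (nat_lit 405) (nat_lit 0) <| L.cons (nat_lit 68755129344) (nat_lit 405) (nat_lit 0) <|
  L.cons (nat_lit 68755128352) (nat_lit 0) (nat_lit 540) <| L.cons (nat_lit 68754145280) (nat_lit 405) (nat_lit 0) <| L.cons (nat_lit 68754113536) (nat_lit 405) (nat_lit 0) <| L.cons (nat_lit 68754112544) (nat_lit 0) (nat_lit 1350) <| L.cons (nat_lit 68754079745) (nat_lit 0) (nat_lit 540) <|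
  L.cons (nat_lit 68754079744) (nat_lit 270) (nat_lit 0) <| L.cons (nat_lit 68753129473) (nat_lit 0) (nat_lit 945) <| L.cons (nat_lit 68753096736) (nat_lit 0) (nat_lit 810) <| L.cons (nat_lit 68753063937) (nat_lit 0) (nat_lit 540) <| L.cons (nat_lit 68753063936) (nat_lit 0) (nat_lit 540) <|
  L.cons (nat_lit 68753032192) (nat_lit 810) (nat_lit 0) <| L.cons (nat_lit 68722623488) (nat_lit 0) (nat_lit 405) <| L.cons (nat_lit 68722622496) (nat_lit 135) (nat_lit 0) <| L.cons (nat_lit 68721639425) (nat_lit 0) (nat_lit 270) <| L.cons (nat_lit 68721639424) (nat_lit 540) (nat_lit 0) <|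
  L.cons (nat_lit 68721607680) (nat_lit 0) (nat_lit 1215) <| L.cons (nat_lit 68721606688) (nat_lit 405) (nat_lit 0) <| L.cons (nat_lit 68721573889) (nat_lit 270) (nat_lit 0) <| L.cons (nat_lit 68721573888) (nat_lit 0) (nat_lit 540) <| L.cons (nat_lit 68720623617) (nat_lit 0) (nat_lit 180) <|
  L.cons (nat_lit 68720623616) (nat_lit 1305) (nat_lit 0) <| L.cons (nat_lit 68720591872) (nat_lit 0) (nat_lit 810) <| L.cons (nat_lit 68720590880) (nat_lit 270) (nat_lit 0) <| L.cons (nat_lit 68720558081) (nat_lit 810) (nat_lit 0) <| L.cons (nat_lit 68720558080) (nat_lit 0) (nat_lit 1620) <|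
  L.cons (nat_lit 68719607809) (nat_lit 1080) (nat_lit 0) <| L.cons (nat_lit 68719607808) (nat_lit 810) (nat_lit 0) <| L.cons (nat_lit 68719576064) (nat_lit 315) (nat_lit 0) <| L.cons (nat_lit 68719575072) (nat_lit 315) (nat_lit 0) <| L.cons (nat_lit 68719542273) (nat_lit 1890) (nat_lit 0) <|
  L.cons (nat_lit 68719542272) (nat_lit 0) (nat_lit 2970) <| L.cons (nat_lit 68719476737) (nat_lit 540) (nat_lit 0) <| L.cons (nat_lit 68719476736) (nat_lit 1620) (nat_lit 0) <| L.cons (nat_lit 35501670401) (nat_lit 0) (nat_lit 1620) <| L.cons (nat_lit 35501670400) (nat_lit 0) (nat_lit 405) <|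
  L.cons (nat_lit 35500654593) (nat_lit 0) (nat_lit 1620) <| L.cons (nat_lit 35500654592) (nat_lit 0) (nat_lit 405) <| L.cons (nat_lit 35469164545) (nat_lit 1620) (nat_lit 0) <| L.cons (nat_lit 35469164544) (nat_lit 405) (nat_lit 0) <| L.cons (nat_lit 35468148737) (nat_lit 2565) (nat_lit 0) <|
  L.cons (nat_lit 35468148736) (nat_lit 540) (nat_lit 0) <| L.cons (nat_lit 35468083201) (nat_lit 0) (nat_lit 450) <| L.cons (nat_lit 35468083200) (nat_lit 0) (nat_lit 180) <| L.cons (nat_lit 35467132929) (nat_lit 945) (nat_lit 0) <| L.cons (nat_lit 35467132928) (nat_lit 135) (nat_lit 0) <|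
  f38_7

/-- data -/
def f38_5 : L :=
  L.cons (nat_lit 1099545314304) (nat_lit 0) (nat_lit 180) <| L.cons (nat_lit 1099545313312) (nat_lit 0) (nat_lit 450) <| L.cons (nat_lit 1099545280512) (nat_lit 0) (nat_lit 390) <| L.cons (nat_lit 1099545248768) (nat_lit 360) (nat_lit 0) <| L.cons (nat_lit 1099545247776) (nat_lit 0) (nat_lit 270) <|
  L.cons (nat_lit 1099545214976) (nat_lit 0) (nat_lit 720) <| L.cons (nat_lit 1099545182240) (nat_lit 0) (nat_lit 960) <| L.cons (nat_lit 1099512808448) (nat_lit 270) (nat_lit 0) <| L.cons (nat_lit 1099512807456) (nat_lit 0) (nat_lit 90) <| L.cons (nat_lit 1099512742912) (nat_lit 0) (nat_lit 1710) <|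
  L.cons (nat_lit 1099512741920) (nat_lit 570) (nat_lit 0) <| L.cons (nat_lit 1099512677376) (nat_lit 0) (nat_lit 960) <| L.cons (nat_lit 1099512676384) (nat_lit 320) (nat_lit 0) <| L.cons (nat_lit 1099511824385) (nat_lit 270) (nat_lit 0) <| L.cons (nat_lit 1099511792640) (nat_lit 540) (nat_lit 0) <|
  L.cons (nat_lit 1099511791648) (nat_lit 0) (nat_lit 270) <| L.cons (nat_lit 1099511758849) (nat_lit 930) (nat_lit 0) <| L.cons (nat_lit 1099511758848) (nat_lit 1500) (nat_lit 0) <| L.cons (nat_lit 1099511727104) (nat_lit 180) (nat_lit 0) <| L.cons (nat_lit 1099511726112) (nat_lit 2790) (nat_lit 0) <|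
  L.cons (nat_lit 1099511693313) (nat_lit 1140) (nat_lit 0) <| L.cons (nat_lit 1099511693312) (nat_lit 2040) (nat_lit 0) <| L.cons (nat_lit 1099511661568) (nat_lit 0) (nat_lit 2520) <| L.cons (nat_lit 1099511660576) (nat_lit 5400) (nat_lit 0) <| L.cons (nat_lit 1099511627777) (nat_lit 640) (nat_lit 0) <|
  L.cons (nat_lit 1099511627776) (nat_lit 0) (nat_lit 1280) <| L.cons (nat_lit 103113818113) (nat_lit 405) (nat_lit 0) <| L.cons (nat_lit 103113818112) (nat_lit 405) (nat_lit 0) <| L.cons (nat_lit 103112802305) (nat_lit 405) (nat_lit 0) <| L.cons (nat_lit 103112802304) (nat_lit 405) (nat_lit 0) <|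
  L.cons (nat_lit 103081312257) (nat_lit 0) (nat_lit 405) <| L.cons (nat_lit 103081312256) (nat_lit 0) (nat_lit 405) <| L.cons (nat_lit 103080296449) (nat_lit 0) (nat_lit 1215) <| L.cons (nat_lit 103080296448) (nat_lit 0) (nat_lit 1215) <| L.cons (nat_lit 103079280641) (nat_lit 0) (nat_lit 810) <|
  L.cons (nat_lit 103079280640) (nat_lit 0) (nat_lit 810) <| L.cons (nat_lit 103079215105) (nat_lit 810) (nat_lit 0) <| L.cons (nat_lit 69827821569) (nat_lit 675) (nat_lit 0) <| L.cons (nat_lit 69827821568) (nat_lit 270) (nat_lit 0) <| L.cons (nat_lit 69826805761) (nat_lit 675) (nat_lit 0) <|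
  L.cons (nat_lit 69826805760) (nat_lit 270) (nat_lit 0) <| L.cons (nat_lit 69795315713) (nat_lit 0) (nat_lit 675) <| L.cons (nat_lit 69795315712) (nat_lit 0) (nat_lit 270) <| L.cons (nat_lit 69794299905) (nat_lit 0) (nat_lit 2025) <| L.cons (nat_lit 69794299904) (nat_lit 0) (nat_lit 810) <|
  L.cons (nat_lit 69793284097) (nat_lit 0) (nat_lit 1350) <| L.cons (nat_lit 69793284096) (nat_lit 0) (nat_lit 540) <| L.cons (nat_lit 69793218561) (nat_lit 270) (nat_lit 0) <| L.cons (nat_lit 69793218560) (nat_lit 270) (nat_lit 0) <| L.cons (nat_lit 68787666944) (nat_lit 0) (nat_lit 405) <|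
  f38_6

/-- data -/
def f38_4 : L :=
  L.cons (nat_lit 1168231170049) (nat_lit 540) (nat_lit 0) <| L.cons (nat_lit 1168231104513) (nat_lit 180) (nat_lit 0) <| L.cons (nat_lit 1168231104512) (nat_lit 720) (nat_lit 0) <| L.cons (nat_lit 1134978695169) (nat_lit 0) (nat_lit 1080) <| L.cons (nat_lit 1134978695168) (nat_lit 0) (nat_lit 270) <|
  L.cons (nat_lit 1134945173505) (nat_lit 0) (nat_lit 630) <| L.cons (nat_lit 1134945173504) (nat_lit 0) (nat_lit 90) <| L.cons (nat_lit 1134945107969) (nat_lit 600) (nat_lit 0) <| L.cons (nat_lit 1134945107968) (nat_lit 240) (nat_lit 0) <| L.cons (nat_lit 1133938508800) (nat_lit 270) (nat_lit 0) <|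
  L.cons (nat_lit 1133938507808) (nat_lit 0) (nat_lit 270) <| L.cons (nat_lit 1133906002944) (nat_lit 0) (nat_lit 810) <| L.cons (nat_lit 1133906001952) (nat_lit 270) (nat_lit 0) <| L.cons (nat_lit 1133905018880) (nat_lit 900) (nat_lit 0) <| L.cons (nat_lit 1133904987136) (nat_lit 270) (nat_lit 0) <|
  L.cons (nat_lit 1133904986144) (nat_lit 540) (nat_lit 0) <| L.cons (nat_lit 1133904953344) (nat_lit 0) (nat_lit 180) <| L.cons (nat_lit 1133904920608) (nat_lit 360) (nat_lit 0) <| L.cons (nat_lit 1133872481280) (nat_lit 0) (nat_lit 540) <| L.cons (nat_lit 1133872480288) (nat_lit 180) (nat_lit 0) <|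
  L.cons (nat_lit 1133872415744) (nat_lit 360) (nat_lit 0) <| L.cons (nat_lit 1133872414752) (nat_lit 0) (nat_lit 120) <| L.cons (nat_lit 1133871497217) (nat_lit 0) (nat_lit 900) <| L.cons (nat_lit 1133871497216) (nat_lit 0) (nat_lit 180) <| L.cons (nat_lit 1133871465472) (nat_lit 0) (nat_lit 810) <|
  L.cons (nat_lit 1133871464480) (nat_lit 270) (nat_lit 0) <| L.cons (nat_lit 1133871431681) (nat_lit 0) (nat_lit 630) <| L.cons (nat_lit 1133871431680) (nat_lit 90) (nat_lit 0) <| L.cons (nat_lit 1133871399936) (nat_lit 0) (nat_lit 1890) <| L.cons (nat_lit 1133871398944) (nat_lit 1890) (nat_lit 0) <|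
  L.cons (nat_lit 1133871366145) (nat_lit 0) (nat_lit 1200) <| L.cons (nat_lit 1133871366144) (nat_lit 0) (nat_lit 480) <| L.cons (nat_lit 1100619022337) (nat_lit 720) (nat_lit 0) <| L.cons (nat_lit 1100619022336) (nat_lit 180) (nat_lit 0) <| L.cons (nat_lit 1100618956801) (nat_lit 0) (nat_lit 1440) <|
  L.cons (nat_lit 1100618956800) (nat_lit 0) (nat_lit 360) <| L.cons (nat_lit 1100585500673) (nat_lit 270) (nat_lit 0) <| L.cons (nat_lit 1100585435137) (nat_lit 0) (nat_lit 2490) <| L.cons (nat_lit 1100585435136) (nat_lit 0) (nat_lit 780) <| L.cons (nat_lit 1100585369601) (nat_lit 0) (nat_lit 1600) <|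
  L.cons (nat_lit 1100585369600) (nat_lit 0) (nat_lit 640) <| L.cons (nat_lit 1099578835968) (nat_lit 0) (nat_lit 180) <| L.cons (nat_lit 1099578834976) (nat_lit 180) (nat_lit 0) <| L.cons (nat_lit 1099578770432) (nat_lit 360) (nat_lit 0) <| L.cons (nat_lit 1099578769440) (nat_lit 0) (nat_lit 360) <|
  L.cons (nat_lit 1099546330112) (nat_lit 540) (nat_lit 0) <| L.cons (nat_lit 1099546329120) (nat_lit 0) (nat_lit 180) <| L.cons (nat_lit 1099546264576) (nat_lit 0) (nat_lit 1080) <| L.cons (nat_lit 1099546263584) (nat_lit 360) (nat_lit 0) <| L.cons (nat_lit 1099545346048) (nat_lit 0) (nat_lit 450) <|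
  f38_5

/-- data -/
def f38_3 : L :=
  L.cons (nat_lit 35184406692864) (nat_lit 270) (nat_lit 0) <| L.cons (nat_lit 35184406691872) (nat_lit 0) (nat_lit 270) <| L.cons (nat_lit 35184405774337) (nat_lit 0) (nat_lit 1350) <| L.cons (nat_lit 35184405774336) (nat_lit 0) (nat_lit 2700) <| L.cons (nat_lit 35184405742592) (nat_lit 1080) (nat_lit 0) <|
  L.cons (nat_lit 35184405741600) (nat_lit 0) (nat_lit 4590) <| L.cons (nat_lit 35184405708801) (nat_lit 630) (nat_lit 0) <| L.cons (nat_lit 35184405708800) (nat_lit 1080) (nat_lit 0) <| L.cons (nat_lit 35184405677056) (nat_lit 270) (nat_lit 0) <| L.cons (nat_lit 35184405676064) (nat_lit 0) (nat_lit 270) <|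
  L.cons (nat_lit 35184405643265) (nat_lit 0) (nat_lit 960) <| L.cons (nat_lit 35184375268352) (nat_lit 0) (nat_lit 1080) <| L.cons (nat_lit 35184375267360) (nat_lit 360) (nat_lit 0) <| L.cons (nat_lit 35184374284289) (nat_lit 180) (nat_lit 0) <| L.cons (nat_lit 35184374284288) (nat_lit 1260) (nat_lit 0) <|
  L.cons (nat_lit 35184374252544) (nat_lit 0) (nat_lit 3780) <| L.cons (nat_lit 35184374251552) (nat_lit 3780) (nat_lit 0) <| L.cons (nat_lit 35184374218753) (nat_lit 240) (nat_lit 0) <| L.cons (nat_lit 35184374218752) (nat_lit 0) (nat_lit 240) <| L.cons (nat_lit 35184374187008) (nat_lit 0) (nat_lit 180) <|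
  L.cons (nat_lit 35184374186016) (nat_lit 180) (nat_lit 0) <| L.cons (nat_lit 35184373268481) (nat_lit 1080) (nat_lit 0) <| L.cons (nat_lit 35184373268480) (nat_lit 3510) (nat_lit 0) <| L.cons (nat_lit 35184373236736) (nat_lit 0) (nat_lit 3240) <| L.cons (nat_lit 35184373235744) (nat_lit 8640) (nat_lit 0) <|
  L.cons (nat_lit 35184373202945) (nat_lit 420) (nat_lit 0) <| L.cons (nat_lit 35184373202944) (nat_lit 0) (nat_lit 570) <| L.cons (nat_lit 35184373171200) (nat_lit 0) (nat_lit 540) <| L.cons (nat_lit 35184373170208) (nat_lit 540) (nat_lit 0) <| L.cons (nat_lit 35184373137409) (nat_lit 640) (nat_lit 0) <|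
  L.cons (nat_lit 35184373137408) (nat_lit 0) (nat_lit 320) <| L.cons (nat_lit 35184372252673) (nat_lit 1620) (nat_lit 0) <| L.cons (nat_lit 35184372252672) (nat_lit 1620) (nat_lit 0) <| L.cons (nat_lit 35184372220928) (nat_lit 0) (nat_lit 540) <| L.cons (nat_lit 35184372219936) (nat_lit 4320) (nat_lit 0) <|
  L.cons (nat_lit 35184372187137) (nat_lit 1080) (nat_lit 0) <| L.cons (nat_lit 35184372187136) (nat_lit 180) (nat_lit 0) <| L.cons (nat_lit 35184372155392) (nat_lit 0) (nat_lit 420) <| L.cons (nat_lit 35184372154400) (nat_lit 120) (nat_lit 0) <| L.cons (nat_lit 35184372121601) (nat_lit 0) (nat_lit 240) <|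
  L.cons (nat_lit 35184372089856) (nat_lit 320) (nat_lit 0) <| L.cons (nat_lit 35184372088864) (nat_lit 320) (nat_lit 0) <| L.cons (nat_lit 1202590842881) (nat_lit 270) (nat_lit 0) <| L.cons (nat_lit 1202590842880) (nat_lit 270) (nat_lit 0) <| L.cons (nat_lit 1169304846337) (nat_lit 450) (nat_lit 0) <|
  L.cons (nat_lit 1169304846336) (nat_lit 180) (nat_lit 0) <| L.cons (nat_lit 1168264691712) (nat_lit 0) (nat_lit 270) <| L.cons (nat_lit 1168264658976) (nat_lit 270) (nat_lit 0) <| L.cons (nat_lit 1168232154112) (nat_lit 270) (nat_lit 0) <| L.cons (nat_lit 1168232153120) (nat_lit 0) (nat_lit 90) <|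
  f38_4

/-- data -/
def f38_2 : L :=
  L.cons (nat_lit 35218732875777) (nat_lit 0) (nat_lit 240) <| L.cons (nat_lit 35218732875776) (nat_lit 120) (nat_lit 0) <| L.cons (nat_lit 35218731925505) (nat_lit 0) (nat_lit 810) <| L.cons (nat_lit 35218731925504) (nat_lit 1080) (nat_lit 0) <| L.cons (nat_lit 35218731893760) (nat_lit 0) (nat_lit 360) <|
  L.cons (nat_lit 35218731892768) (nat_lit 450) (nat_lit 0) <| L.cons (nat_lit 35218731859969) (nat_lit 0) (nat_lit 2340) <| L.cons (nat_lit 35218731828224) (nat_lit 0) (nat_lit 120) <| L.cons (nat_lit 35218731827232) (nat_lit 0) (nat_lit 120) <| L.cons (nat_lit 35185513988097) (nat_lit 1080) (nat_lit 0) <|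
  L.cons (nat_lit 35185513988096) (nat_lit 270) (nat_lit 0) <| L.cons (nat_lit 35185512972289) (nat_lit 1080) (nat_lit 0) <| L.cons (nat_lit 35185512972288) (nat_lit 270) (nat_lit 0) <| L.cons (nat_lit 35185481482241) (nat_lit 0) (nat_lit 720) <| L.cons (nat_lit 35185481482240) (nat_lit 0) (nat_lit 180) <|
  L.cons (nat_lit 35185480466433) (nat_lit 270) (nat_lit 0) <| L.cons (nat_lit 35185480466432) (nat_lit 270) (nat_lit 0) <| L.cons (nat_lit 35185479450625) (nat_lit 1350) (nat_lit 0) <| L.cons (nat_lit 35185479450624) (nat_lit 540) (nat_lit 0) <| L.cons (nat_lit 35185447960577) (nat_lit 0) (nat_lit 1620) <|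
  L.cons (nat_lit 35185447960576) (nat_lit 0) (nat_lit 540) <| L.cons (nat_lit 35185446944769) (nat_lit 0) (nat_lit 4860) <| L.cons (nat_lit 35185446944768) (nat_lit 0) (nat_lit 1620) <| L.cons (nat_lit 35185445928961) (nat_lit 0) (nat_lit 2430) <| L.cons (nat_lit 35185445928960) (nat_lit 0) (nat_lit 810) <|
  L.cons (nat_lit 35184473801728) (nat_lit 0) (nat_lit 270) <| L.cons (nat_lit 35184473800736) (nat_lit 270) (nat_lit 0) <| L.cons (nat_lit 35184472785920) (nat_lit 0) (nat_lit 270) <| L.cons (nat_lit 35184472784928) (nat_lit 270) (nat_lit 0) <| L.cons (nat_lit 35184441295872) (nat_lit 990) (nat_lit 0) <|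
  L.cons (nat_lit 35184441294880) (nat_lit 0) (nat_lit 450) <| L.cons (nat_lit 35184440311808) (nat_lit 540) (nat_lit 0) <| L.cons (nat_lit 35184440280064) (nat_lit 1080) (nat_lit 0) <| L.cons (nat_lit 35184440279072) (nat_lit 0) (nat_lit 270) <| L.cons (nat_lit 35184440246272) (nat_lit 0) (nat_lit 180) <|
  L.cons (nat_lit 35184439296000) (nat_lit 540) (nat_lit 0) <| L.cons (nat_lit 35184439263264) (nat_lit 270) (nat_lit 0) <| L.cons (nat_lit 35184439230464) (nat_lit 0) (nat_lit 180) <| L.cons (nat_lit 35184408790016) (nat_lit 0) (nat_lit 540) <| L.cons (nat_lit 35184408789024) (nat_lit 180) (nat_lit 0) <|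
  L.cons (nat_lit 35184407805952) (nat_lit 0) (nat_lit 360) <| L.cons (nat_lit 35184407774208) (nat_lit 180) (nat_lit 0) <| L.cons (nat_lit 35184407773216) (nat_lit 0) (nat_lit 360) <| L.cons (nat_lit 35184407740416) (nat_lit 120) (nat_lit 0) <| L.cons (nat_lit 35184406790145) (nat_lit 0) (nat_lit 540) <|
  L.cons (nat_lit 35184406790144) (nat_lit 0) (nat_lit 3240) <| L.cons (nat_lit 35184406758400) (nat_lit 2160) (nat_lit 0) <| L.cons (nat_lit 35184406757408) (nat_lit 0) (nat_lit 5400) <| L.cons (nat_lit 35184406724609) (nat_lit 180) (nat_lit 0) <| L.cons (nat_lit 35184406724608) (nat_lit 1260) (nat_lit 0) <|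
  f38_3

/-- data -/
def f38_1 : L :=
  L.cons (nat_lit 1125899907957760) (nat_lit 810) (nat_lit 0) <| L.cons (nat_lit 1125899907956768) (nat_lit 0) (nat_lit 5130) <| L.cons (nat_lit 1125899907923969) (nat_lit 0) (nat_lit 360) <| L.cons (nat_lit 1125899907923968) (nat_lit 1800) (nat_lit 0) <| L.cons (nat_lit 1125899906973697) (nat_lit 0) (nat_lit 1890) <|
  L.cons (nat_lit 1125899906973696) (nat_lit 0) (nat_lit 1620) <| L.cons (nat_lit 1125899906941952) (nat_lit 0) (nat_lit 180) <| L.cons (nat_lit 1125899906940960) (nat_lit 0) (nat_lit 2610) <| L.cons (nat_lit 1125899906908161) (nat_lit 1620) (nat_lit 0) <| L.cons (nat_lit 1125899906908160) (nat_lit 1080) (nat_lit 0) <|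
  L.cons (nat_lit 1125899906876416) (nat_lit 360) (nat_lit 0) <| L.cons (nat_lit 1125899906875424) (nat_lit 360) (nat_lit 0) <| L.cons (nat_lit 70368778780673) (nat_lit 540) (nat_lit 0) <| L.cons (nat_lit 70368778780672) (nat_lit 540) (nat_lit 0) <| L.cons (nat_lit 70368777764865) (nat_lit 540) (nat_lit 0) <|
  L.cons (nat_lit 70368777764864) (nat_lit 540) (nat_lit 0) <| L.cons (nat_lit 70368746274817) (nat_lit 0) (nat_lit 360) <| L.cons (nat_lit 70368746274816) (nat_lit 0) (nat_lit 360) <| L.cons (nat_lit 70368745259009) (nat_lit 0) (nat_lit 1080) <| L.cons (nat_lit 70368745259008) (nat_lit 0) (nat_lit 1080) <|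
  L.cons (nat_lit 70368744243201) (nat_lit 0) (nat_lit 540) <| L.cons (nat_lit 70368744243200) (nat_lit 0) (nat_lit 540) <| L.cons (nat_lit 36318243487745) (nat_lit 0) (nat_lit 540) <| L.cons (nat_lit 36318243487744) (nat_lit 0) (nat_lit 540) <| L.cons (nat_lit 36283883814913) (nat_lit 360) (nat_lit 0) <|
  L.cons (nat_lit 36283883814912) (nat_lit 360) (nat_lit 0) <| L.cons (nat_lit 36283883749377) (nat_lit 0) (nat_lit 720) <| L.cons (nat_lit 36283883749376) (nat_lit 0) (nat_lit 720) <| L.cons (nat_lit 35253125120001) (nat_lit 270) (nat_lit 0) <| L.cons (nat_lit 35253092614145) (nat_lit 0) (nat_lit 180) <|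
  L.cons (nat_lit 35253092614144) (nat_lit 90) (nat_lit 0) <| L.cons (nat_lit 35253091598337) (nat_lit 0) (nat_lit 540) <| L.cons (nat_lit 35253091566592) (nat_lit 0) (nat_lit 90) <| L.cons (nat_lit 35253091565600) (nat_lit 0) (nat_lit 90) <| L.cons (nat_lit 35218799984640) (nat_lit 540) (nat_lit 0) <|
  L.cons (nat_lit 35218798968832) (nat_lit 540) (nat_lit 0) <| L.cons (nat_lit 35218767478784) (nat_lit 0) (nat_lit 360) <| L.cons (nat_lit 35218766462977) (nat_lit 0) (nat_lit 540) <| L.cons (nat_lit 35218766462976) (nat_lit 0) (nat_lit 1350) <| L.cons (nat_lit 35218766430240) (nat_lit 0) (nat_lit 810) <|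
  L.cons (nat_lit 35218765447169) (nat_lit 540) (nat_lit 0) <| L.cons (nat_lit 35218765447168) (nat_lit 0) (nat_lit 810) <| L.cons (nat_lit 35218765414432) (nat_lit 0) (nat_lit 810) <| L.cons (nat_lit 35218765381633) (nat_lit 360) (nat_lit 0) <| L.cons (nat_lit 35218733957121) (nat_lit 630) (nat_lit 0) <|
  L.cons (nat_lit 35218733957120) (nat_lit 450) (nat_lit 0) <| L.cons (nat_lit 35218733924384) (nat_lit 540) (nat_lit 0) <| L.cons (nat_lit 35218732941313) (nat_lit 1170) (nat_lit 0) <| L.cons (nat_lit 35218732941312) (nat_lit 1710) (nat_lit 0) <| L.cons (nat_lit 35218732908576) (nat_lit 1620) (nat_lit 0) <|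
  f38_2

/-- data -/
def f38 : L :=
  L.cons (nat_lit 1125934301184001) (nat_lit 0) (nat_lit 810) <| L.cons (nat_lit 1125934301184000) (nat_lit 0) (nat_lit 810) <| L.cons (nat_lit 1125934300168193) (nat_lit 0) (nat_lit 1620) <| L.cons (nat_lit 1125934300168192) (nat_lit 0) (nat_lit 810) <| L.cons (nat_lit 1125934268678145) (nat_lit 540) (nat_lit 0) <|
  L.cons (nat_lit 1125934268678144) (nat_lit 540) (nat_lit 0) <| L.cons (nat_lit 1125934267662337) (nat_lit 2160) (nat_lit 0) <| L.cons (nat_lit 1125934267662336) (nat_lit 1350) (nat_lit 0) <| L.cons (nat_lit 1125934266646529) (nat_lit 2430) (nat_lit 0) <| L.cons (nat_lit 1125934266646528) (nat_lit 810) (nat_lit 0) <|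
  L.cons (nat_lit 1125934266614784) (nat_lit 270) (nat_lit 0) <| L.cons (nat_lit 1125934266613792) (nat_lit 270) (nat_lit 0) <| L.cons (nat_lit 1125901015187457) (nat_lit 0) (nat_lit 1350) <| L.cons (nat_lit 1125901015187456) (nat_lit 0) (nat_lit 540) <| L.cons (nat_lit 1125901014171649) (nat_lit 0) (nat_lit 1350) <|
  L.cons (nat_lit 1125901014171648) (nat_lit 0) (nat_lit 540) <| L.cons (nat_lit 1125900982681601) (nat_lit 900) (nat_lit 0) <| L.cons (nat_lit 1125900982681600) (nat_lit 360) (nat_lit 0) <| L.cons (nat_lit 1125900981665793) (nat_lit 2700) (nat_lit 0) <| L.cons (nat_lit 1125900981665792) (nat_lit 1080) (nat_lit 0) <|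
  L.cons (nat_lit 1125900980649985) (nat_lit 1350) (nat_lit 0) <| L.cons (nat_lit 1125900980649984) (nat_lit 540) (nat_lit 0) <| L.cons (nat_lit 1125899975032832) (nat_lit 0) (nat_lit 810) <| L.cons (nat_lit 1125899975000096) (nat_lit 0) (nat_lit 810) <| L.cons (nat_lit 1125899974017024) (nat_lit 0) (nat_lit 810) <|
  L.cons (nat_lit 1125899973984288) (nat_lit 0) (nat_lit 810) <| L.cons (nat_lit 1125899942526976) (nat_lit 540) (nat_lit 0) <| L.cons (nat_lit 1125899942495232) (nat_lit 0) (nat_lit 810) <| L.cons (nat_lit 1125899942494240) (nat_lit 810) (nat_lit 0) <| L.cons (nat_lit 1125899941511169) (nat_lit 810) (nat_lit 0) <|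
  L.cons (nat_lit 1125899941511168) (nat_lit 3240) (nat_lit 0) <| L.cons (nat_lit 1125899941479424) (nat_lit 0) (nat_lit 810) <| L.cons (nat_lit 1125899941478432) (nat_lit 4320) (nat_lit 0) <| L.cons (nat_lit 1125899941445633) (nat_lit 540) (nat_lit 0) <| L.cons (nat_lit 1125899941445632) (nat_lit 0) (nat_lit 1080) <|
  L.cons (nat_lit 1125899940495361) (nat_lit 1350) (nat_lit 0) <| L.cons (nat_lit 1125899940495360) (nat_lit 2430) (nat_lit 0) <| L.cons (nat_lit 1125899940462624) (nat_lit 3240) (nat_lit 0) <| L.cons (nat_lit 1125899940429825) (nat_lit 0) (nat_lit 540) <| L.cons (nat_lit 1125899940429824) (nat_lit 0) (nat_lit 1080) <|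
  L.cons (nat_lit 1125899909989376) (nat_lit 540) (nat_lit 0) <| L.cons (nat_lit 1125899909988384) (nat_lit 0) (nat_lit 180) <| L.cons (nat_lit 1125899909005313) (nat_lit 0) (nat_lit 540) <| L.cons (nat_lit 1125899909005312) (nat_lit 0) (nat_lit 1080) <| L.cons (nat_lit 1125899908973568) (nat_lit 1620) (nat_lit 0) <|
  L.cons (nat_lit 1125899908972576) (nat_lit 0) (nat_lit 2160) <| L.cons (nat_lit 1125899908939777) (nat_lit 0) (nat_lit 360) <| L.cons (nat_lit 1125899908939776) (nat_lit 720) (nat_lit 0) <| L.cons (nat_lit 1125899907989505) (nat_lit 0) (nat_lit 1980) <| L.cons (nat_lit 1125899907989504) (nat_lit 0) (nat_lit 3060) <|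
  f38_1

/-- data -/
def f39_9 : L :=
  L.cons (nat_lit 3211296) (nat_lit 0) (nat_lit 800) <| L.cons (nat_lit 3178497) (nat_lit 0) (nat_lit 100) <| L.cons (nat_lit 3178496) (nat_lit 200) (nat_lit 0) <| L.cons (nat_lit 2293761) (nat_lit 0) (nat_lit 1125) <| L.cons (nat_lit 2293760) (nat_lit 0) (nat_lit 225) <|
  L.cons (nat_lit 2262016) (nat_lit 0) (nat_lit 825) <| L.cons (nat_lit 2261024) (nat_lit 0) (nat_lit 1050) <| L.cons (nat_lit 2228225) (nat_lit 0) (nat_lit 700) <| L.cons (nat_lit 2228224) (nat_lit 0) (nat_lit 2000) <| L.cons (nat_lit 2196480) (nat_lit 1260) (nat_lit 0) <|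
  L.cons (nat_lit 2195488) (nat_lit 0) (nat_lit 3630) <| L.cons (nat_lit 2162689) (nat_lit 0) (nat_lit 500) <| L.cons (nat_lit 2162688) (nat_lit 1300) (nat_lit 0) <| L.cons (nat_lit 2130944) (nat_lit 3852) (nat_lit 0) <| L.cons (nat_lit 2129952) (nat_lit 0) (nat_lit 1644) <|
  L.cons (nat_lit 1277953) (nat_lit 0) (nat_lit 1825) <| L.cons (nat_lit 1277952) (nat_lit 125) (nat_lit 0) <| L.cons (nat_lit 1246208) (nat_lit 0) (nat_lit 2175) <| L.cons (nat_lit 1245216) (nat_lit 0) (nat_lit 450) <| L.cons (nat_lit 1212417) (nat_lit 250) (nat_lit 0) <|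
  L.cons (nat_lit 1212416) (nat_lit 0) (nat_lit 4100) <| L.cons (nat_lit 1180672) (nat_lit 3350) (nat_lit 0) <| L.cons (nat_lit 1179680) (nat_lit 0) (nat_lit 4840) <| L.cons (nat_lit 1146881) (nat_lit 2132) (nat_lit 0) <| L.cons (nat_lit 1146880) (nat_lit 1988) (nat_lit 0) <|
  L.cons (nat_lit 1115136) (nat_lit 8992) (nat_lit 0) <| L.cons (nat_lit 1114144) (nat_lit 0) (nat_lit 3992) <| L.cons (nat_lit 1081345) (nat_lit 600) (nat_lit 0) <| L.cons (nat_lit 1081344) (nat_lit 0) (nat_lit 1200) <| L.cons (nat_lit 262145) (nat_lit 0) (nat_lit 975) <|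
  L.cons (nat_lit 262144) (nat_lit 225) (nat_lit 0) <| L.cons (nat_lit 230400) (nat_lit 0) (nat_lit 1250) <| L.cons (nat_lit 229408) (nat_lit 100) (nat_lit 0) <| L.cons (nat_lit 196609) (nat_lit 2130) (nat_lit 0) <| L.cons (nat_lit 196608) (nat_lit 0) (nat_lit 3030) <|
  L.cons (nat_lit 164864) (nat_lit 4010) (nat_lit 0) <| L.cons (nat_lit 163872) (nat_lit 0) (nat_lit 3010) <| L.cons (nat_lit 131073) (nat_lit 0) (nat_lit 180) <| L.cons (nat_lit 131072) (nat_lit 4284) (nat_lit 0) <| L.cons (nat_lit 99328) (nat_lit 1840) (nat_lit 0) <|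
  L.cons (nat_lit 98336) (nat_lit 0) (nat_lit 1184) <| L.cons (nat_lit 65537) (nat_lit 2232) (nat_lit 0) <| L.cons (nat_lit 65536) (nat_lit 0) (nat_lit 3432) <| L.cons (nat_lit 33792) (nat_lit 1944) (nat_lit 0) <| L.cons (nat_lit 32800) (nat_lit 0) (nat_lit 1944) <|
  L.nil

/-- data -/
def f39_8 : L :=
  L.cons (nat_lit 67273728) (nat_lit 0) (nat_lit 225) <| L.cons (nat_lit 67272736) (nat_lit 225) (nat_lit 0) <| L.cons (nat_lit 67239937) (nat_lit 0) (nat_lit 450) <| L.cons (nat_lit 67239936) (nat_lit 0) (nat_lit 1350) <| L.cons (nat_lit 67208192) (nat_lit 0) (nat_lit 450) <|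
  L.cons (nat_lit 67207200) (nat_lit 0) (nat_lit 1350) <| L.cons (nat_lit 36831232) (nat_lit 225) (nat_lit 0) <| L.cons (nat_lit 36798496) (nat_lit 225) (nat_lit 0) <| L.cons (nat_lit 36765696) (nat_lit 150) (nat_lit 0) <| L.cons (nat_lit 36732960) (nat_lit 150) (nat_lit 0) <|
  L.cons (nat_lit 35815425) (nat_lit 300) (nat_lit 0) <| L.cons (nat_lit 35815424) (nat_lit 450) (nat_lit 0) <| L.cons (nat_lit 35783680) (nat_lit 750) (nat_lit 0) <| L.cons (nat_lit 35782688) (nat_lit 375) (nat_lit 0) <| L.cons (nat_lit 35749888) (nat_lit 600) (nat_lit 0) <|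
  L.cons (nat_lit 35718144) (nat_lit 0) (nat_lit 900) <| L.cons (nat_lit 35717152) (nat_lit 1050) (nat_lit 0) <| L.cons (nat_lit 34799617) (nat_lit 900) (nat_lit 0) <| L.cons (nat_lit 34799616) (nat_lit 0) (nat_lit 225) <| L.cons (nat_lit 34767872) (nat_lit 1800) (nat_lit 0) <|
  L.cons (nat_lit 34766880) (nat_lit 0) (nat_lit 525) <| L.cons (nat_lit 34734081) (nat_lit 1200) (nat_lit 0) <| L.cons (nat_lit 34734080) (nat_lit 3270) (nat_lit 0) <| L.cons (nat_lit 34702336) (nat_lit 0) (nat_lit 1440) <| L.cons (nat_lit 34701344) (nat_lit 4860) (nat_lit 0) <|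
  L.cons (nat_lit 34668544) (nat_lit 0) (nat_lit 2808) <| L.cons (nat_lit 34636800) (nat_lit 0) (nat_lit 10440) <| L.cons (nat_lit 34635808) (nat_lit 3132) (nat_lit 0) <| L.cons (nat_lit 33783809) (nat_lit 600) (nat_lit 0) <| L.cons (nat_lit 33783808) (nat_lit 0) (nat_lit 450) <|
  L.cons (nat_lit 33752064) (nat_lit 1125) (nat_lit 0) <| L.cons (nat_lit 33751072) (nat_lit 0) (nat_lit 675) <| L.cons (nat_lit 33718273) (nat_lit 1020) (nat_lit 0) <| L.cons (nat_lit 33718272) (nat_lit 2820) (nat_lit 0) <| L.cons (nat_lit 33686528) (nat_lit 0) (nat_lit 2520) <|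
  L.cons (nat_lit 33685536) (nat_lit 4410) (nat_lit 0) <| L.cons (nat_lit 33652737) (nat_lit 0) (nat_lit 1008) <| L.cons (nat_lit 33652736) (nat_lit 1224) (nat_lit 0) <| L.cons (nat_lit 33620992) (nat_lit 0) (nat_lit 468) <| L.cons (nat_lit 33620000) (nat_lit 0) (nat_lit 216) <|
  L.cons (nat_lit 4293632) (nat_lit 225) (nat_lit 0) <| L.cons (nat_lit 4292640) (nat_lit 0) (nat_lit 75) <| L.cons (nat_lit 4228096) (nat_lit 150) (nat_lit 0) <| L.cons (nat_lit 4227104) (nat_lit 0) (nat_lit 50) <| L.cons (nat_lit 3309569) (nat_lit 0) (nat_lit 225) <|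
  L.cons (nat_lit 3309568) (nat_lit 0) (nat_lit 150) <| L.cons (nat_lit 3277824) (nat_lit 375) (nat_lit 0) <| L.cons (nat_lit 3276832) (nat_lit 0) (nat_lit 600) <| L.cons (nat_lit 3244033) (nat_lit 0) (nat_lit 300) <| L.cons (nat_lit 3212288) (nat_lit 1050) (nat_lit 0) <|
  f39_9

/-- data -/
def f39_7 : L :=
  L.cons (nat_lit 34359903232) (nat_lit 2400) (nat_lit 0) <| L.cons (nat_lit 34359902240) (nat_lit 375) (nat_lit 0) <| L.cons (nat_lit 34359869441) (nat_lit 0) (nat_lit 6030) <| L.cons (nat_lit 34359869440) (nat_lit 1530) (nat_lit 0) <| L.cons (nat_lit 34359837696) (nat_lit 0) (nat_lit 3180) <|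
  L.cons (nat_lit 34359836704) (nat_lit 0) (nat_lit 2370) <| L.cons (nat_lit 34359803904) (nat_lit 0) (nat_lit 1800) <| L.cons (nat_lit 1108475905) (nat_lit 525) (nat_lit 0) <| L.cons (nat_lit 1108475904) (nat_lit 75) (nat_lit 0) <| L.cons (nat_lit 1108410369) (nat_lit 0) (nat_lit 1950) <|
  L.cons (nat_lit 1108410368) (nat_lit 0) (nat_lit 1050) <| L.cons (nat_lit 1107460097) (nat_lit 525) (nat_lit 0) <| L.cons (nat_lit 1107460096) (nat_lit 75) (nat_lit 0) <| L.cons (nat_lit 1107394561) (nat_lit 0) (nat_lit 3300) <| L.cons (nat_lit 1107394560) (nat_lit 0) (nat_lit 1050) <|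
  L.cons (nat_lit 1107329025) (nat_lit 0) (nat_lit 8100) <| L.cons (nat_lit 1076985857) (nat_lit 375) (nat_lit 0) <| L.cons (nat_lit 1076985856) (nat_lit 150) (nat_lit 0) <| L.cons (nat_lit 1076920321) (nat_lit 250) (nat_lit 0) <| L.cons (nat_lit 1076920320) (nat_lit 100) (nat_lit 0) <|
  L.cons (nat_lit 1075970049) (nat_lit 925) (nat_lit 0) <| L.cons (nat_lit 1075970048) (nat_lit 550) (nat_lit 0) <| L.cons (nat_lit 1075904513) (nat_lit 1750) (nat_lit 0) <| L.cons (nat_lit 1075904512) (nat_lit 700) (nat_lit 0) <| L.cons (nat_lit 1074954241) (nat_lit 525) (nat_lit 0) <|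
  L.cons (nat_lit 1074954240) (nat_lit 750) (nat_lit 0) <| L.cons (nat_lit 1074888705) (nat_lit 1860) (nat_lit 0) <| L.cons (nat_lit 1074888704) (nat_lit 330) (nat_lit 0) <| L.cons (nat_lit 1074823169) (nat_lit 3900) (nat_lit 0) <| L.cons (nat_lit 1074823168) (nat_lit 0) (nat_lit 1572) <|
  L.cons (nat_lit 1073938433) (nat_lit 0) (nat_lit 75) <| L.cons (nat_lit 1073938432) (nat_lit 375) (nat_lit 0) <| L.cons (nat_lit 1073872897) (nat_lit 2820) (nat_lit 0) <| L.cons (nat_lit 1073872896) (nat_lit 0) (nat_lit 600) <| L.cons (nat_lit 1073841152) (nat_lit 270) (nat_lit 0) <|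
  L.cons (nat_lit 1073840160) (nat_lit 270) (nat_lit 0) <| L.cons (nat_lit 1073807361) (nat_lit 6972) (nat_lit 0) <| L.cons (nat_lit 1073807360) (nat_lit 0) (nat_lit 300) <| L.cons (nat_lit 1073775616) (nat_lit 1620) (nat_lit 0) <| L.cons (nat_lit 1073774624) (nat_lit 1620) (nat_lit 0) <|
  L.cons (nat_lit 68321281) (nat_lit 0) (nat_lit 225) <| L.cons (nat_lit 68321280) (nat_lit 225) (nat_lit 0) <| L.cons (nat_lit 68289536) (nat_lit 0) (nat_lit 225) <| L.cons (nat_lit 68288544) (nat_lit 225) (nat_lit 0) <| L.cons (nat_lit 68255745) (nat_lit 0) (nat_lit 450) <|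
  L.cons (nat_lit 68255744) (nat_lit 0) (nat_lit 1350) <| L.cons (nat_lit 68224000) (nat_lit 0) (nat_lit 450) <| L.cons (nat_lit 68223008) (nat_lit 0) (nat_lit 1350) <| L.cons (nat_lit 67305473) (nat_lit 0) (nat_lit 225) <| L.cons (nat_lit 67305472) (nat_lit 225) (nat_lit 0) <|
  f39_8

/-- data -/
def f39_6 : L :=
  L.cons (nat_lit 35433545729) (nat_lit 1530) (nat_lit 0) <| L.cons (nat_lit 35433545728) (nat_lit 1800) (nat_lit 0) <| L.cons (nat_lit 34427994113) (nat_lit 675) (nat_lit 0) <| L.cons (nat_lit 34427962368) (nat_lit 675) (nat_lit 0) <| L.cons (nat_lit 34426978305) (nat_lit 675) (nat_lit 0) <|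
  L.cons (nat_lit 34426946560) (nat_lit 675) (nat_lit 0) <| L.cons (nat_lit 34396504064) (nat_lit 0) (nat_lit 225) <| L.cons (nat_lit 34396471328) (nat_lit 0) (nat_lit 225) <| L.cons (nat_lit 34395488257) (nat_lit 0) (nat_lit 675) <| L.cons (nat_lit 34395488256) (nat_lit 0) (nat_lit 225) <|
  L.cons (nat_lit 34395456512) (nat_lit 0) (nat_lit 1350) <| L.cons (nat_lit 34395455520) (nat_lit 0) (nat_lit 225) <| L.cons (nat_lit 34394472449) (nat_lit 0) (nat_lit 2475) <| L.cons (nat_lit 34394472448) (nat_lit 225) (nat_lit 0) <| L.cons (nat_lit 34394440704) (nat_lit 0) (nat_lit 4050) <|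
  L.cons (nat_lit 34394406912) (nat_lit 0) (nat_lit 1350) <| L.cons (nat_lit 34394374176) (nat_lit 1350) (nat_lit 0) <| L.cons (nat_lit 34393456641) (nat_lit 0) (nat_lit 1800) <| L.cons (nat_lit 34393456640) (nat_lit 225) (nat_lit 0) <| L.cons (nat_lit 34393424896) (nat_lit 0) (nat_lit 2700) <|
  L.cons (nat_lit 34393391104) (nat_lit 0) (nat_lit 1350) <| L.cons (nat_lit 34393359360) (nat_lit 2700) (nat_lit 0) <| L.cons (nat_lit 34393358368) (nat_lit 1350) (nat_lit 0) <| L.cons (nat_lit 34363966464) (nat_lit 0) (nat_lit 225) <| L.cons (nat_lit 34363965472) (nat_lit 75) (nat_lit 0) <|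
  L.cons (nat_lit 34362982401) (nat_lit 450) (nat_lit 0) <| L.cons (nat_lit 34362950656) (nat_lit 0) (nat_lit 225) <| L.cons (nat_lit 34362949664) (nat_lit 300) (nat_lit 0) <| L.cons (nat_lit 34362916865) (nat_lit 300) (nat_lit 0) <| L.cons (nat_lit 34362916864) (nat_lit 0) (nat_lit 150) <|
  L.cons (nat_lit 34361966593) (nat_lit 2625) (nat_lit 0) <| L.cons (nat_lit 34361966592) (nat_lit 75) (nat_lit 0) <| L.cons (nat_lit 34361934848) (nat_lit 2025) (nat_lit 0) <| L.cons (nat_lit 34361933856) (nat_lit 450) (nat_lit 0) <| L.cons (nat_lit 34361901057) (nat_lit 150) (nat_lit 0) <|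
  L.cons (nat_lit 34361901056) (nat_lit 1500) (nat_lit 0) <| L.cons (nat_lit 34361869312) (nat_lit 1890) (nat_lit 0) <| L.cons (nat_lit 34361868320) (nat_lit 0) (nat_lit 630) <| L.cons (nat_lit 34360950785) (nat_lit 4575) (nat_lit 0) <| L.cons (nat_lit 34360950784) (nat_lit 300) (nat_lit 0) <|
  L.cons (nat_lit 34360919040) (nat_lit 4425) (nat_lit 0) <| L.cons (nat_lit 34360918048) (nat_lit 600) (nat_lit 0) <| L.cons (nat_lit 34360885249) (nat_lit 0) (nat_lit 2490) <| L.cons (nat_lit 34360885248) (nat_lit 2370) (nat_lit 0) <| L.cons (nat_lit 34360853504) (nat_lit 510) (nat_lit 0) <|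
  L.cons (nat_lit 34360852512) (nat_lit 0) (nat_lit 3360) <| L.cons (nat_lit 34360819713) (nat_lit 0) (nat_lit 1800) <| L.cons (nat_lit 34360819712) (nat_lit 900) (nat_lit 0) <| L.cons (nat_lit 34359934977) (nat_lit 2475) (nat_lit 0) <| L.cons (nat_lit 34359934976) (nat_lit 225) (nat_lit 0) <|
  f39_7

/-- data -/
def f39_5 : L :=
  L.cons (nat_lit 1099512808448) (nat_lit 0) (nat_lit 1800) <| L.cons (nat_lit 1099512807456) (nat_lit 1150) (nat_lit 0) <| L.cons (nat_lit 1099512774657) (nat_lit 600) (nat_lit 0) <| L.cons (nat_lit 1099512774656) (nat_lit 600) (nat_lit 0) <| L.cons (nat_lit 1099512742912) (nat_lit 0) (nat_lit 26640) <|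
  L.cons (nat_lit 1099512741920) (nat_lit 9940) (nat_lit 0) <| L.cons (nat_lit 1099512709121) (nat_lit 200) (nat_lit 0) <| L.cons (nat_lit 1099512709120) (nat_lit 0) (nat_lit 400) <| L.cons (nat_lit 1099511824385) (nat_lit 1260) (nat_lit 0) <| L.cons (nat_lit 1099511824384) (nat_lit 570) (nat_lit 0) <|
  L.cons (nat_lit 1099511792640) (nat_lit 1320) (nat_lit 0) <| L.cons (nat_lit 1099511791648) (nat_lit 3120) (nat_lit 0) <| L.cons (nat_lit 1099511758849) (nat_lit 880) (nat_lit 0) <| L.cons (nat_lit 1099511758848) (nat_lit 5960) (nat_lit 0) <| L.cons (nat_lit 1099511727104) (nat_lit 0) (nat_lit 6540) <|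
  L.cons (nat_lit 1099511726112) (nat_lit 26760) (nat_lit 0) <| L.cons (nat_lit 1099511693313) (nat_lit 4720) (nat_lit 0) <| L.cons (nat_lit 1099511693312) (nat_lit 0) (nat_lit 4648) <| L.cons (nat_lit 1099511661568) (nat_lit 11160) (nat_lit 0) <| L.cons (nat_lit 1099511660576) (nat_lit 0) (nat_lit 9360) <|
  L.cons (nat_lit 68722655233) (nat_lit 0) (nat_lit 225) <| L.cons (nat_lit 68722655232) (nat_lit 0) (nat_lit 225) <| L.cons (nat_lit 68721639425) (nat_lit 0) (nat_lit 1125) <| L.cons (nat_lit 68721639424) (nat_lit 0) (nat_lit 1125) <| L.cons (nat_lit 68720623617) (nat_lit 0) (nat_lit 1575) <|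
  L.cons (nat_lit 68720623616) (nat_lit 0) (nat_lit 1575) <| L.cons (nat_lit 68720591872) (nat_lit 225) (nat_lit 0) <| L.cons (nat_lit 68720590880) (nat_lit 225) (nat_lit 0) <| L.cons (nat_lit 68720558081) (nat_lit 1350) (nat_lit 0) <| L.cons (nat_lit 68720558080) (nat_lit 1350) (nat_lit 0) <|
  L.cons (nat_lit 68719607809) (nat_lit 0) (nat_lit 675) <| L.cons (nat_lit 68719607808) (nat_lit 0) (nat_lit 675) <| L.cons (nat_lit 68719576064) (nat_lit 225) (nat_lit 0) <| L.cons (nat_lit 68719575072) (nat_lit 225) (nat_lit 0) <| L.cons (nat_lit 68719542273) (nat_lit 4050) (nat_lit 0) <|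
  L.cons (nat_lit 68719542272) (nat_lit 1350) (nat_lit 0) <| L.cons (nat_lit 35468148737) (nat_lit 0) (nat_lit 450) <| L.cons (nat_lit 35468148736) (nat_lit 225) (nat_lit 0) <| L.cons (nat_lit 35467132929) (nat_lit 0) (nat_lit 450) <| L.cons (nat_lit 35467132928) (nat_lit 225) (nat_lit 0) <|
  L.cons (nat_lit 35436658689) (nat_lit 0) (nat_lit 375) <| L.cons (nat_lit 35436658688) (nat_lit 0) (nat_lit 150) <| L.cons (nat_lit 35435642881) (nat_lit 0) (nat_lit 1050) <| L.cons (nat_lit 35435642880) (nat_lit 0) (nat_lit 825) <| L.cons (nat_lit 35434627073) (nat_lit 0) (nat_lit 900) <|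
  L.cons (nat_lit 35434627072) (nat_lit 0) (nat_lit 1575) <| L.cons (nat_lit 35434561537) (nat_lit 2790) (nat_lit 0) <| L.cons (nat_lit 35434561536) (nat_lit 900) (nat_lit 0) <| L.cons (nat_lit 35433611265) (nat_lit 0) (nat_lit 225) <| L.cons (nat_lit 35433611264) (nat_lit 0) (nat_lit 900) <|
  f39_6

/-- data -/
def f39_4 : L :=
  L.cons (nat_lit 1133873496096) (nat_lit 930) (nat_lit 0) <| L.cons (nat_lit 1133872513025) (nat_lit 0) (nat_lit 900) <| L.cons (nat_lit 1133872513024) (nat_lit 450) (nat_lit 0) <| L.cons (nat_lit 1133872481280) (nat_lit 0) (nat_lit 5400) <| L.cons (nat_lit 1133872480288) (nat_lit 2190) (nat_lit 0) <|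
  L.cons (nat_lit 1133872447489) (nat_lit 0) (nat_lit 600) <| L.cons (nat_lit 1133872447488) (nat_lit 300) (nat_lit 0) <| L.cons (nat_lit 1133871497217) (nat_lit 0) (nat_lit 3030) <| L.cons (nat_lit 1133871497216) (nat_lit 0) (nat_lit 570) <| L.cons (nat_lit 1133871465472) (nat_lit 0) (nat_lit 3420) <|
  L.cons (nat_lit 1133871464480) (nat_lit 900) (nat_lit 0) <| L.cons (nat_lit 1133871431681) (nat_lit 0) (nat_lit 4980) <| L.cons (nat_lit 1133871431680) (nat_lit 0) (nat_lit 13740) <| L.cons (nat_lit 1133871399936) (nat_lit 0) (nat_lit 2160) <| L.cons (nat_lit 1133871398944) (nat_lit 0) (nat_lit 15120) <|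
  L.cons (nat_lit 1100619022337) (nat_lit 3600) (nat_lit 0) <| L.cons (nat_lit 1100619022336) (nat_lit 1080) (nat_lit 0) <| L.cons (nat_lit 1100618956801) (nat_lit 21600) (nat_lit 0) <| L.cons (nat_lit 1100618956800) (nat_lit 6480) (nat_lit 0) <| L.cons (nat_lit 1100586516481) (nat_lit 0) (nat_lit 750) <|
  L.cons (nat_lit 1100586516480) (nat_lit 420) (nat_lit 0) <| L.cons (nat_lit 1100586450945) (nat_lit 0) (nat_lit 3380) <| L.cons (nat_lit 1100586450944) (nat_lit 4120) (nat_lit 0) <| L.cons (nat_lit 1100585500673) (nat_lit 0) (nat_lit 4980) <| L.cons (nat_lit 1100585500672) (nat_lit 0) (nat_lit 2460) <|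
  L.cons (nat_lit 1100585468928) (nat_lit 0) (nat_lit 720) <| L.cons (nat_lit 1100585467936) (nat_lit 0) (nat_lit 1800) <| L.cons (nat_lit 1100585435137) (nat_lit 0) (nat_lit 41880) <| L.cons (nat_lit 1100585435136) (nat_lit 0) (nat_lit 13800) <| L.cons (nat_lit 1100585403392) (nat_lit 0) (nat_lit 4320) <|
  L.cons (nat_lit 1100585402400) (nat_lit 0) (nat_lit 10800) <| L.cons (nat_lit 1099546361856) (nat_lit 0) (nat_lit 300) <| L.cons (nat_lit 1099546330112) (nat_lit 2160) (nat_lit 0) <| L.cons (nat_lit 1099546329120) (nat_lit 0) (nat_lit 1170) <| L.cons (nat_lit 1099546264576) (nat_lit 14400) (nat_lit 0) <|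
  L.cons (nat_lit 1099546263584) (nat_lit 0) (nat_lit 4620) <| L.cons (nat_lit 1099545346049) (nat_lit 0) (nat_lit 300) <| L.cons (nat_lit 1099545346048) (nat_lit 0) (nat_lit 150) <| L.cons (nat_lit 1099545314304) (nat_lit 60) (nat_lit 0) <| L.cons (nat_lit 1099545313312) (nat_lit 0) (nat_lit 2100) <|
  L.cons (nat_lit 1099545280513) (nat_lit 600) (nat_lit 0) <| L.cons (nat_lit 1099545280512) (nat_lit 900) (nat_lit 0) <| L.cons (nat_lit 1099545248768) (nat_lit 8520) (nat_lit 0) <| L.cons (nat_lit 1099545247776) (nat_lit 0) (nat_lit 11640) <| L.cons (nat_lit 1099513856000) (nat_lit 0) (nat_lit 200) <|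
  L.cons (nat_lit 1099513824256) (nat_lit 0) (nat_lit 450) <| L.cons (nat_lit 1099513823264) (nat_lit 150) (nat_lit 0) <| L.cons (nat_lit 1099513758720) (nat_lit 0) (nat_lit 3180) <| L.cons (nat_lit 1099513757728) (nat_lit 1540) (nat_lit 0) <| L.cons (nat_lit 1099512840193) (nat_lit 450) (nat_lit 0) <|
  f39_5

/-- data -/
def f39_3 : L :=
  L.cons (nat_lit 35184405677056) (nat_lit 0) (nat_lit 900) <| L.cons (nat_lit 35184405676064) (nat_lit 5580) (nat_lit 0) <| L.cons (nat_lit 35184375300096) (nat_lit 300) (nat_lit 0) <| L.cons (nat_lit 35184375267360) (nat_lit 200) (nat_lit 0) <| L.cons (nat_lit 35184374284289) (nat_lit 0) (nat_lit 600) <|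
  L.cons (nat_lit 35184374284288) (nat_lit 450) (nat_lit 0) <| L.cons (nat_lit 35184374252544) (nat_lit 0) (nat_lit 1680) <| L.cons (nat_lit 35184374251552) (nat_lit 360) (nat_lit 0) <| L.cons (nat_lit 35184374218753) (nat_lit 400) (nat_lit 0) <| L.cons (nat_lit 35184374218752) (nat_lit 0) (nat_lit 300) <|
  L.cons (nat_lit 35184374187008) (nat_lit 0) (nat_lit 360) <| L.cons (nat_lit 35184374186016) (nat_lit 120) (nat_lit 0) <| L.cons (nat_lit 35184373268481) (nat_lit 0) (nat_lit 1440) <| L.cons (nat_lit 35184373268480) (nat_lit 270) (nat_lit 0) <| L.cons (nat_lit 35184373236736) (nat_lit 0) (nat_lit 2730) <|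
  L.cons (nat_lit 35184373235744) (nat_lit 1170) (nat_lit 0) <| L.cons (nat_lit 35184373202945) (nat_lit 120) (nat_lit 0) <| L.cons (nat_lit 35184373202944) (nat_lit 0) (nat_lit 420) <| L.cons (nat_lit 35184373171200) (nat_lit 11980) (nat_lit 0) <| L.cons (nat_lit 35184373170208) (nat_lit 0) (nat_lit 1940) <|
  L.cons (nat_lit 35184373137409) (nat_lit 0) (nat_lit 672) <| L.cons (nat_lit 35184373137408) (nat_lit 2688) (nat_lit 0) <| L.cons (nat_lit 35184372252673) (nat_lit 0) (nat_lit 990) <| L.cons (nat_lit 35184372252672) (nat_lit 270) (nat_lit 0) <| L.cons (nat_lit 35184372220928) (nat_lit 0) (nat_lit 900) <|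
  L.cons (nat_lit 35184372219936) (nat_lit 1260) (nat_lit 0) <| L.cons (nat_lit 35184372187137) (nat_lit 0) (nat_lit 6720) <| L.cons (nat_lit 35184372187136) (nat_lit 0) (nat_lit 5880) <| L.cons (nat_lit 35184372155392) (nat_lit 0) (nat_lit 3600) <| L.cons (nat_lit 35184372154400) (nat_lit 0) (nat_lit 26280) <|
  L.cons (nat_lit 35184372121601) (nat_lit 1416) (nat_lit 0) <| L.cons (nat_lit 35184372121600) (nat_lit 0) (nat_lit 3432) <| L.cons (nat_lit 2233383059456) (nat_lit 0) (nat_lit 300) <| L.cons (nat_lit 2199023386624) (nat_lit 200) (nat_lit 0) <| L.cons (nat_lit 2199023321088) (nat_lit 0) (nat_lit 400) <|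
  L.cons (nat_lit 1168232185857) (nat_lit 450) (nat_lit 0) <| L.cons (nat_lit 1168232185856) (nat_lit 450) (nat_lit 0) <| L.cons (nat_lit 1168231170049) (nat_lit 900) (nat_lit 0) <| L.cons (nat_lit 1168231170048) (nat_lit 0) (nat_lit 630) <| L.cons (nat_lit 1134946189313) (nat_lit 0) (nat_lit 1410) <|
  L.cons (nat_lit 1134946189312) (nat_lit 300) (nat_lit 0) <| L.cons (nat_lit 1134945173505) (nat_lit 0) (nat_lit 3870) <| L.cons (nat_lit 1134945173504) (nat_lit 0) (nat_lit 630) <| L.cons (nat_lit 1133906002944) (nat_lit 1080) (nat_lit 0) <| L.cons (nat_lit 1133906001952) (nat_lit 450) (nat_lit 0) <|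
  L.cons (nat_lit 1133905018881) (nat_lit 450) (nat_lit 0) <| L.cons (nat_lit 1133904987136) (nat_lit 1530) (nat_lit 0) <| L.cons (nat_lit 1133904986144) (nat_lit 0) (nat_lit 630) <| L.cons (nat_lit 1133873528832) (nat_lit 450) (nat_lit 0) <| L.cons (nat_lit 1133873497088) (nat_lit 0) (nat_lit 1710) <|
  f39_4

/-- data -/
def f39_2 : L :=
  L.cons (nat_lit 35218733957121) (nat_lit 300) (nat_lit 0) <| L.cons (nat_lit 35218733957120) (nat_lit 450) (nat_lit 0) <| L.cons (nat_lit 35218733925376) (nat_lit 2160) (nat_lit 0) <| L.cons (nat_lit 35218733924384) (nat_lit 0) (nat_lit 720) <| L.cons (nat_lit 35218732941313) (nat_lit 900) (nat_lit 0) <|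
  L.cons (nat_lit 35218732941312) (nat_lit 900) (nat_lit 0) <| L.cons (nat_lit 35218732909568) (nat_lit 3090) (nat_lit 0) <| L.cons (nat_lit 35218732908576) (nat_lit 0) (nat_lit 2310) <| L.cons (nat_lit 35218732875777) (nat_lit 0) (nat_lit 720) <| L.cons (nat_lit 35218732875776) (nat_lit 720) (nat_lit 0) <|
  L.cons (nat_lit 35218731925505) (nat_lit 1980) (nat_lit 0) <| L.cons (nat_lit 35218731925504) (nat_lit 1530) (nat_lit 0) <| L.cons (nat_lit 35218731859969) (nat_lit 4680) (nat_lit 0) <| L.cons (nat_lit 35218731859968) (nat_lit 5580) (nat_lit 0) <| L.cons (nat_lit 35185480466433) (nat_lit 0) (nat_lit 450) <|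
  L.cons (nat_lit 35185480466432) (nat_lit 0) (nat_lit 450) <| L.cons (nat_lit 35185479450625) (nat_lit 0) (nat_lit 450) <| L.cons (nat_lit 35185479450624) (nat_lit 0) (nat_lit 450) <| L.cons (nat_lit 35185447960577) (nat_lit 300) (nat_lit 0) <| L.cons (nat_lit 35185447960576) (nat_lit 300) (nat_lit 0) <|
  L.cons (nat_lit 35185446944769) (nat_lit 0) (nat_lit 900) <| L.cons (nat_lit 35185446944768) (nat_lit 180) (nat_lit 0) <| L.cons (nat_lit 35185446879233) (nat_lit 0) (nat_lit 360) <| L.cons (nat_lit 35185445928961) (nat_lit 0) (nat_lit 1350) <| L.cons (nat_lit 35185445928960) (nat_lit 0) (nat_lit 270) <|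
  L.cons (nat_lit 35185445863425) (nat_lit 24660) (nat_lit 0) <| L.cons (nat_lit 35185445863424) (nat_lit 12060) (nat_lit 0) <| L.cons (nat_lit 35184440311809) (nat_lit 0) (nat_lit 450) <| L.cons (nat_lit 35184440311808) (nat_lit 0) (nat_lit 450) <| L.cons (nat_lit 35184440280064) (nat_lit 0) (nat_lit 450) <|
  L.cons (nat_lit 35184440279072) (nat_lit 0) (nat_lit 450) <| L.cons (nat_lit 35184439296001) (nat_lit 0) (nat_lit 450) <| L.cons (nat_lit 35184439296000) (nat_lit 0) (nat_lit 450) <| L.cons (nat_lit 35184439264256) (nat_lit 0) (nat_lit 450) <| L.cons (nat_lit 35184439263264) (nat_lit 0) (nat_lit 450) <|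
  L.cons (nat_lit 35184407805953) (nat_lit 300) (nat_lit 0) <| L.cons (nat_lit 35184407805952) (nat_lit 0) (nat_lit 150) <| L.cons (nat_lit 35184407774208) (nat_lit 300) (nat_lit 0) <| L.cons (nat_lit 35184406790145) (nat_lit 1800) (nat_lit 0) <| L.cons (nat_lit 35184406790144) (nat_lit 180) (nat_lit 0) <|
  L.cons (nat_lit 35184406758400) (nat_lit 1800) (nat_lit 0) <| L.cons (nat_lit 35184406757408) (nat_lit 420) (nat_lit 0) <| L.cons (nat_lit 35184406724609) (nat_lit 0) (nat_lit 600) <| L.cons (nat_lit 35184406724608) (nat_lit 1020) (nat_lit 0) <| L.cons (nat_lit 35184405774337) (nat_lit 1080) (nat_lit 0) <|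
  L.cons (nat_lit 35184405774336) (nat_lit 0) (nat_lit 1260) <| L.cons (nat_lit 35184405742592) (nat_lit 1350) (nat_lit 0) <| L.cons (nat_lit 35184405741600) (nat_lit 0) (nat_lit 1890) <| L.cons (nat_lit 35184405708801) (nat_lit 0) (nat_lit 480) <| L.cons (nat_lit 35184405708800) (nat_lit 0) (nat_lit 1320) <|
  f39_3

/-- data -/
def f39_1 : L :=
  L.cons (nat_lit 1125899906973696) (nat_lit 0) (nat_lit 2880) <| L.cons (nat_lit 1125899906941952) (nat_lit 0) (nat_lit 3600) <| L.cons (nat_lit 1125899906940960) (nat_lit 0) (nat_lit 7920) <| L.cons (nat_lit 1125899906908161) (nat_lit 12960) (nat_lit 0) <| L.cons (nat_lit 1125899906908160) (nat_lit 8640) (nat_lit 0) <|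
  L.cons (nat_lit 1125899906876416) (nat_lit 4320) (nat_lit 0) <| L.cons (nat_lit 1125899906875424) (nat_lit 17280) (nat_lit 0) <| L.cons (nat_lit 70368778780672) (nat_lit 720) (nat_lit 0) <| L.cons (nat_lit 70368777764865) (nat_lit 720) (nat_lit 0) <| L.cons (nat_lit 70368777764864) (nat_lit 720) (nat_lit 0) <|
  L.cons (nat_lit 70368745259009) (nat_lit 0) (nat_lit 1440) <| L.cons (nat_lit 70368745259008) (nat_lit 0) (nat_lit 2160) <| L.cons (nat_lit 70368745226272) (nat_lit 0) (nat_lit 2160) <| L.cons (nat_lit 70368744243201) (nat_lit 0) (nat_lit 4320) <| L.cons (nat_lit 70368744243200) (nat_lit 0) (nat_lit 2880) <|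
  L.cons (nat_lit 70368744211456) (nat_lit 0) (nat_lit 720) <| L.cons (nat_lit 70368744210464) (nat_lit 0) (nat_lit 2880) <| L.cons (nat_lit 36284958507009) (nat_lit 1440) (nat_lit 0) <| L.cons (nat_lit 36284957491201) (nat_lit 1440) (nat_lit 0) <| L.cons (nat_lit 36284957491200) (nat_lit 720) (nat_lit 0) <|
  L.cons (nat_lit 36283918352384) (nat_lit 300) (nat_lit 0) <| L.cons (nat_lit 36283918320640) (nat_lit 0) (nat_lit 720) <| L.cons (nat_lit 36283917336576) (nat_lit 300) (nat_lit 0) <| L.cons (nat_lit 36283917303840) (nat_lit 720) (nat_lit 0) <| L.cons (nat_lit 36283885846528) (nat_lit 0) (nat_lit 200) <|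
  L.cons (nat_lit 36283885814784) (nat_lit 1440) (nat_lit 0) <| L.cons (nat_lit 36283885813792) (nat_lit 0) (nat_lit 720) <| L.cons (nat_lit 36283884830720) (nat_lit 0) (nat_lit 600) <| L.cons (nat_lit 36283884798976) (nat_lit 2160) (nat_lit 0) <| L.cons (nat_lit 36283884797984) (nat_lit 0) (nat_lit 1440) <|
  L.cons (nat_lit 36283883814913) (nat_lit 720) (nat_lit 0) <| L.cons (nat_lit 36283883814912) (nat_lit 420) (nat_lit 0) <| L.cons (nat_lit 36283883782176) (nat_lit 0) (nat_lit 1440) <| L.cons (nat_lit 36283883749377) (nat_lit 4320) (nat_lit 0) <| L.cons (nat_lit 36283883749376) (nat_lit 4920) (nat_lit 0) <|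
  L.cons (nat_lit 35253092614145) (nat_lit 1080) (nat_lit 0) <| L.cons (nat_lit 35253092614144) (nat_lit 2160) (nat_lit 0) <| L.cons (nat_lit 35253091598337) (nat_lit 3240) (nat_lit 0) <| L.cons (nat_lit 35253091598336) (nat_lit 3240) (nat_lit 0) <| L.cons (nat_lit 35219806617601) (nat_lit 3240) (nat_lit 0) <|
  L.cons (nat_lit 35219806617600) (nat_lit 1080) (nat_lit 0) <| L.cons (nat_lit 35219805601793) (nat_lit 4320) (nat_lit 0) <| L.cons (nat_lit 35219805601792) (nat_lit 2160) (nat_lit 0) <| L.cons (nat_lit 35218766462977) (nat_lit 0) (nat_lit 450) <| L.cons (nat_lit 35218766462976) (nat_lit 0) (nat_lit 450) <|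
  L.cons (nat_lit 35218766431232) (nat_lit 0) (nat_lit 1080) <| L.cons (nat_lit 35218766430240) (nat_lit 2160) (nat_lit 0) <| L.cons (nat_lit 35218765447169) (nat_lit 0) (nat_lit 900) <| L.cons (nat_lit 35218765447168) (nat_lit 0) (nat_lit 450) <| L.cons (nat_lit 35218765414432) (nat_lit 3240) (nat_lit 0) <|
  f39_2

/-- data -/
def f39 : L :=
  L.cons (nat_lit 36029896530624512) (nat_lit 1440) (nat_lit 0) <| L.cons (nat_lit 36028831379750913) (nat_lit 0) (nat_lit 2160) <| L.cons (nat_lit 36028831379750912) (nat_lit 0) (nat_lit 2160) <| L.cons (nat_lit 36028831378735105) (nat_lit 0) (nat_lit 4320) <| L.cons (nat_lit 36028831378735104) (nat_lit 0) (nat_lit 2160) <|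
  L.cons (nat_lit 36028798093754369) (nat_lit 0) (nat_lit 3600) <| L.cons (nat_lit 36028798093754368) (nat_lit 0) (nat_lit 1440) <| L.cons (nat_lit 36028798092738561) (nat_lit 0) (nat_lit 2160) <| L.cons (nat_lit 36028798092738560) (nat_lit 0) (nat_lit 2160) <| L.cons (nat_lit 36028797053599744) (nat_lit 0) (nat_lit 2160) <|
  L.cons (nat_lit 36028797053567008) (nat_lit 0) (nat_lit 2160) <| L.cons (nat_lit 36028797052583937) (nat_lit 0) (nat_lit 2160) <| L.cons (nat_lit 36028797052583936) (nat_lit 0) (nat_lit 2160) <| L.cons (nat_lit 36028797052552192) (nat_lit 0) (nat_lit 2160) <| L.cons (nat_lit 36028797052551200) (nat_lit 0) (nat_lit 2160) <|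
  L.cons (nat_lit 36028797021062144) (nat_lit 0) (nat_lit 2160) <| L.cons (nat_lit 36028797021061152) (nat_lit 720) (nat_lit 0) <| L.cons (nat_lit 36028797020078081) (nat_lit 2160) (nat_lit 0) <| L.cons (nat_lit 36028797020078080) (nat_lit 2160) (nat_lit 0) <| L.cons (nat_lit 36028797020045344) (nat_lit 5040) (nat_lit 0) <|
  L.cons (nat_lit 36028797020012545) (nat_lit 1440) (nat_lit 0) <| L.cons (nat_lit 36028797020012544) (nat_lit 0) (nat_lit 2880) <| L.cons (nat_lit 36028797019062273) (nat_lit 5040) (nat_lit 0) <| L.cons (nat_lit 36028797019062272) (nat_lit 1440) (nat_lit 0) <| L.cons (nat_lit 36028797019030528) (nat_lit 4320) (nat_lit 0) <|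
  L.cons (nat_lit 36028797019029536) (nat_lit 4320) (nat_lit 0) <| L.cons (nat_lit 36028797018996737) (nat_lit 0) (nat_lit 10080) <| L.cons (nat_lit 36028797018996736) (nat_lit 0) (nat_lit 2880) <| L.cons (nat_lit 1161084279980033) (nat_lit 1440) (nat_lit 0) <| L.cons (nat_lit 1161084279980032) (nat_lit 1440) (nat_lit 0) <|
  L.cons (nat_lit 1161084278964225) (nat_lit 2880) (nat_lit 0) <| L.cons (nat_lit 1161084278964224) (nat_lit 1440) (nat_lit 0) <| L.cons (nat_lit 1126999418535936) (nat_lit 0) (nat_lit 1440) <| L.cons (nat_lit 1125900981665793) (nat_lit 3600) (nat_lit 0) <| L.cons (nat_lit 1125900981665792) (nat_lit 1440) (nat_lit 0) <|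
  L.cons (nat_lit 1125900980649985) (nat_lit 5760) (nat_lit 0) <| L.cons (nat_lit 1125900980649984) (nat_lit 3600) (nat_lit 0) <| L.cons (nat_lit 1125899941511168) (nat_lit 2160) (nat_lit 0) <| L.cons (nat_lit 1125899941478432) (nat_lit 2160) (nat_lit 0) <| L.cons (nat_lit 1125899940495361) (nat_lit 2160) (nat_lit 0) <|
  L.cons (nat_lit 1125899940495360) (nat_lit 4320) (nat_lit 0) <| L.cons (nat_lit 1125899940463616) (nat_lit 2160) (nat_lit 0) <| L.cons (nat_lit 1125899940462624) (nat_lit 4320) (nat_lit 0) <| L.cons (nat_lit 1125899908973568) (nat_lit 2160) (nat_lit 0) <| L.cons (nat_lit 1125899908972576) (nat_lit 0) (nat_lit 720) <|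
  L.cons (nat_lit 1125899907989505) (nat_lit 0) (nat_lit 1440) <| L.cons (nat_lit 1125899907989504) (nat_lit 0) (nat_lit 2160) <| L.cons (nat_lit 1125899907957760) (nat_lit 2160) (nat_lit 0) <| L.cons (nat_lit 1125899907956768) (nat_lit 0) (nat_lit 5760) <| L.cons (nat_lit 1125899906973697) (nat_lit 0) (nat_lit 3600) <|
  f39_1

/-- data -/
def f40 : L :=
  L.cons (nat_lit 1) (nat_lit 1) (nat_lit 0) <| L.cons (nat_lit 0) (nat_lit 0) (nat_lit 2) <|
  L.nil

/-- data -/
def f41 : L :=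
  L.cons (nat_lit 1024) (nat_lit 0) (nat_lit 3) <| L.cons (nat_lit 32) (nat_lit 1) (nat_lit 0) <|
  L.nil

/-- data -/
def G20 : LL :=
  LL.cons f20 <|
  LL.cons f19 <|
  LL.cons f18 <|
  LL.cons f17 <|
  LL.cons f16 <|
  LL.cons f15 <|
  LL.cons f14 <|
  LL.cons f13 <|
  LL.cons f12 <|
  LL.cons f11 <|
  LL.cons f10 <|
  LL.cons f9 <|
  LL.cons f8 <|
  LL.cons f7 <|
  LL.cons f6 <|
  LL.cons f5 <|
  LL.cons f4 <|
  LL.cons f3 <|
  LL.cons f2 <|
  LL.cons f1 <|
  LL.cons f0 <|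
  LL.nil

/-- data -/
def G21 : LL := LL.cons f21 G20

/-- data -/
def G22 : LL := LL.cons f22 G21

/-- data -/
def G23 : LL := LL.cons f23 G22

/-- data -/
def G24 : LL := LL.cons f24 G23

/-- data -/
def G25 : LL := LL.cons f25 G24

/-- data -/
def G26 : LL := LL.cons f26 G25

/-- data -/
def G27 : LL := LL.cons f27 G26

/-- data -/
def G28 : LL := LL.cons f28 G27

/-- data -/
def G30 : LL := LL.cons f30 G28

/-- data -/
def G31 : LL := LL.cons f31 G30

/-- data -/
def G32 : LL := LL.cons f32 G31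

/-- data -/
def G33 : LL := LL.cons f33 G32

/-- data -/
def G35 : LL := LL.cons f35 G33

/-- data -/
def G37 : LL := LL.cons f37 G35

/-- data -/
def G38 : LL := LL.cons f38 G37

/-- data -/
def G39 : LL := LL.cons f39 G38

/-- data -/
def G40 : LL := LL.cons f40 G39

/-- data -/
def G41 : LL := LL.cons f41 G40

/-- data -/
def t1 : L :=
  L.cons (nat_lit 1073741826) (nat_lit 4) (nat_lit 0) <|
  L.cons (nat_lit 1073741825) (nat_lit 0) (nat_lit 16) <|
  L.cons (nat_lit 1073741824) (nat_lit 16) (nat_lit 0) <|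
  L.cons (nat_lit 2048) (nat_lit 9) (nat_lit 0) <|
  L.cons (nat_lit 1056) (nat_lit 0) (nat_lit 6) <|
  L.cons (nat_lit 64) (nat_lit 1) (nat_lit 0) <|
  L.nil

/-- data -/
def t2 : L :=
  L.cons (nat_lit 2147483648) (nat_lit 0) (nat_lit 1) <|
  L.cons (nat_lit 1073743872) (nat_lit 1) (nat_lit 0) <|
  L.nil


end Vale.Agent.P280Z.M2.K1
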