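import Vale.Agent.P280Z.M2.K1.D0
import Vale.Agent.P280Z.M2.K1.D1
import Vale.Agent.P280Z.M2.K1.D2
import Vale.Agent.P280Z.M2.K1.D3
import Vale.Agent.P280Z.M2.K1.D4
import Vale.Agent.P280Z.M2.K1.D5
import Vale.Agent.P280Z.M2.K1.D6
import Vale.Agent.P280Z.M2.K1.D7
import Vale.Agent.P280Z.M2.K1.F

/-!
# P280Z, block M2: data of a certificate
-/

noncomputable section

namespace Vale.Agent.P280Z.M2.K1

open Al.C3

/-- data -/
def cs : LL :=
  LL.cons c39 <|
  LL.cons c38 <|
  LL.cons c37 <|
  LL.cons c35 <|
  LL.cons c33 <|
  LL.cons c32 <|
  LL.cons c31 <|
  LL.cons c30 <|
  LL.cons c28 <|
  LL.cons c27 <|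
  LL.cons c26 <|
  LL.cons c25 <|
  LL.cons c24 <|
  LL.cons c23 <|
  LL.cons c22 <|
  LL.cons c21 <|
  LL.cons c20 <|
  LL.cons c19 <|
  LL.cons c18 <|
  LL.cons c17 <|
  LL.cons c16 <|
  LL.cons c15 <|
  LL.cons c14 <|
  LL.cons c13 <|
  LL.cons L.nil <|
  LL.cons c11 <|
  LL.cons c10 <|
  LL.cons c9 <|
  LL.cons c8 <|
  LL.cons c7 <|
  LL.cons L.nil <|
  LL.cons c5 <|
  LL.cons c4 <|
  LL.cons c3 <|
  LL.cons c2 <|
  LL.cons c1 <|
  LL.cons c0 <|
  LL.nil

/-- data -/
def n1 : ℕ := nat_lit 19615472428630040815854356942502570290986400137002627770538724471460291337495871009865304087898699788984470172880328472906543261808886004114685269277391507122646640877882973443358768316458149131878761462095339808082097492026444206009523730720971447142748733604939341149736943776857664952411978648707845870552290720097817555338742408473312825467197576990287740151112680239316905233580981705740858978612085770193407135651779261666113364739421924897721056334875302860598728686374220852953544661754353698203630884056707470857220323828045024912047486951889261592384374873489537308076295326869546060854510392148109590572490619769649212929052158854248630960763243692826153404935912481479214984713899031822140042603691355181602992988280794862087468122836022454500609249154325757003343171320999180152975719454536670607811258957970915095582731137122744093727370470798963776384638513770664146832986261237975466675786276919620954230793757558799155580118012345687771352416593133088405107899958751985863424444941875102260814001156443007832575485899295928485065288380911616712698871305020853151544173475572713024385360406489932528436825995878354408700860124374793819733221451721577024471732421102480220531349585683066638254864775301809285092171525854871010852255030914295104543070916118177935563041683097025600000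

end Vale.Agent.P280Z.M2.K1
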